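import Vale.Agent.P167.H450.Brick

/-!
# Brick polygons inside a rough domain: the main theorem
-/

namespace Vale.Agent.P167.H450

open Set Metric Vale.Agent.P167.E6

variable {ℓ ρ : ℝ} {D E : Set ℂ} {F F' F₀ b : ℤ × ℤ} {z w : ℂ}

theorem bricky_gf (ℓ ρ : ℝ) (D E : Set ℂ) : Bricky (GF ℓ ρ D E) := by
  intro F F' h
  show Good ℓ ρ D E (br F) ↔ Good ℓ ρ D E (br F')
  rw [h]

/-- Two faces of a brick are equal or adjacent. -/
theorem brick_adj (h : br F = br F') : F = F' ∨ ∃ r, F' = F + dir r := by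
  obtain ⟨a, b⟩ := F
  obtain ⟨c, d⟩ := F'
  simp only [br, Prod.mk.injEq] at h
  obtain ⟨h1, rfl⟩ := h
  have : c = a ∨ c = a + 1 ∨ c = a - 1 := by omega
  rcases this with rfl | rfl | rfl
  · exact Or.inl rfl
  · exact Or.inr ⟨0, by simp [dir]⟩
  · exact Or.inr ⟨2, by simp [dir]; ring⟩

theorem cmp_subset {A : Set (ℤ × ℤ)} (h : F₀ ∈ A) : Cmp A F₀ ⊆ A := by
  intro F hF
  rcases Relation.ReflTransGen.cases_tail hF with h' | ⟨d, -, h'⟩
  · rw [h']; exact h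
  · exact h'.1

theorem cmp_self {A : Set (ℤ × ℤ)} : F₀ ∈ Cmp A F₀ := Relation.ReflTransGen.refl

theorem cmp_adj {A : Set (ℤ × ℤ)} (h : F ∈ Cmp A F₀) (hF' : F' ∈ A) (hr : ∃ r, F' = F + dir r) :
    F' ∈ Cmp A F₀ := Relation.ReflTransGen.tail h ⟨hF', hr⟩

theorem cmp_trans {A : Set (ℤ × ℤ)} (h : F ∈ Cmp A F₀)
    (h' : Relation.ReflTransGen (Adj A) F F') : F' ∈ Cmp A F₀ := Relation.ReflTransGen.trans h h'

theorem adj_symm (h : ∃ r, F' = F + dir r) : ∃ r, F = F' + dir r := by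
  obtain ⟨r, rfl⟩ := h
  refine ⟨r + 2, ?_⟩
  obtain ⟨a, b⟩ := F
  fin_cases r <;> simp [dir]

theorem bricky_cmp {A : Set (ℤ × ℤ)} (h : F₀ ∈ A) (hA : Bricky A) : Bricky (Cmp A F₀) := by
  have key : ∀ F F', br F = br F' → F ∈ Cmp A F₀ → F' ∈ Cmp A F₀ := by
    intro F F' hb hF
    rcases brick_adj hb with rfl | hr
    · exact hF
    · exact cmp_adj hF ((hA _ _ hb).1 (cmp_subset h hF)) hr
  intro F F' hb
  exact ⟨key F F' hb, key F' F hb.symm⟩

/-- Components are connected. -/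
theorem conn_cmp {A : Set (ℤ × ℤ)} : Conn (Cmp A F₀) := by
  have h1 : ∀ F ∈ Cmp A F₀, Relation.ReflTransGen (Adj (Cmp A F₀)) F₀ F := by
    intro F hF
    induction hF with
    | refl => exact Relation.ReflTransGen.refl
    | tail hab hbc ih => exact ih.tail ⟨Relation.ReflTransGen.tail hab hbc, hbc.2⟩
  have h2 : ∀ F ∈ Cmp A F₀, Relation.ReflTransGen (Adj (Cmp A F₀)) F F₀ := by
    intro F hF
    induction hF with
    | refl => exact Relation.ReflTransGen.refl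
    | tail hab hbc ih => exact Relation.ReflTransGen.head ⟨hab, adj_symm hbc.2⟩ ih
  intro F hF F' hF'
  exact (h2 F hF).trans (h1 F' hF')

/-- The centre of the square is in the open brick. -/
theorem center_mem (hℓ : 0 < ℓ) (F : ℤ × ℤ) :
    (⟨ℓ * (F.1 + 1 / 2), ℓ * (F.2 + 1 / 2)⟩ : ℂ) ∈ obk ℓ (br F) := by
  obtain ⟨h1, h2⟩ := (br_eq_iff (F := F) (b := br F)).1 rfl
  have e2 : (F.2 : ℝ) = (br F).2 := by rw [h2]
  have h3 : ((F.1 : ℝ) = 2 * (br F).1 - (br F).2) ∨ ((F.1 : ℝ) = 2 * (br F).1 - (br F).2 + 1) := by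
    rcases h1 with h | h
    · left; rw [h]; push_cast; ring
    · right; rw [h]; push_cast; ring
  refine ⟨?_, ?_, ?_, ?_⟩
  · show ℓ * _ < ℓ * _
    apply mul_lt_mul_of_pos_left _ hℓ
    rcases h3 with h | h <;> linarith
  · show ℓ * _ < ℓ * _
    apply mul_lt_mul_of_pos_left _ hℓ
    rcases h3 with h | h <;> linarith
  · show ℓ * _ < ℓ * _
    apply mul_lt_mul_of_pos_left _ hℓ
    linarith
  · show ℓ * _ < ℓ * _
    apply mul_lt_mul_of_pos_left _ hℓ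
    linarith

theorem obk_subset_bk : obk ℓ b ⊆ bk ℓ b := fun _ h => ⟨h.1.le, h.2.1.le, h.2.2.1.le, h.2.2.2.le⟩

/-- Finitely many good faces. -/
theorem finite_gf (hℓ : 0 < ℓ) (hD : Bornology.IsBounded D) : (GF ℓ ρ D E).Finite := by
  obtain ⟨R, hR⟩ := hD.subset_closedBall 0
  obtain ⟨n, hn⟩ := exists_nat_gt (R / ℓ + 1)
  apply Set.Finite.subset ((Set.finite_Icc (-(n : ℤ)) n).prod (Set.finite_Icc (-(n : ℤ)) n))
  intro F hF
  have h1 := hR (hF.2 (center_mem hℓ F))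
  rw [mem_closedBall, dist_zero_right] at h1
  have a1 := (Complex.abs_re_le_norm _).trans h1
  have a2 := (Complex.abs_im_le_norm _).trans h1
  simp only at a1 a2
  have key : ∀ a : ℤ, |ℓ * ((a : ℝ) + 1 / 2)| ≤ R → -(n : ℤ) ≤ a ∧ a ≤ n := by
    intro a ha
    rw [abs_mul, abs_of_pos hℓ] at ha
    have h3 : |(a : ℝ) + 1 / 2| ≤ R / ℓ := by
      rw [le_div_iff₀ hℓ, mul_comm]; exact ha
    rw [abs_le] at h3
    have h4 : -(n : ℝ) ≤ a := by linarith [h3.1]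
    have h5 : (a : ℝ) ≤ n := by linarith [h3.2]
    exact ⟨by exact_mod_cast h4, by exact_mod_cast h5⟩
  exact ⟨key _ a1, key _ a2⟩

/-- The non-good bricks are joined to the complement of `D` near them. -/
theorem exists_exit (hℓ : 0 < ℓ) (hρ : 0 < ρ) (hDE : D ⊆ E) (hF : F ∉ GF ℓ ρ D E) :
    ∃ z ∈ bk ℓ (br F), ∃ w, w ∉ D ∧ dist w z < ρ ∧
      ∀ u ∈ segment ℝ z w, ∀ G, u ∈ sqr ℓ G → G ∉ GF ℓ ρ D E ∨ br G = br F := by
  have hF' : ¬ ((∀ z ∈ bk ℓ (br F), ball z ρ ⊆ E) ∧ obk ℓ (br F) ⊆ D) := hF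
  rw [not_and_or] at hF'
  rcases hF' with h | h
  · push Not at h
    obtain ⟨z, hz, hw⟩ := h
    obtain ⟨w, hw1, hw2⟩ := not_subset.1 hw
    refine ⟨z, hz, w, fun h => hw2 (hDE h), hw1, fun u hu G hG => Or.inl fun hGF => ?_⟩
    have h1 := hGF.1 u (sqr_subset_bk hℓ hG)
    apply hw2
    apply h1
    rw [mem_ball]
    have : dist w u ≤ dist w z := by
      rw [segment_symm] at hu
      obtain ⟨s, t, hs, ht, hst, rfl⟩ := hu
      rw [dist_eq_norm, dist_eq_norm]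
      have e : w - (s • w + t • z) = t • (w - z) := by
        have : s = 1 - t := by linarith
        rw [this]; simp only [sub_smul, one_smul, smul_sub]; abel
      rw [e, norm_smul, Real.norm_eq_abs, abs_of_nonneg ht]
      have := norm_nonneg (w - z)
      nlinarith
    exact lt_of_le_of_lt this hw1
  · obtain ⟨w, hw1, hw2⟩ := not_subset.1 h
    refine ⟨w, obk_subset_bk hw1, w, hw2, by rw [dist_self]; exact hρ, fun u hu G hG => ?_⟩
    rw [segment_same] at hu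
    rw [mem_singleton_iff] at hu
    subst hu
    right
    -- the open brick meets only its two squares
    obtain ⟨g1, g2, g3, g4⟩ := hG
    obtain ⟨k1, k2, k3, k4⟩ := hw1
    rw [br_eq_iff]
    have c1 : ℓ * ((2 * (br F).1 - (br F).2 : ℤ) : ℝ) < ℓ * ((G.1 + 1 : ℤ) : ℝ) := by
      push_cast; linarith
    have c2 : ℓ * ((G.1 : ℤ) : ℝ) < ℓ * ((2 * (br F).1 - (br F).2 + 2 : ℤ) : ℝ) := by
      push_cast; linarith
    have c3 : ℓ * (((br F).2 : ℤ) : ℝ) < ℓ * ((G.2 + 1 : ℤ) : ℝ) := by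
      push_cast; linarith
    have c4 : ℓ * ((G.2 : ℤ) : ℝ) < ℓ * (((br F).2 + 1 : ℤ) : ℝ) := by
      push_cast; linarith
    have d1 := Int.cast_lt.1 (lt_of_mul_lt_mul_left c1 hℓ.le)
    have d2 := Int.cast_lt.1 (lt_of_mul_lt_mul_left c2 hℓ.le)
    have d3 := Int.cast_lt.1 (lt_of_mul_lt_mul_left c3 hℓ.le)
    have d4 := Int.cast_lt.1 (lt_of_mul_lt_mul_left c4 hℓ.le)
    constructor
    · omega
    · omega

/-- Data of the construction. -/
structure Data (ℓ ρ : ℝ) (D E : Set ℂ) (F₀ : ℤ × ℤ) : Prop where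
  hℓ : 0 < ℓ
  hρ : 0 < ρ
  bdd : Bornology.IsBounded D
  pc : IsPreconnected Dᶜ
  hDE : D ⊆ E
  flat : ∀ z ∈ E, z ∉ D → ∃ F, z ∈ sqr ℓ F ∧ ¬ (obk ℓ (br F) ⊆ D)
  good : F₀ ∈ GF ℓ ρ D E

namespace Data

variable (H : Data ℓ ρ D E F₀)
include H

theorem finite : (Cmp (GF ℓ ρ D E) F₀).Finite := (finite_gf H.hℓ H.bdd).subset (cmp_subset H.good)

theorem bricky : Bricky (Cmp (GF ℓ ρ D E) F₀) := bricky_cmp H.good (bricky_gf ℓ ρ D E)

theorem not_good_of_not_mem {z : ℂ} (hz : z ∉ D) : ∃ F, z ∈ sqr ℓ F ∧ F ∉ GF ℓ ρ D E := by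
  obtain ⟨F, hF⟩ := exists_sqr H.hℓ z
  by_cases h : F ∈ GF ℓ ρ D E
  · have h1 : z ∈ E := h.1 z (sqr_subset_bk H.hℓ hF) (mem_ball_self H.hρ)
    obtain ⟨F', hF', hn⟩ := H.flat z h1 hz
    exact ⟨F', hF', fun h => hn h.2⟩
  · exact ⟨F, hF, h⟩

theorem compl_subset : Dᶜ ⊆ reg ℓ (Cmp (GF ℓ ρ D E) F₀)ᶜ := by
  intro z hz
  obtain ⟨F, hF, hn⟩ := H.not_good_of_not_mem hz
  exact ⟨F, fun h => hn (cmp_subset H.good h), hF⟩

theorem conn_compl : Conn (Cmp (GF ℓ ρ D E) F₀)ᶜ := by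
  apply H450.conn_compl H.hℓ H.bricky H.pc H.compl_subset
  -- faces which are not good
  have bad : ∀ F ∉ GF ℓ ρ D E, ∃ C : Set ℂ, IsPreconnected C ∧
      C ⊆ reg ℓ (Cmp (GF ℓ ρ D E) F₀)ᶜ ∧ bk ℓ (br F) ⊆ C ∧ (C ∩ Dᶜ).Nonempty := by
    intro F hF
    obtain ⟨z, hz, w, hw, -, hseg⟩ := exists_exit H.hℓ H.hρ H.hDE hF
    have hb : ∀ G, br G = br F → G ∉ Cmp (GF ℓ ρ D E) F₀ := fun G hG h =>
      hF ((bricky_gf ℓ ρ D E _ _ hG).1 (cmp_subset H.good h))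
    refine ⟨bk ℓ (br F) ∪ segment ℝ z w, ?_, ?_, subset_union_left, w, ?_, hw⟩
    · exact IsPreconnected.union z hz (left_mem_segment ℝ z w) (convex_bk ℓ _).isPreconnected
        (convex_segment z w).isPreconnected
    · rintro u (hu | hu)
      · obtain ⟨G, hG, huG⟩ := bk_subset hu
        exact ⟨G, hb G hG, huG⟩
      · obtain ⟨G, huG⟩ := exists_sqr H.hℓ u
        refine ⟨G, ?_, huG⟩
        rcases hseg u hu G huG with h | h
        · exact fun h' => h (cmp_subset H.good h')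
        · exact hb G h
    · exact Or.inr (right_mem_segment ℝ z w)
  have hcent : ∀ F : ℤ × ℤ, (⟨ℓ * (F.1 + 1 / 2), ℓ * (F.2 + 1 / 2)⟩ : ℂ) ∈ sqr ℓ F := by
    intro F
    have := H.hℓ
    refine ⟨?_, ?_, ?_, ?_⟩ <;> simp only <;> nlinarith
  -- walk to the right until the first face which is not good
  obtain ⟨M, hM⟩ : ∃ M : ℤ, ∀ F ∈ GF ℓ ρ D E, F.1 ≤ M := by
    obtain ⟨M, hM⟩ := ((finite_gf (ρ := ρ) (E := E) H.hℓ H.bdd).image Prod.fst).bddAbove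
    exact ⟨M, fun F hF => hM ⟨F, hF, rfl⟩⟩
  have walk : ∀ n : ℕ, ∀ F : ℤ × ℤ, F ∉ Cmp (GF ℓ ρ D E) F₀ → M - F.1 < n →
      ∃ C : Set ℂ, IsPreconnected C ∧ C ⊆ reg ℓ (Cmp (GF ℓ ρ D E) F₀)ᶜ ∧ sqr ℓ F ⊆ C ∧
        (C ∩ Dᶜ).Nonempty := by
    intro n
    induction n with
    | zero =>
      intro F _ hn
      have : F ∉ GF ℓ ρ D E := fun h => by
        have := hM F h
        push_cast at hn
        omega
      obtain ⟨C, h1, h2, h3, h4⟩ := bad F this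
      exact ⟨C, h1, h2, (sqr_subset_bk H.hℓ).trans h3, h4⟩
    | succ n ih =>
      intro F hF hn
      by_cases hg : F ∈ GF ℓ ρ D E
      · have hF1 : F + dir 0 ∉ Cmp (GF ℓ ρ D E) F₀ := fun h =>
          hF (cmp_adj h hg (adj_symm ⟨0, rfl⟩))
        have e1 : (F + dir 0).1 = F.1 + 1 := by simp [dir]
        have e2 : (F + dir 0).2 = F.2 := by simp [dir]
        obtain ⟨C, h1, h2, h3, h4⟩ := ih _ hF1 (by rw [e1]; push_cast at hn; omega)
        -- a common point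
        have hp1 : (⟨ℓ * (F.1 + 1), ℓ * F.2⟩ : ℂ) ∈ sqr ℓ F := by
          have := H.hℓ
          refine ⟨?_, ?_, ?_, ?_⟩ <;> simp only <;> nlinarith
        have hp2 : (⟨ℓ * (F.1 + 1), ℓ * F.2⟩ : ℂ) ∈ sqr ℓ (F + dir 0) := by
          have := H.hℓ
          refine ⟨?_, ?_, ?_, ?_⟩ <;> simp only [e1, e2] <;> push_cast <;> nlinarith
        refine ⟨sqr ℓ F ∪ C, ?_, ?_, subset_union_left, ?_⟩
        · exact IsPreconnected.union _ hp1 (h3 hp2) (isPreconnected_sqr ℓ F) h1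
        · rintro u (hu | hu)
          · exact ⟨F, hF, hu⟩
          · exact h2 hu
        · obtain ⟨u, hu⟩ := h4
          exact ⟨u, Or.inr hu.1, hu.2⟩
      · obtain ⟨C, h1, h2, h3, h4⟩ := bad F hg
        exact ⟨C, h1, h2, (sqr_subset_bk H.hℓ).trans h3, h4⟩
  intro F hF
  obtain ⟨C, h1, h2, h3, h4⟩ := walk (M - F.1).toNat.succ F hF (by
    have := Int.self_le_toNat (M - F.1)
    push_cast
    omega)
  exact ⟨C, h1, h2, ⟨_, h3 (hcent F), hcent F⟩, h4⟩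

/-- `P` is inside `D`. -/
theorem subset_dom : interior (reg ℓ (Cmp (GF ℓ ρ D E) F₀)) ⊆ D := by
  intro z hz
  by_contra h
  obtain ⟨F, hF, hn⟩ := H.not_good_of_not_mem h
  exact hn (cmp_subset H.good (mem_of_interior H.hℓ hz hF))

/-- The closed region has distance at least `ρ` from the complement of `E`. -/
theorem margin {z : ℂ} (hz : z ∈ reg ℓ (Cmp (GF ℓ ρ D E) F₀)) : ball z ρ ⊆ E := by
  obtain ⟨F, hF, hz⟩ := hz
  exact (cmp_subset H.good hF).1 z (sqr_subset_bk H.hℓ hz)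

/-- Points at distance at least `ρ + 3 ℓ` from the complement of `D` are in good bricks only. -/
theorem good_of_ball {z : ℂ} (hz : ball z (ρ + 3 * ℓ) ⊆ D) (hF : z ∈ sqr ℓ F) :
    F ∈ GF ℓ ρ D E := by
  have h0 := H.hρ
  have key : ∀ u ∈ bk ℓ (br F), ball u ρ ⊆ D := by
    intro u hu
    apply Subset.trans _ hz
    apply ball_subset_ball'
    have := dist_le_of_bk hu (sqr_subset_bk H.hℓ hF)
    linarith
  exact ⟨fun u hu => (key u hu).trans H.hDE, fun u hu => key u (obk_subset_bk hu)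
    (mem_ball_self h0)⟩

/-- Two faces with a common point all of whose faces are good are in the same component. -/
theorem same_cmp {z : ℂ} (hz : ∀ F, z ∈ sqr ℓ F → F ∈ GF ℓ ρ D E) (hF : z ∈ sqr ℓ F)
    (hF' : z ∈ sqr ℓ F') (h : F ∈ Cmp (GF ℓ ρ D E) F₀) : F' ∈ Cmp (GF ℓ ρ D E) F₀ :=
  cmp_trans h (conn_mix H.hℓ (hz _ hF') hF hF' (hz _ (mem_mix hF hF')))

/-- (inner) -/
theorem inner {C : Set ℂ} (hC : IsPreconnected C) {z₀ : ℂ} (hz₀ : z₀ ∈ C) (hF₀ : z₀ ∈ sqr ℓ F₀)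
    (hb : ∀ z ∈ C, ball z (ρ + 3 * ℓ) ⊆ D) : C ⊆ interior (reg ℓ (Cmp (GF ℓ ρ D E) F₀)) := by
  have hg : ∀ z ∈ C, ∀ F, z ∈ sqr ℓ F → F ∈ GF ℓ ρ D E := fun z hz F hF =>
    H.good_of_ball (hb z hz) hF
  have hsub : C ⊆ reg ℓ (Cmp (GF ℓ ρ D E) F₀) := by
    by_contra hns
    obtain ⟨u, hu, hun⟩ := not_subset.1 hns
    have hcov : C ⊆ reg ℓ (Cmp (GF ℓ ρ D E) F₀) ∪
        reg ℓ (GF ℓ ρ D E \ Cmp (GF ℓ ρ D E) F₀) := by
      intro z hz
      obtain ⟨F, hF⟩ := exists_sqr H.hℓ z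
      by_cases h : F ∈ Cmp (GF ℓ ρ D E) F₀
      · exact Or.inl ⟨F, h, hF⟩
      · exact Or.inr ⟨F, ⟨hg z hz F hF, h⟩, hF⟩
    have h2 : u ∈ reg ℓ (GF ℓ ρ D E \ Cmp (GF ℓ ρ D E) F₀) := by
      rcases hcov hu with h | h
      · exact absurd h hun
      · exact h
    obtain ⟨z, hz, ⟨F, hF, hzF⟩, F', hF', hzF'⟩ := isPreconnected_closed_iff.1 hC _ _
      (isClosed_reg H.hℓ _) (isClosed_reg H.hℓ _) hcov ⟨z₀, hz₀, F₀, cmp_self, hF₀⟩ ⟨u, hu, h2⟩
    exact hF'.2 (H.same_cmp (hg z hz) hzF hzF' hF)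
  intro z hz
  obtain ⟨F, hF, hzF⟩ := hsub hz
  exact mem_interior_reg H.hℓ fun F' hF' => H.same_cmp (hg z hz) hzF hF' hF

/-- There is a non-good face at every frontier point. -/
theorem bad_face {y : ℂ} (hy : y ∈ frontier (interior (reg ℓ (Cmp (GF ℓ ρ D E) F₀)))) :
    ∃ F, y ∈ sqr ℓ F ∧ F ∉ GF ℓ ρ D E := by
  by_contra hcon
  push Not at hcon
  have h1 : y ∈ reg ℓ (Cmp (GF ℓ ρ D E) F₀) :=
    closure_minimal interior_subset (isClosed_reg H.hℓ _) hy.1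
  obtain ⟨F, hF, hyF⟩ := h1
  have h2 : y ∉ interior (reg ℓ (Cmp (GF ℓ ρ D E) F₀)) := by
    have := hy.2
    rwa [interior_interior] at this
  exact h2 (mem_interior_reg H.hℓ fun F' hF' => H.same_cmp hcon hyF hF' hF)

/-- (collar) -/
theorem collar {y : ℂ} (hy : y ∈ frontier (interior (reg ℓ (Cmp (GF ℓ ρ D E) F₀)))) :
    ∃ g : ℝ → ℂ, Continuous g ∧ g 0 = y ∧ g 1 ∉ D ∧ ∀ t ∈ Icc (0 : ℝ) 1,
      g t ∉ interior (reg ℓ (Cmp (GF ℓ ρ D E) F₀)) ∧ dist (g t) y ≤ ρ + 3 * ℓ := by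
  obtain ⟨F, hyF, hF⟩ := H.bad_face hy
  obtain ⟨z, hz, w, hw, hd, hseg⟩ := exists_exit H.hℓ H.hρ H.hDE hF
  have hρ := H.hρ
  have hℓ := H.hℓ
  have hb : ∀ G, br G = br F → G ∉ Cmp (GF ℓ ρ D E) F₀ := fun G hG h =>
    hF ((bricky_gf ℓ ρ D E _ _ hG).1 (cmp_subset H.good h))
  have hyb := sqr_subset_bk H.hℓ hyF
  have hn1 : ∀ u ∈ bk ℓ (br F), u ∉ interior (reg ℓ (Cmp (GF ℓ ρ D E) F₀)) ∧
      dist u y ≤ 3 * ℓ := by
    intro u hu
    refine ⟨fun h => ?_, dist_le_of_bk hu hyb⟩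
    obtain ⟨G, hG, huG⟩ := bk_subset hu
    exact hb G hG (mem_of_interior H.hℓ h huG)
  have hn2 : ∀ u ∈ segment ℝ z w, u ∉ interior (reg ℓ (Cmp (GF ℓ ρ D E) F₀)) ∧
      dist u y ≤ ρ + 3 * ℓ := by
    intro u hu
    constructor
    · intro h
      obtain ⟨G, huG⟩ := exists_sqr H.hℓ u
      rcases hseg u hu G huG with h' | h'
      · exact h' (cmp_subset H.good (mem_of_interior H.hℓ h huG))
      · exact hb G h' (mem_of_interior H.hℓ h huG)
    · have h1 : dist u z ≤ dist w z := by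
        obtain ⟨s, t, hs, ht, hst, rfl⟩ := hu
        rw [dist_eq_norm, dist_eq_norm]
        have e : s • z + t • w - z = t • (w - z) := by
          have : s = 1 - t := by linarith
          rw [this]; simp only [sub_smul, one_smul, smul_sub]; abel
        rw [e, norm_smul, Real.norm_eq_abs, abs_of_nonneg ht]
        have := norm_nonneg (w - z)
        nlinarith
      have h2 := dist_le_of_bk hz hyb
      have h3 := dist_triangle u z y
      linarith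
  -- the path: first segment on `[0,1/2]`, second on `[1/2,1]`
  refine ⟨fun t => if t ≤ 1 / 2 then AffineMap.lineMap y z (2 * t) else
    AffineMap.lineMap z w (2 * t - 1), ?_, ?_, ?_, ?_⟩
  · apply Continuous.if_le
    · exact AffineMap.lineMap_continuous.comp (continuous_const.mul continuous_id)
    · exact AffineMap.lineMap_continuous.comp ((continuous_const.mul continuous_id).sub
        continuous_const)
    · exact continuous_id
    · exact continuous_const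
    · rintro t rfl
      norm_num
  · norm_num
  · norm_num
    exact hw
  · intro t ht
    simp only
    split_ifs with h
    · have : AffineMap.lineMap y z (2 * t) ∈ bk ℓ (br F) := by
        apply (convex_bk ℓ _).segment_subset hyb hz
        rw [segment_eq_image_lineMap]
        exact ⟨2 * t, ⟨by linarith [ht.1], by linarith⟩, rfl⟩
      obtain ⟨h1, h2⟩ := hn1 _ this
      exact ⟨h1, by linarith⟩
    · apply hn2
      rw [segment_eq_image_lineMap]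
      push Not at h
      exact ⟨2 * t - 1, ⟨by linarith, by linarith [ht.2]⟩, rfl⟩

/-- **Brick polygons.** -/
theorem exists_polygon : ∃ (S : Finset (ℤ × ℤ)) (n : ℕ) (p : ZMod n → ℤ × ℤ),
    (S : Set (ℤ × ℤ)) = Cmp (GF ℓ ρ D E) F₀ ∧ IsPolygon p ∧ Encloses p S := by
  refine ⟨H.finite.toFinset, ?_⟩
  have hS : (H.finite.toFinset : Set (ℤ × ℤ)) = Cmp (GF ℓ ρ D E) F₀ := by simp
  have hne : H.finite.toFinset.Nonempty := by
    refine ⟨F₀, ?_⟩
    simpa using cmp_self (F₀ := F₀) (A := GF ℓ ρ D E)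
  have h1 : Conn (H.finite.toFinset : Set (ℤ × ℤ)) := by rw [hS]; exact conn_cmp
  have h2 : Conn {F | F ∉ H.finite.toFinset} := by
    have : {F | F ∉ H.finite.toFinset} = (Cmp (GF ℓ ρ D E) F₀)ᶜ := by
      ext F; simp
    rw [this]; exact H.conn_compl
  have h3 : NoPinch H.finite.toFinset := noPinch_of_bricks fun F F' hb => by
    have := H.bricky F F' hb
    simpa using this
  obtain ⟨n, p, hp, hE⟩ := H450.exists_polygon hne h1 h2 h3
  exact ⟨n, p, hS, hp, hE⟩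

end Data

end Vale.Agent.P167.H450
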