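import Vale.Agent.P167.H531.PosDefs
import Vale.Agent.P167.H161.ArmD

/-!
# P167, block CONT-ASM: the arms of the zones inside of the polygon `PE`

`zin_primal`, `zin_dual`: the probability of a fresh open (closed) path of `PE` from the sites of the
polygon near a point `ξ` of the circle (in the chart of the disc) to the foot of the cut (to an arc
whose positions are far from `ξ`) or to a non trivial class of frozen squares.
-/

set_option autoImplicit false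

open MeasureTheory Set Metric Relation

namespace Vale.Agent.P167.H450

open Vale.Agent.P145.FB (PStep)
open Vale.Agent.P167 Vale.Agent.P167.E6 Vale.Agent.P167.E2 Vale.Agent.P167.H558
open Vale.Agent.P167.H531
open Vale.Agent.P167.H161 (zp Rd Cin Cout CrU SegIn mem_Rd)
open Vale.Agent.P167.H756 (HConf Drv)
open Vale.Agent.P164 (loewnerDomain Zf)
open Vale.Agent.P153.R2.R1 (mb)
open Vale.Agent.P167.H192 (rf rf')
open scoped ENNReal

/-! ### Sites and squares -/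

theorem stM_zp {c : ℤ} {v x y : ℤ × ℤ} {δ : ℝ} (hδ : 0 ≤ δ) (h : StM c v x y) :
    zp δ x ∈ Dsq δ v := by
  obtain ⟨h1, h2, h3, -⟩ := h
  have e1 : v.1 = min x.1 y.1 := by rw [h1]
  have e2 : v.2 = min x.2 y.2 := by rw [h1]
  have hx1 : x.1 = v.1 ∨ x.1 = v.1 + 1 := by omega
  have hx2 : x.2 = v.2 ∨ x.2 = v.2 + 1 := by omega
  simp only [Dsq, mem_ofPred_eq, zp]
  have key : ∀ a b : ℝ, (a = 0 ∨ a = 1) → (b = 0 ∨ b = 1) →
      |(δ * (v.1 + a + (v.2 + b)) / 2 - δ * (v.1 + v.2) / 2 - δ / 2)| +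
        |δ * (v.2 + b - (v.1 + a)) / 2 - δ * (v.2 - v.1) / 2| ≤ δ / 2 := by
    intro a b ha hb
    have e3 : δ * (v.1 + a + (v.2 + b)) / 2 - δ * (v.1 + v.2) / 2 - δ / 2 = δ / 2 * (a + b - 1) := by
      ring
    have e4 : δ * (v.2 + b - (v.1 + a)) / 2 - δ * (v.2 - v.1) / 2 = δ / 2 * (b - a) := by ring
    rw [e3, e4, abs_mul, abs_mul, abs_of_nonneg (by positivity : (0 : ℝ) ≤ δ / 2)]
    rcases ha with rfl | rfl <;> rcases hb with rfl | rfl <;> norm_num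
  rcases hx1 with h4 | h4 <;> rcases hx2 with h5 | h5 <;> rw [h4, h5] <;> push_cast
  · simpa using key 0 0 (Or.inl rfl) (Or.inl rfl)
  · simpa using key 0 1 (Or.inl rfl) (Or.inr rfl)
  · simpa using key 1 0 (Or.inr rfl) (Or.inl rfl)
  · simpa using key 1 1 (Or.inr rfl) (Or.inr rfl)

theorem convex_Dsq (δ : ℝ) (v : ℤ × ℤ) : Convex ℝ (Dsq δ v) := by
  intro z hz w hw a b ha hb hab
  simp only [Dsq, mem_ofPred_eq] at hz hw ⊢
  have e1 : (a • z + b • w).re - (zp δ v).re - δ / 2 =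
      a * (z.re - (zp δ v).re - δ / 2) + b * (w.re - (zp δ v).re - δ / 2) := by
    simp only [Complex.add_re, Complex.real_smul, Complex.mul_re, Complex.ofReal_re,
      Complex.ofReal_im]
    linear_combination ((zp δ v).re + δ / 2) * hab
  have e2 : (a • z + b • w).im - (zp δ v).im =
      a * (z.im - (zp δ v).im) + b * (w.im - (zp δ v).im) := by
    simp only [Complex.add_im, Complex.real_smul, Complex.mul_im, Complex.ofReal_re,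
      Complex.ofReal_im]
    linear_combination ((zp δ v).im) * hab
  rw [e1, e2]
  have h1 := abs_add_le (a * (z.re - (zp δ v).re - δ / 2)) (b * (w.re - (zp δ v).re - δ / 2))
  have h2 := abs_add_le (a * (z.im - (zp δ v).im)) (b * (w.im - (zp δ v).im))
  rw [abs_mul, abs_mul, abs_of_nonneg ha, abs_of_nonneg hb] at h1 h2
  have h3 := mul_le_mul_of_nonneg_left hz ha
  have h4 := mul_le_mul_of_nonneg_left hw hb
  have h5 : a * (δ / 2) + b * (δ / 2) = δ / 2 := by rw [← add_mul, hab, one_mul]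
  linarith

theorem pstep_St {c : ℤ} {F : Set (ℤ × ℤ)} {x y : ℤ × ℤ} (hx : (x.1 + x.2) % 2 = c)
    (h : PStep F x y) : ∃ v ∈ F, StM c v x y := by
  obtain ⟨h1, h2, h3⟩ := h
  exact ⟨_, h3, rfl, h1, h2, hx⟩

theorem cn_pstep {c : ℤ} {F : Set (ℤ × ℤ)} {x y : ℤ × ℤ} (h : Cn (StM c) F x y) :
    ReflTransGen (PStep F) x y := by
  refine ReflTransGen.mono ?_ _ _ h
  rintro a b ⟨v, hv, h1, h2, h3, -⟩
  exact ⟨h2, h3, h1 ▸ hv⟩

/-- The squares whose closed diamonds are inside of `D` satisfy `SegIn`. -/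
theorem segIn_of {δ : ℝ} (hδ : 0 ≤ δ) {D : Set ℂ} {F : Set (ℤ × ℤ)} {c : ℤ}
    (h : ∀ v ∈ F, Dsq δ v ⊆ D) : SegIn δ D c F := by
  intro s t hs hst
  obtain ⟨v, hv, hSt⟩ := pstep_St hs hst
  exact ((convex_Dsq δ v).segment_subset (stM_zp hδ hSt)
    (stM_zp hδ ((isSt_M c).symm _ _ _ hSt))).trans (h v hv)

theorem dist_Dsq {δ : ℝ} {v : ℤ × ℤ} {z w : ℂ} (hz : z ∈ Dsq δ v) (hw : w ∈ Dsq δ v) :
    dist z w ≤ 2 * δ := by
  rw [dist_eq_norm]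
  simp only [Dsq, mem_ofPred_eq] at hz hw
  refine (Complex.norm_le_abs_re_add_abs_im _).trans ?_
  rw [Complex.sub_re, Complex.sub_im]
  have h1 : |z.re - w.re| ≤ |z.re - (zp δ v).re - δ / 2| + |w.re - (zp δ v).re - δ / 2| := by
    have e : z.re - w.re = (z.re - (zp δ v).re - δ / 2) - (w.re - (zp δ v).re - δ / 2) := by ring
    rw [e]; exact abs_sub _ _
  have h2 : |z.im - w.im| ≤ |z.im - (zp δ v).im| + |w.im - (zp δ v).im| := by
    have e : z.im - w.im = (z.im - (zp δ v).im) - (w.im - (zp δ v).im) := by ring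
    rw [e]; exact abs_sub _ _
  linarith [abs_nonneg (z.re - (zp δ v).re - δ / 2), abs_nonneg (z.im - (zp δ v).im),
    abs_nonneg (w.re - (zp δ v).re - δ / 2), abs_nonneg (w.im - (zp δ v).im)]

/-- The end of a class: a point of the class of `B` is in `B` or an end of an edge of `G`. -/
theorem far_cases {ι V : Type*} {St : ι → V → V → Prop} {G : Set ι} {B : Set V} {e : V}
    (h : Far St G B e) : e ∈ B ∨ ∃ i ∈ G, ∃ x, St i x e := by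
  rcases h with ⟨c, hc, h⟩ | ⟨x, hx, h⟩
  · rcases ReflTransGen.cases_tail h with h1 | ⟨y, -, i, hi, h2⟩
    · left
      rw [h1]; exact hc
    · exact Or.inr ⟨i, hi, y, h2⟩
  · rcases ReflTransGen.cases_tail h with h1 | ⟨y, -, i, hi, h2⟩
    · exact absurd h1.symm hx
    · exact Or.inr ⟨i, hi, y, h2⟩

/-! ### One step -/

section step

variable {n m : ℕ} {δ : ℝ} {p : ZMod n → ℤ × ℤ} {k : ℕ} {S : Finset (ℤ × ℤ)}
  {A : Finset (Sym2 (ℤ × ℤ))} {j : ℕ} {ψ : ℂ → ℂ} {W : ℝ → ℝ} {t : ℝ}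

/-- The squares which were read are near the path. -/
theorem rd_near (hδ : 0 ≤ δ) (hA : A ⊆ edges S) (hj : j - 1 ≤ len p k A) {v : ℤ × ℤ}
    (hv : v ∈ Rd p k S A j) {z : ℂ} (hz : z ∈ Dsq δ v) :
    ∃ x ∈ pl p k δ A '' Icc 0 (j : ℝ), dist z x ≤ 3 * δ := by
  obtain ⟨-, i, hi, rfl⟩ := (mem_Rd hA).1 hv
  refine ⟨pl p k δ A ((i + 1 : ℕ) : ℝ), ⟨((i + 1 : ℕ) : ℝ), ⟨by positivity, ?_⟩, rfl⟩, ?_⟩
  · exact_mod_cast (by omega : i + 1 ≤ j)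
  have e1 : pl p k δ A ((i + 1 : ℕ) : ℝ) = (δ : ℂ) * cpt (1 / 4) (run p k A i) := by
    unfold pl
    rw [lin_nat, xv_mid (by omega)]
  set c := run p k A i with hc
  have h1 : StE (H192.ed (H192.sq (ahead c))) c.1 (c.1 + dir (c.2 + 1)) := by
    rw [H192.ed_sq (H192.isEdge_ahead c)]
    exact ⟨rfl, _, rfl⟩
  have h2 := stM_zp hδ (stE_stM h1)
  rw [H161.zp_ro] at h2
  have h3 := dist_Dsq hz h2
  have h4 : dist ((δ : ℂ) * pt c.1) ((δ : ℂ) * cpt (1 / 4) c) ≤ δ := by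
    rw [dist_eq_norm, ← mul_sub, norm_mul, Complex.norm_real, Real.norm_of_nonneg hδ]
    have h5 : ‖pt c.1 - cpt (1 / 4) c‖ ≤ 1 := by
      refine (Complex.norm_le_abs_re_add_abs_im _).trans ?_
      have e2 : (pt c.1 - cpt (1 / 4) c).re = -(1 / 4 * (E2.sq c.2).re) := by
        rw [Complex.sub_re, cpt_re, pt_re]; ring
      have e3 : (pt c.1 - cpt (1 / 4) c).im = -(1 / 4 * (E2.sq c.2).im) := by
        rw [Complex.sub_im, cpt_im, pt_im]; ring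
      rw [e2, e3]
      rcases sq_re c.2 with h | h <;> rcases sq_im c.2 with h' | h' <;> rw [h, h'] <;> norm_num
    calc δ * ‖pt c.1 - cpt (1 / 4) c‖ ≤ δ * 1 := mul_le_mul_of_nonneg_left h5 hδ
      _ = δ := mul_one _
  rw [e1]
  linarith [dist_triangle z ((δ : ℂ) * pt c.1) ((δ : ℂ) * cpt (1 / 4) c)]

/-- A point with a margin is not in the closed square of a square which was read. -/
theorem not_read {T R Rc cd Y : ℝ} (hD : CDat δ p k S A j ψ W t T R Rc cd Y) {z : ℂ}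
    (hz : ball z (8 * δ) ⊆ ψ '' loewnerDomain W t) {v : ℤ × ℤ} (hv : v ∈ Rd p k S A j) :
    z ∉ Dsq δ v := by
  intro h
  obtain ⟨x, hx, hd⟩ := rd_near hD.hδ.le hD.hA hD.hj hv h
  have hδ := hD.hδ
  have h1 : x ∈ ψ '' loewnerDomain W t := hz (by rw [mem_ball, dist_comm]; linarith)
  rw [hD.dom] at h1
  exact h1.2 hx

/-- Position of the corners of the polygon and of the inner squares which are ends of frozen
squares. -/
theorem pos_end {T R Rc cd Y : ℝ} (hD : CDat δ p k S A j ψ W t T R Rc cd Y)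
    {Kc Bb : Finset (ℤ × ℤ)} {rc cb u : ℝ}
    (hC : PosC δ p k A j ψ W t Kc Bb rc cb u) {z : ℂ} (hz : ball z (8 * δ) ⊆ ψ '' loewnerDomain W t)
    {v : ℤ × ℤ} (hv : v ∈ Rd p k S A j ∪ Kc ∪ Bb) (hzv : z ∈ Dsq δ v) :
    Pos ψ W t rc {u} z := by
  have hδ := hD.hδ
  rw [Finset.union_assoc, Finset.mem_union] at hv
  rcases hv with hv | hv
  · exact absurd hzv (not_read hD hz hv)
  · exact hC.cut v hv z hzv (hz (mem_ball_self (by positivity)))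

/-- A point whose position is near `I` is far from a point `ξ` which is far from `I`. -/
theorem pos_out {ε c r : ℝ} {I : Set ℝ} {z ξ : ℂ} (h : Pos ψ W t ε I z)
    (hI : ∀ x ∈ I, c ≤ dist (mb 1 Complex.I (x : ℂ)) ξ) (hr : r + ε ≤ c) :
    z ∈ Cout ψ W t ξ r := by
  obtain ⟨w, hw, rfl, x, hx, hd⟩ := h
  refine ⟨w, ⟨hw, ?_⟩, rfl⟩
  have h1 := hI x hx
  have h2 := dist_triangle (mb 1 Complex.I (x : ℂ)) (mb 1 Complex.I (Zf W w t)) ξ
  rw [dist_comm] at hd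
  linarith

/-- The sites of the polygon are corners of enclosed squares. -/
theorem site_mem {q : ZMod m → ℤ × ℤ} {PE : Finset (ℤ × ℤ)} (hq : IsPolygon q)
    (hPE : Encloses q PE) (i : ZMod m) : ∃ v ∈ PE, ∃ r, v = face (q i) r :=
  ⟨_, (enc_out hq hPE).1, _, rfl⟩

theorem face_Dsq (hδ : 0 ≤ δ) (w : ℤ × ℤ) (r : Fin 4) : zp δ w ∈ Dsq δ (face w r) := by
  obtain ⟨y, hy⟩ : ∃ y, StM ((w.1 + w.2) % 2) (face w r) w y := by
    rcases H192.fin4_cases r with rfl | rfl | rfl | rfl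
    · refine ⟨(w.1 + 1, w.2 + 1), ?_⟩
      rw [face0]
      exact ⟨Prod.ext (by simp) (by simp), Or.inl rfl, Or.inl rfl, rfl⟩
    · refine ⟨(w.1 - 1, w.2 + 1), ?_⟩
      rw [face1]
      exact ⟨Prod.ext (by simp) (by simp), Or.inr rfl, Or.inl rfl, rfl⟩
    · refine ⟨(w.1 - 1, w.2 - 1), ?_⟩
      rw [face2]
      exact ⟨Prod.ext (by simp) (by simp), Or.inr rfl, Or.inr rfl, rfl⟩
    · refine ⟨(w.1 + 1, w.2 - 1), ?_⟩
      rw [face3]
      exact ⟨Prod.ext (by simp) (by simp), Or.inl rfl, Or.inr rfl, rfl⟩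
  exact stM_zp hδ hy

/-! ### Primal arms -/

section arms

variable {q : ZMod m → ℤ × ℤ} {PE : Finset (ℤ × ℤ)} {a l : ℕ} {ε h u rc cb : ℝ}
  {Kc Bb : Finset (ℤ × ℤ)} {T R Rc cd Y : ℝ} {ω₀ : Cfg}

/-- The corners of the inner squares and the sites of the polygon have a margin. -/
theorem margin (hP : PosP δ p k S A j ψ W t q PE a l ε h u) {z : ℂ} {v : ℤ × ℤ} (hv : v ∈ PE)
    (hz : z ∈ Dsq δ v) : ball z (8 * δ) ⊆ ψ '' loewnerDomain W t := hP.mar v hv z hz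

theorem margin_site (hδ : 0 ≤ δ) (hP : PosP δ p k S A j ψ W t q PE a l ε h u) (i : ZMod m) :
    ball (zp δ (q i)) (8 * δ) ⊆ ψ '' loewnerDomain W t := by
  obtain ⟨v, hv, r, rfl⟩ := site_mem hP.hq hP.hPE i
  exact hP.mar _ hv _ (face_Dsq hδ _ _)

/-- The deterministic part, primal. -/
theorem primal_sub (hD : CDat δ p k S A j ψ W t T R Rc cd Y)
    (hC : PosC δ p k A j ψ W t Kc Bb rc cb u) (hP : PosP δ p k S A j ψ W t q PE a l ε h u)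
    {ξ : ℂ} {r c : ℝ} (hc : c ≤ dist (mb 1 Complex.I (u : ℂ)) ξ) (hε : 4 * ε ≤ c)
    (hrc : 4 * rc ≤ c) (hc0 : 0 ≤ c) {Z : Set (ℤ × ℤ)}
    (hZ : ∀ y ∈ Z, (y.1 + y.2) % 2 = 0 ∧ (∃ i : ZMod m, y = q i) ∧ zp δ y ∈ Cin ψ W t ξ r) :
    ArmS true (StM 0) PE (Rd p k S A j ∪ Kc ∪ Bb) (Gop p k S (Rd p k S A j ∪ Kc ∪ Bb) ω₀) ∅ {q l}
      Z ⊆ {ω | CrU δ (Cin ψ W t ξ r) (Cout ψ W t ξ (c / 2)) 0 (op ω ∩ ↑PE)} := by
  rintro ω ⟨y, hy, e, he, hye⟩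
  obtain ⟨hy0, ⟨i, hi⟩, hyr⟩ := hZ y hy
  have hδ := hD.hδ
  have hcn : Cn (StM 0) (op ω ∩ ↑PE) y e := by
    refine hye.cn.mono ?_
    rintro v ⟨h1, h2, -⟩
    exact ⟨h1, h2⟩
  refine ⟨y, e, hy0, cn_pstep hcn, hyr, ?_⟩
  -- the margin at the end
  have hm : ball (zp δ e) (8 * δ) ⊆ ψ '' loewnerDomain W t := by
    rcases ReflTransGen.cases_tail hcn with h1 | ⟨x, -, v, hv, h1⟩
    · rw [h1, hi]
      exact margin_site hδ.le hP i
    · exact margin hP hv.2 (stM_zp hδ.le ((isSt_M 0).symm _ _ _ h1))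
  have hpos : Pos ψ W t (c / 4) {u} (zp δ e) := by
    rcases far_cases he with h1 | ⟨v, hv, x, h1⟩
    · rw [mem_singleton_iff] at h1
      rw [h1]
      obtain ⟨w, hw, e1, x, hx, hd⟩ := hP.posl
      exact ⟨w, hw, e1, x, hx, hd.trans (by linarith)⟩
    · have h2 := pos_end hD hC hm (v := v) (by
        have := hv.2.1
        rwa [Finset.mem_coe] at this) (stM_zp hδ.le ((isSt_M 0).symm _ _ _ h1))
      obtain ⟨w, hw, e1, x, hx, hd⟩ := h2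
      exact ⟨w, hw, e1, x, hx, hd.trans (by linarith)⟩
  refine pos_out hpos (c := c) ?_ (by linarith)
  rintro x rfl
  exact hc

/-- The deterministic part, dual. -/
theorem dual_sub (hD : CDat δ p k S A j ψ W t T R Rc cd Y)
    (hC : PosC δ p k A j ψ W t Kc Bb rc cb u) (hP : PosP δ p k S A j ψ W t q PE a l ε h u)
    (hin : Inn PE S)
    {ξ : ℂ} {r c : ℝ} {I : Set ℝ} (hI : ∀ x ∈ I, c ≤ dist (mb 1 Complex.I (x : ℂ)) ξ)
    (hu : c ≤ dist (mb 1 Complex.I (u : ℂ)) ξ) (hε : 4 * ε ≤ c)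
    (hrc : 4 * rc ≤ c) (hc0 : 0 ≤ c) {i₁ i₂ : ℕ}
    (hpos : ∀ i : ℕ, i₁ ≤ i → i ≤ i₂ → Pos ψ W t ε I (zp δ (q i)))
    {Z : Set ((ℤ × ℤ) ⊕ ZMod n)}
    (hZ : ∀ y ∈ Z, ∃ x, y = dmo n x ∧ (x.1 + x.2) % 2 = 1 ∧ (∃ i : ZMod m, x = q i) ∧
      zp δ x ∈ Cin ψ W t ξ r) :
    ArmS false (StQ p S) PE (Rd p k S A j ∪ Kc ∪ Bb) (Gcl p k S (Rd p k S A j ∪ Kc ∪ Bb) ω₀) ∅
      (dmo n '' arcM q 1 i₁ i₂) Z ⊆
      {ω | CrU δ (Cin ψ W t ξ r) (Cout ψ W t ξ (c / 2)) 1 ((op ω)ᶜ ∩ ↑PE)} := by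
  rintro ω ⟨y, hy, e, he, hye⟩
  obtain ⟨x, rfl, hx1, ⟨i, hi⟩, hxr⟩ := hZ y hy
  have hδ := hD.hδ
  have hodd : ∀ {x : ℤ × ℤ}, (x.1 + x.2) % 2 = 1 → rf (rf' x) = x := fun h =>
    H192.rf_rf' (by rw [Int.not_even_iff]; exact h)
  -- the path of odd sites
  have key : ∀ b, Cn (StQ p S) (Oc false ω ∩ (↑PE \ ↑(Rd p k S A j ∪ Kc ∪ Bb))) (dmo n x) b →
      ∃ x', dmo n x' = b ∧ (x'.1 + x'.2) % 2 = 1 ∧ Cn (StM 1) ((op ω)ᶜ ∩ ↑PE) x x' ∧
        ball (zp δ x') (8 * δ) ⊆ ψ '' loewnerDomain W t := by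
    intro b hb
    induction hb with
    | refl => exact ⟨x, rfl, hx1, Cn.refl _ _, by rw [hi]; exact margin_site hδ.le hP i⟩
    | @tail b b' _ hbb ih =>
      obtain ⟨x', rfl, h1, h2, h3⟩ := ih
      obtain ⟨v, hv, hs⟩ := hbb
      obtain ⟨s, s', hs1, hs2, hs3⟩ := stQ_stM1 hD.hp hD.hS hin (Finset.mem_coe.1 hv.2.1) hs
      have e1 : s = x' := by
        have := Sum.inl.inj hs2
        rw [← hodd hs1.2.2.2, ← hodd h1, this]
      subst e1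
      refine ⟨s', hs3, ((isSt_M 1).symm _ _ _ hs1).2.2.2, h2.tail ⟨v, ⟨?_, hv.2.1⟩, hs1⟩,
        margin hP hv.2.1 (stM_zp hδ.le ((isSt_M 1).symm _ _ _ hs1))⟩
      have h4 := hv.1
      rw [Oc_false] at h4
      exact h4
  obtain ⟨x', rfl, h1, h2, h3⟩ := key e hye.cn
  refine ⟨x, x', hx1, cn_pstep h2, hxr, ?_⟩
  have hcase : ∃ J : Set ℝ, (∀ x ∈ J, c ≤ dist (mb 1 Complex.I (x : ℂ)) ξ) ∧
      Pos ψ W t (c / 4) J (zp δ x') := by
    rcases far_cases he with ⟨x'', ⟨i', h4, h5, h6, h7⟩, h8⟩ | ⟨v, hv, s, h4⟩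
    · refine ⟨I, hI, ?_⟩
      have e1 : x'' = x' := by
        have := Sum.inl.inj h8
        rw [← hodd h7, ← hodd h1, this]
      rw [← e1, h6]
      obtain ⟨w, hw, e2, s, hs, hd⟩ := hpos i' h4 h5
      exact ⟨w, hw, e2, s, hs, hd.trans (by linarith)⟩
    · refine ⟨{u}, by rintro s rfl; exact hu, ?_⟩
      have h5 := stQ_pos hD.hp h4
      have e1 : H531.pos p (dmo n x') = x' := hodd h1
      rw [e1] at h5
      have h6 := pos_end hD hC h3 (v := v) (by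
        have := hv.2.1
        rwa [Finset.mem_coe] at this) (stM_zp hδ.le ((isSt_M 1).symm _ _ _ h5))
      obtain ⟨w, hw, e1, x, hx, hd⟩ := h6
      exact ⟨w, hw, e1, x, hx, hd.trans (by linarith)⟩
  obtain ⟨J, hJ, hpJ⟩ := hcase
  exact pos_out hpJ (c := c) hJ (by linarith)

/-! ### Probability -/

theorem segIn_PE (hP : PosP δ p k S A j ψ W t q PE a l ε h u) (hδ : 0 < δ) (c : ℤ) :
    SegIn δ (ψ '' loewnerDomain W t) c (↑PE : Set (ℤ × ℤ)) :=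
  segIn_of hδ.le fun v hv z hz => hP.mar v hv z hz (mem_ball_self (by positivity))

end arms

end step

/-- The constants of the arms. -/
theorem arm_const {T R Rc cd Y c e : ℝ} (hRc : 0 < Rc) (hcd : 0 < cd) (hY0 : 0 < Y)
    (hY : 8 * R ≤ Y) (hY2 : 64 * T ≤ Y ^ 2) (hc : 0 < c) (he : 0 < e) :
    ∃ r d₀ : ℝ, 0 < r ∧ 0 < d₀ ∧ ∀ ψ : ℂ → ℂ, HConf Rc cd Y ψ →
    ∀ (W : ℝ → ℝ) (t : ℝ), Drv T R W t → ∀ ξ : ℂ, ‖ξ‖ = 1 → ∀ δ, 0 < δ → δ ≤ d₀ →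
    ∀ F : Set (ℤ × ℤ),
    (SegIn δ (ψ '' loewnerDomain W t) 0 F →
      μ {ω | CrU δ (Cin ψ W t ξ r) (Cout ψ W t ξ c) 0 (op ω ∩ F)} ≤ ENNReal.ofReal e) ∧
    (SegIn δ (ψ '' loewnerDomain W t) 1 F →
      μ {ω | CrU δ (Cin ψ W t ξ r) (Cout ψ W t ξ c) 1 ((op ω)ᶜ ∩ F)} ≤ ENNReal.ofReal e) := by
  obtain ⟨C, α, hC, hα, H⟩ := H161.crsw_disc
  -- the ratio
  obtain ⟨C₀, hC₀, hCe⟩ : ∃ C₀ : ℝ, 4 ≤ C₀ ∧ C * (1 / C₀) ^ α ≤ e := by
    have h1 : Filter.Tendsto (fun x : ℝ => C * x ^ (-α)) Filter.atTop (nhds (C * 0)) :=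
      (tendsto_rpow_neg_atTop hα).const_mul C
    rw [mul_zero] at h1
    obtain ⟨x, hx1, hx2⟩ := ((h1.eventually (ge_mem_nhds he)).and
      (Filter.eventually_ge_atTop 4)).exists
    refine ⟨x, hx2, ?_⟩
    rw [one_div, Real.inv_rpow (by linarith), ← Real.rpow_neg (by linarith)]
    exact hx1
  -- the radius
  obtain ⟨r, hr, hr1, hr2, hlog⟩ : ∃ r : ℝ, 0 < r ∧ r ≤ 1 ∧ 2 * r < c ∧
      2 * Real.pi ^ 2 * (C₀ + 2) ^ 2 < Real.log (c / (2 * r)) := by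
    set L := 2 * Real.pi ^ 2 * (C₀ + 2) ^ 2 with hL
    have hL0 : 0 ≤ L := by positivity
    refine ⟨min 1 (c * Real.exp (-(L + 1)) / 2), by positivity, min_le_left _ _, ?_, ?_⟩
    · have h1 : min 1 (c * Real.exp (-(L + 1)) / 2) ≤ c * Real.exp (-(L + 1)) / 2 :=
        min_le_right _ _
      have h2 : Real.exp (-(L + 1)) < 1 := Real.exp_lt_one_iff.2 (by linarith)
      have h3 : c * Real.exp (-(L + 1)) < c * 1 := mul_lt_mul_of_pos_left h2 hc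
      linarith
    · have h0 : 0 < min 1 (c * Real.exp (-(L + 1)) / 2) := by positivity
      have h1 : min 1 (c * Real.exp (-(L + 1)) / 2) ≤ c * Real.exp (-(L + 1)) / 2 :=
        min_le_right _ _
      have h2 : Real.exp (L + 1) ≤ c / (2 * min 1 (c * Real.exp (-(L + 1)) / 2)) := by
        rw [le_div_iff₀ (by positivity)]
        calc Real.exp (L + 1) * (2 * min 1 (c * Real.exp (-(L + 1)) / 2))
            ≤ Real.exp (L + 1) * (2 * (c * Real.exp (-(L + 1)) / 2)) := by gcongr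
          _ = c * (Real.exp (L + 1) * Real.exp (-(L + 1))) := by ring
          _ = c := by rw [← Real.exp_add]; simp
      have h3 := Real.log_le_log (Real.exp_pos _) h2
      rw [Real.log_exp] at h3
      linarith
  obtain ⟨d₀, hd₀, h⟩ := H T R Rc cd Y r c C₀ hRc hcd hY0 hY hY2 hr hr1 hr2 hC₀ hlog
  refine ⟨r, d₀, hr, hd₀, fun ψ hψ W t hD ξ hξ δ hδ hδd F => ?_⟩
  obtain ⟨h1, h2⟩ := h ψ hψ W t hD ξ hξ δ hδ hδd F
  constructor
  · intro hF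
    rw [← ENNReal.ofReal_toReal (measure_ne_top μ _)]
    exact ENNReal.ofReal_le_ofReal ((h1 hF).trans hCe)
  · intro hF
    rw [← ENNReal.ofReal_toReal (measure_ne_top μ _)]
    exact ENNReal.ofReal_le_ofReal ((h2 hF).trans hCe)

/-- **Zone arms inside of `PE`.** -/
theorem zin {T R Rc cd Y c e : ℝ} (hRc : 0 < Rc) (hcd : 0 < cd) (hY0 : 0 < Y)
    (hY : 8 * R ≤ Y) (hY2 : 64 * T ≤ Y ^ 2) (hc : 0 < c) (he : 0 < e) :
    ∃ r d₀ : ℝ, 0 < r ∧ 0 < d₀ ∧ ∀ {n m : ℕ} {δ : ℝ} {p : ZMod n → ℤ × ℤ} {k : ℕ}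
      {S : Finset (ℤ × ℤ)} {A : Finset (Sym2 (ℤ × ℤ))} {j : ℕ} {ψ : ℂ → ℂ} {W : ℝ → ℝ} {t : ℝ}
      {q : ZMod m → ℤ × ℤ} {PE Kc Bb : Finset (ℤ × ℤ)} {a l : ℕ} {ε h u rc cb : ℝ} {ω₀ : Cfg}
      {ξ : ℂ}, δ ≤ d₀ → CDat δ p k S A j ψ W t T R Rc cd Y →
      PosC δ p k A j ψ W t Kc Bb rc cb u → PosP δ p k S A j ψ W t q PE a l ε h u →
      Inn PE S → ‖ξ‖ = 1 → c ≤ dist (mb 1 Complex.I (u : ℂ)) ξ → 4 * ε ≤ c → 4 * rc ≤ c →
      (∀ Z : Set (ℤ × ℤ),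
        (∀ y ∈ Z, (y.1 + y.2) % 2 = 0 ∧ (∃ i : ZMod m, y = q i) ∧ zp δ y ∈ Cin ψ W t ξ r) →
        μ (ArmS true (StM 0) PE (Rd p k S A j ∪ Kc ∪ Bb)
          (Gop p k S (Rd p k S A j ∪ Kc ∪ Bb) ω₀) ∅ {q l} Z) ≤ ENNReal.ofReal e) ∧
      ∀ (I : Set ℝ) (i₁ i₂ : ℕ) (Z : Set ((ℤ × ℤ) ⊕ ZMod n)),
        (∀ x ∈ I, c ≤ dist (mb 1 Complex.I (x : ℂ)) ξ) →
        (∀ i : ℕ, i₁ ≤ i → i ≤ i₂ → Pos ψ W t ε I (zp δ (q i))) →
        (∀ y ∈ Z, ∃ x, y = dmo n x ∧ (x.1 + x.2) % 2 = 1 ∧ (∃ i : ZMod m, x = q i) ∧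
          zp δ x ∈ Cin ψ W t ξ r) →
        μ (ArmS false (StQ p S) PE (Rd p k S A j ∪ Kc ∪ Bb)
          (Gcl p k S (Rd p k S A j ∪ Kc ∪ Bb) ω₀) ∅ (dmo n '' arcM q 1 i₁ i₂) Z) ≤
            ENNReal.ofReal e := by
  obtain ⟨r, d₀, hr, hd₀, H⟩ := arm_const hRc hcd hY0 hY hY2 (half_pos hc) he
  refine ⟨r, d₀, hr, hd₀, ?_⟩
  intro n m δ p k S A j ψ W t q PE Kc Bb a l ε h u rc cb ω₀ ξ hδ hD hC hP hin hξ hu hε hrc
  obtain ⟨h1, h2⟩ := H ψ hD.conf W t hD.drv ξ hξ δ hD.hδ hδ ↑PE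
  constructor
  · intro Z hZ
    exact (measure_mono (primal_sub hD hC hP hu hε hrc hc.le hZ)).trans
      (h1 (segIn_PE hP hD.hδ 0))
  · intro I i₁ i₂ Z hI hpos hZ
    exact (measure_mono (dual_sub hD hC hP hin hI hu hε hrc hc.le hpos hZ)).trans
      (h2 (segIn_PE hP hD.hδ 1))

end Vale.Agent.P167.H450
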