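import Vale.Agent.P167.H450.PosE
import Vale.Agent.P167.CL.Pick
import Vale.Agent.P167.CL.Wir

/-!
# P167, block CUT: the structure `PosE`

* `sq_near`: the points of the closed squares of the cut and of the box which are outside of `pE` or
  on its boundary are near `w`;
* `lip_X`: the flow is Lipschitz near `X`;
* `posE`: the structure `PosE` for all large `n`.
-/

set_option autoImplicit false

open MeasureTheory Filter Topology Set Metric Complex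

namespace Vale.Agent.P167.H450.PE

open Vale.Agent.P153.R2.R1
open Vale.Agent.P153.R2.L1 (HH)
open Vale.Agent.P164 (loewnerDomain Zf)
open Vale.Agent.P167.H531 Vale.Agent.P167.H558
open Vale.Agent.P167.E6 Vale.Agent.P167.E2 Vale.Agent.P167.H411
open Vale.Agent.P167.H756
open Vale.Agent.P167.CL Vale.Agent.P167.CL.G1 Vale.Agent.P167.H450.CQ
open Vale.Agent.P167.H446 (Tm mem_Dsq sqr_fce)

/-- Two squares with a common point have a common vertex. -/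
theorem vadj_of_mem {ℓ : ℝ} (hℓ : 0 < ℓ) {F G : ℤ × ℤ} {z : ℂ} (h : z ∈ sqr ℓ F)
    (h' : z ∈ sqr ℓ G) : VAdj F G := by
  obtain ⟨a1, a2, a3, a4⟩ := h
  obtain ⟨b1, b2, b3, b4⟩ := h'
  have key : ∀ a b : ℤ, ℓ * (a : ℝ) ≤ ℓ * (b + 1) → a ≤ b + 1 := by
    intro a b h
    have h1 := le_of_mul_le_mul_left h hℓ
    exact_mod_cast h1
  have c1 := key F.1 G.1 (a1.trans b2)
  have c2 := key G.1 F.1 (b1.trans a2)
  have c3 := key F.2 G.2 (a3.trans b4)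
  have c4 := key G.2 F.2 (b3.trans a4)
  constructor <;> rw [abs_le] <;> omega

theorem vadj_fce {N : ℕ} (hN : 0 < N) {b v v' : ℤ × ℤ} (h : VAdj v v') :
    VAdj (fce N b v) (fce N b v') := by
  have hN' : (0 : ℤ) < N := by exact_mod_cast hN
  obtain ⟨h1, h2⟩ := h
  refine ⟨ediv_near hN' ?_, ediv_near hN' ?_⟩
  · rwa [show v.1 - b.1 - (v'.1 - b.1) = v.1 - v'.1 by ring]
  · rwa [show v.2 - b.2 - (v'.2 - b.2) = v.2 - v'.2 by ring]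

theorem vadj_Dsq {δ ℓ : ℝ} {N : ℕ} (hδ : 0 < δ) (hℓ : 0 < ℓ) (hN : 0 < N) {v v' : ℤ × ℤ} {z : ℂ}
    (h : z ∈ Dsq δ v) (h' : z ∈ Dsq δ v') : VAdj v v' := by
  have hNr : (0 : ℝ) < N := by exact_mod_cast hN
  have h1 := vadj_of_mem (by positivity) ((mem_Dsq (v₀ := 0) hδ hℓ hN).1 h)
    ((mem_Dsq (v₀ := 0) hδ hℓ hN).1 h')
  simpa using h1

/-- The centre of a square and a point of a square with a common vertex. -/
theorem dist_fc {δ ℓ : ℝ} {N : ℕ} (hδ : 0 < δ) (hℓ : 0 < ℓ) (hN : 0 < N) {v₀ v a : ℤ × ℤ} {z : ℂ}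
    (h : z ∈ Dsq δ v) (h1 : |v.1 - a.1| ≤ 1) (h2 : |v.2 - a.2| ≤ 1) :
    dist (Tm δ ℓ N v₀ z) (fc ℓ N v₀ a) ≤ 3 * (ℓ / N) := by
  have hNr : (0 : ℝ) < N := by exact_mod_cast hN
  have h0 : 0 < ℓ / N := by positivity
  obtain ⟨a1, a2, a3, a4⟩ := (mem_Dsq (v₀ := v₀) hδ hℓ hN).1 h
  simp only [Prod.fst_sub, Prod.snd_sub, Int.cast_sub] at a1 a2 a3 a4
  have k1 : |(v.1 : ℝ) - a.1| ≤ 1 := by exact_mod_cast h1
  have k2 : |(v.2 : ℝ) - a.2| ≤ 1 := by exact_mod_cast h2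
  rw [abs_le] at k1 k2
  refine (dist_le_abs _ _).trans ?_
  have e1 : |(Tm δ ℓ N v₀ z).re - (fc ℓ N v₀ a).re| ≤ 3 / 2 * (ℓ / N) := by
    simp only [CL.fc]
    rw [abs_le]
    constructor <;> nlinarith [k1.1, k1.2]
  have e2 : |(Tm δ ℓ N v₀ z).im - (fc ℓ N v₀ a).im| ≤ 3 / 2 * (ℓ / N) := by
    simp only [CL.fc]
    rw [abs_le]
    constructor <;> nlinarith [k2.1, k2.2]
  linarith

section sq

variable {s : Stg} {T R X Y Rd cd κ μ d τ₀ ρ εn ℓ ϱ : ℝ} {c : CutP} {w : ℂ}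
  {F₀ : ℤ × ℤ} {W : ℝ → ℝ} {t : ℝ} {ip ia ib : ZMod s.mP}
  {n : ℕ} {p : ZMod n → ℤ × ℤ} {k : ℕ} {S : Finset (ℤ × ℤ)} {δ : ℝ} {N : ℕ} {ψ : ℂ → ℂ}
  {X' κ' : ℝ} {v₀ : ℤ × ℤ}

/-- **The points of the cut which are outside of `pE` are near `w`.** -/
theorem sq_near (H : StgOf s T R X Y Rd cd κ μ d τ₀ ρ εn ℓ ϱ (Psi δ ℓ N v₀ ψ) c w F₀ W t ip ia ib)
    (hc : Cst T R X Y) (hε : SmE εn X) (D : LT.Dat p k S δ ℓ N ψ X' κ' d ϱ τ₀ v₀ c w)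
    {u : ℤ × ℤ} (hu : u ∈ Uset) {E L : ℕ} (hE : ExitE c N E) (hEL : E ≤ L)
    (hL : dist (fc ℓ N v₀ ((c.leg N v₀ u).lv L)) w ≤ 64 * (ℓ / N)) {Bb : Finset (ℤ × ℤ)}
    (hBb : ∀ v ∈ Bb, 0 ≤ (fce N (v₀ + u) v).2 ∧ (fce N (v₀ + u) v).2 + 1 < c.q ∧
      -c.q + 1 ≤ (fce N (v₀ + u) v).1 ∧ (fce N (v₀ + u) v).1 + 1 < c.q) {v v' : ℤ × ℤ} {z : ℂ}
    (hv : v ∈ frz (c.leg N v₀ u) L (sE s.KB N (v₀ + u)) ∪ Bb) (hz : z ∈ Dsq δ v)
    (hv' : v' ∉ sE s.SE N (v₀ + u)) (hz' : z ∈ Dsq δ v') :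
    dist (Tm δ ℓ N v₀ z) w ≤ τ₀ + ϱ + 12 * ℓ := by
  have hδ := D.hδ
  have hℓ := D.M.cut.hℓ
  have hN : 0 < N := by have := D.hN; omega
  have hη := D.ηℓ
  have hη0 := D.ηp
  have hadj := vadj_fce (b := v₀ + u) hN (vadj_Dsq hδ hℓ hN hz hz')
  rw [mem_sE hN] at hv'
  have hKb : ∀ v ∈ sE s.KB N (v₀ + u), fce N (v₀ + u) v ∈ c.KF := by
    intro v hv
    rw [mem_sE hN] at hv
    rw [← H.cut.hKB]
    exact Finset.mem_coe.2 hv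
  rw [Finset.mem_union] at hv
  rcases hv with hv | hv
  · rcases frz_cases (cok D.M.cut) D.hN D.h4 hu hE hKb hv with h | ⟨i, h1, h2, h3, h4⟩
    · have h5 := sqr_fce (u' := u) hℓ hN ((mem_Dsq (v₀ := v₀) hδ hℓ hN).1 hz')
      have h6 := out_near H hc hε h hadj hv' h5
      have hun : ‖((ℓ / N : ℝ) : ℂ) * pt u‖ ≤ ℓ / N := by
        rw [norm_mul, Complex.norm_real, Real.norm_of_nonneg hη0.le]
        have : ‖pt u‖ ≤ 1 := by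
          rcases hu with rfl | rfl
          · simp [pt, Complex.norm_def, Complex.normSq_apply]
          · simp [pt, Complex.norm_def, Complex.normSq_apply]
        exact mul_le_of_le_one_right hη0.le this
      have h7 : dist (Tm δ ℓ N v₀ z) (Tm δ ℓ N v₀ z - ((ℓ / N : ℝ) : ℂ) * pt u) ≤ ℓ / N := by
        rw [dist_eq_norm]
        simpa using hun
      have h8 := dist_triangle (Tm δ ℓ N v₀ z) (Tm δ ℓ N v₀ z - ((ℓ / N : ℝ) : ℂ) * pt u) w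
      linarith
    · rw [max_eq_right hEL] at h2
      have h5 := dist_lv D hu hE hL h1 h2
      have h6 := dist_fc (v₀ := v₀) hδ hℓ hN hz h3 h4
      have h7 := dist_triangle (Tm δ ℓ N v₀ z) (fc ℓ N v₀ ((c.leg N v₀ u).lv i)) w
      linarith
  · exfalso
    obtain ⟨b1, b2, b3, b4⟩ := hBb v hv
    obtain ⟨a1, a2⟩ := hadj
    rw [abs_le] at a1 a2
    exact hv' (box_SE H (by omega) (by omega) (by omega) (by omega))

end sq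

/-! ### The flow near `X` -/

/-- The flow is Lipschitz near `X`. -/
theorem lip_X {T R X : ℝ} (hX0 : 0 < X) (hX : 8 * R ≤ X) (hX2 : 64 * T ≤ X ^ 2) {W : ℝ → ℝ}
    {t : ℝ} (H : Drv T R W t) {z z' : ℂ} (hz0 : 0 < z.im) (hz0' : 0 < z'.im)
    (hz : ‖z - X‖ ≤ X / 8) (hz' : ‖z' - X‖ ≤ X / 8) :
    z ∈ loewnerDomain W t ∧ z' ∈ loewnerDomain W t ∧
      dist (mb 1 Complex.I (Zf W z t)) (mb 1 Complex.I (Zf W z' t)) ≤ 32 * ‖z - z'‖ := by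
  have habs : |X| = X := abs_of_pos hX0
  have hg := trans_FD H (fun z => z) hX0.ne' (by rw [habs]; exact hX) hX2
  rw [habs] at hg
  obtain ⟨-, hlip⟩ := lip_of_bdd (f := fun z => Vale.Agent.P167.H947.flow W t z - W t)
    (x := (X : ℂ)) (ρ := X / 4) (s := X / 4) (B := 2 * X) (by positivity)
    (by rw [show X / 4 + X / 4 = X / 2 by ring]; exact hg.diff)
    (by rw [show X / 4 + X / 4 = X / 2 by ring]; exact hg.bdd)
  have hn : ‖(X : ℂ)‖ = X := by rw [Complex.norm_real, Real.norm_eq_abs, habs]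
  have key : ∀ y : ℂ, 0 < y.im → ‖y - X‖ ≤ X / 8 → y ∈ loewnerDomain W t ∧
      Zf W y t = Vale.Agent.P167.H947.flow W t y - W t := by
    intro y hy0 hy
    have hyn : X / 2 ≤ ‖y‖ := by
      have h4 : ‖(X : ℂ)‖ ≤ ‖y‖ + ‖y - X‖ := by
        have e2 : (X : ℂ) = y - (y - X) := by ring
        calc ‖(X : ℂ)‖ = ‖y - (y - X)‖ := by rw [← e2]
          _ ≤ _ := norm_sub_le _ _
      rw [hn] at h4
      linarith
    have hsq : 16 * T ≤ ‖y‖ ^ 2 := by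
      have h5 : (X / 2) ^ 2 ≤ ‖y‖ ^ 2 := by gcongr
      rw [div_pow] at h5
      linarith
    have hdom : y ∈ loewnerDomain W t := H.dom hy0 (by linarith) hsq
    exact ⟨hdom, by
      rw [Vale.Agent.P167.H947.flow_gf H.nn H.cont.continuousOn hdom, Vale.Agent.P164.Zf_eq]⟩
  obtain ⟨h1, e1⟩ := key z hz0 hz
  obtain ⟨h2, e2⟩ := key z' hz0' hz'
  refine ⟨h1, h2, ?_⟩
  refine (dist_mb_mb (Vale.Agent.P164.Zf_im_pos H.nn h1).le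
    (Vale.Agent.P164.Zf_im_pos H.nn h2).le).trans ?_
  have h6 := hlip z' (by rw [mem_ball, dist_eq_norm]; linarith) z
    (by rw [mem_ball, dist_eq_norm]; linarith)
  rw [e1, e2]
  have e3 : 2 * X / (X / 4 / 2) = 16 := by field_simp; norm_num
  rw [e3] at h6
  linarith

/-! ### The foot -/

section foot

variable {n : ℕ} {p : ZMod n → ℤ × ℤ} {k : ℕ} {S : Finset (ℤ × ℤ)} {δ ℓ : ℝ} {N : ℕ} {ψ : ℂ → ℂ}
  {X κ d ϱ τ₀ : ℝ} {v₀ : ℤ × ℤ} {c : CutP} {w : ℂ}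

theorem mem_Dsq_zp {v u : ℤ × ℤ} (hδ : 0 < δ) (h : Crn v u) : H161.zp δ u ∈ Dsq δ v := by
  rw [mem_Dsq (v₀ := 0) hδ one_pos one_pos, H446.Tm_zp hδ one_pos]
  unfold Crn at h
  have e1 : (((1 / (1 : ℕ) : ℝ) : ℂ) * pt (u - 0)).re = u.1 := by
    simp [pt]
  have e2 : (((1 / (1 : ℕ) : ℝ) : ℂ) * pt (u - 0)).im = u.2 := by
    simp [pt]
  unfold sqr
  rw [mem_ofPred_eq, e1, e2]
  simp only [Nat.cast_one, div_one, sub_zero, one_mul]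
  have h1 : (v.1 : ℝ) ≤ u.1 := by exact_mod_cast (by omega : v.1 ≤ u.1)
  have h2 : (u.1 : ℝ) ≤ v.1 + 1 := by exact_mod_cast (by omega : u.1 ≤ v.1 + 1)
  have h3 : (v.2 : ℝ) ≤ u.2 := by exact_mod_cast (by omega : v.2 ≤ u.2)
  have h4 : (u.2 : ℝ) ≤ v.2 + 1 := by exact_mod_cast (by omega : u.2 ≤ v.2 + 1)
  exact ⟨h1, h2, h3, h4⟩

/-- The foot is near `w`. -/
theorem foot_near (D : LT.Dat p k S δ ℓ N ψ X κ d ϱ τ₀ v₀ c w) {v : ℤ × ℤ} {j : ZMod n}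
    (hcrn : Crn v (H192.ro (p j))) (hL : dist (CL.fc ℓ N v₀ v) w ≤ 64 * (ℓ / N)) :
    dist (Tm δ ℓ N v₀ ((δ : ℂ) * pt (p j))) w ≤ 5 * ℓ := by
  have hN : 0 < N := by have := D.hN; omega
  have hη := D.ηℓ
  have hη0 := D.ηp
  have h1 := mem_Dsq_zp D.hδ hcrn
  rw [H161.zp_ro] at h1
  have h2 := dist_fc (v₀ := v₀) D.hδ D.M.cut.hℓ hN h1 (a := v) (by simp) (by simp)
  have h3 := dist_triangle (Tm δ ℓ N v₀ ((δ : ℂ) * pt (p j))) (CL.fc ℓ N v₀ v) w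
  linarith

end foot

/-- `Dat` for all large `n`. -/
theorem dat_ev {Φ : (ℝ × ℝ) ≃ₜ (ℝ × ℝ)} {ψ : ℂ → ℂ} {δ : ℕ → ℝ} {N k : ℕ → ℕ}
    {p : ∀ n, ZMod (N n) → ℤ × ℤ} {S : ℕ → Finset (ℤ × ℤ)} {ψn : ℕ → ℂ → ℂ}
    (H : Set6 Φ ψ δ N k p S ψn) {X κ d τ₀ ϱ ℓ : ℝ} (hκ : κ < X) (hℓ : 0 < ℓ) :
    ∀ᶠ n in atTop, ∀ (v₀ : ℤ × ℤ) (c : CutP) (w : ℂ),
      CutM ℓ (4 * ⌊ℓ / (4 * δ n)⌋₊) (Psi (δ n) ℓ (4 * ⌊ℓ / (4 * δ n)⌋₊) v₀ (ψn n))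
        X κ d ϱ τ₀ c w →
      LT.Dat (p n) (k n) (S n) (δ n) ℓ (4 * ⌊ℓ / (4 * δ n)⌋₊) (ψn n) X κ d ϱ τ₀ v₀ c w := by
  have hδ0 : ∀ n, 0 < δ n := fun n => (H.appr.1 n).1
  have hδ : ∀ᶠ n in atTop, 64 * δ n ≤ ℓ := by
    have h1 : Tendsto (fun n => 64 * δ n) atTop (𝓝 (64 * 0)) := H.appr.2.1.const_mul 64
    rw [mul_zero] at h1
    exact (h1.eventually (gt_mem_nhds hℓ)).mono fun n hn => le_of_lt hn
  filter_upwards [CL.wir Φ ψ δ N k p S ψn H, hδ, good_ev H.appr] with n hw hδn hgood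
  intro v₀ c w hM
  have hK : 15 ≤ ⌊ℓ / (4 * δ n)⌋₊ := by
    apply Nat.le_floor
    have := hδ0 n
    rw [le_div_iff₀ (by positivity)]
    push_cast
    linarith
  have hfl : 4 * (⌊ℓ / (4 * δ n)⌋₊ : ℝ) * δ n ≤ ℓ := by
    have := hδ0 n
    have h1 := Nat.floor_le (a := ℓ / (4 * δ n)) (by positivity)
    rw [le_div_iff₀ (by positivity)] at h1
    linarith
  exact { poly := (H.appr.1 n).2.2.2.1
          encl := (H.appr.1 n).2.2.2.2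
          hδ := hδ0 n
          hN := by omega
          h4 := Dvd.intro _ rfl
          s1 := by push_cast; exact hfl
          img := (H.isU n hgood).img
          wir := hw
          hκ := hκ
          M := hM }

/-! ### The structure `PosE` -/

/-- **[PosE]** -/
theorem posE {Φ : (ℝ × ℝ) ≃ₜ (ℝ × ℝ)} {ψ : ℂ → ℂ} {δ : ℕ → ℝ} {N k : ℕ → ℕ}
    {p : ∀ n, ZMod (N n) → ℤ × ℤ} {S : ℕ → Finset (ℤ × ℤ)} {ψn : ℕ → ℂ → ℂ}
    (H : Set6 Φ ψ δ N k p S ψn) {T R X Y κ' ε : ℝ} (hc : Cst T R X Y) (hκ' : κ' ≤ X / 8)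
    (hε : 0 < ε) : ∃ r₀ > 0, ∀ d τ₀ ϱ ℓ : ℝ, 0 < ℓ → τ₀ + ϱ + 17 * ℓ ≤ r₀ →
      ∀ᶠ n in atTop, ∀ (v₀ : ℤ × ℤ) (c : CutP) (w : ℂ) (jf L E : ℤ × ℤ → ℕ),
        CutLat (p n) (k n) (S n) (δ n) ℓ (4 * ⌊ℓ / (4 * δ n)⌋₊) (ψn n) X κ' d ϱ τ₀ v₀ c w jf L E →
        ∀ u ∈ Uset, ∀ (s : Stg) (Rd cd κ μ ρ εn : ℝ) (F₀ : ℤ × ℤ) (W : ℝ → ℝ) (t : ℝ)
          (ip ia ib : ZMod s.mP),
          StgOf s T R X Y Rd cd κ μ d τ₀ ρ εn ℓ ϱ (Psi (δ n) ℓ (4 * ⌊ℓ / (4 * δ n)⌋₊) v₀ (ψn n))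
            c w F₀ W t ip ia ib → SmE εn X →
          ∀ Bb : Finset (ℤ × ℤ),
            (∀ v ∈ Bb, 0 ≤ (fce (4 * ⌊ℓ / (4 * δ n)⌋₊) (v₀ + u) v).2 ∧
              (fce (4 * ⌊ℓ / (4 * δ n)⌋₊) (v₀ + u) v).2 + 1 < c.q ∧
              -c.q + 1 ≤ (fce (4 * ⌊ℓ / (4 * δ n)⌋₊) (v₀ + u) v).1 ∧
              (fce (4 * ⌊ℓ / (4 * δ n)⌋₊) (v₀ + u) v).1 + 1 < c.q) →
            ∀ x : ℝ, Pos (ψn n) W t (ε / 2) {x} ((δ n : ℂ) * pt (p n (jf u))) →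
              PosE (δ n) (ψn n) W t (frz (c.leg (4 * ⌊ℓ / (4 * δ n)⌋₊) v₀ u) (L u)
                (sE s.KB (4 * ⌊ℓ / (4 * δ n)⌋₊) (v₀ + u))) Bb
                (sE s.SE (4 * ⌊ℓ / (4 * δ n)⌋₊) (v₀ + u)) ε x := by
  have hX0 := hc.hX0
  have hX8 : 8 * R ≤ X := by have := hc.hR; have := hc.hX; linarith
  have hX64 : 64 * T ≤ X ^ 2 := by have := hc.hT; have := hc.hX2; linarith
  obtain ⟨⟨η, hη, hsep⟩, -⟩ := CL.sep Φ ψ δ N k p S ψn H (2 * X) (ε / 64) (by positivity)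
  refine ⟨η, hη, fun d τ₀ ϱ ℓ hℓ hr => ?_⟩
  filter_upwards [hsep, dat_ev H (X := X) (κ := κ') (d := d) (τ₀ := τ₀) (ϱ := ϱ)
    (show κ' < X by linarith) hℓ] with n hsepn hdat
  intro v₀ c w jf L E hCL u hu s Rd cd κ μ ρ εn F₀ W t ip ia ib S' hSm Bb hBb x hx
  have D := hdat v₀ c w hCL.toCutM
  set N' : ℕ := 4 * ⌊ℓ / (4 * δ n)⌋₊ with hN'
  have hNp : 0 < N' := by have := D.hN; omega
  have hδ := D.hδ
  have hdd := D.M.cut.hd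
  have hϱ := D.M.cut.hϱ
  have hτ := D.M.cut.hτ
  refine ⟨fun v hv z hz hzD hv' => ?_⟩
  obtain ⟨v', hv', hz'⟩ := hv'
  have h1 := sq_near S' hc hSm D hu (hCL.hE u hu) (hCL.hEL u hu).le (hCL.endw u hu) hBb hv hz hv' hz'
  have h2 := foot_near D (hCL.last u hu) (hCL.endw u hu)
  obtain ⟨a, ha, rfl⟩ := hzD
  obtain ⟨b, hb, hbf, y, hy, hyd⟩ := hx
  have hDr : Drv T R W t := by
    have := S'.ok.drv
    rwa [S'.eW, S'.et] at this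
  have ha0 : 0 < a.im := Vale.Agent.P164.im_pos_of_dom hDr.nn ha
  have hb0 : 0 < b.im := Vale.Agent.P164.im_pos_of_dom hDr.nn hb
  rw [← hbf] at h2
  have haX : dist a X ≤ κ' := hCL.nearX a ha0.le (by
    show dist (Tm (δ n) ℓ N' v₀ (ψn n a)) w ≤ 8 * d
    linarith)
  have hbX : dist b X ≤ κ' := hCL.nearX b hb0.le (by
    show dist (Tm (δ n) ℓ N' v₀ (ψn n b)) w ≤ 8 * d
    linarith)
  have hd1 : dist (ψn n a) (ψn n b) ≤ η := by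
    have h3 := H446.le_dist_Tm (v₀ := v₀) hδ hℓ hNp (ψn n a) (ψn n b)
    have h4 := D.a1
    have h5 := dist_triangle_right (Tm (δ n) ℓ N' v₀ (ψn n a)) (Tm (δ n) ℓ N' v₀ (ψn n b)) w
    have h6 : dist (ψn n a) (ψn n b) ≤ ℓ / (N' * δ n) * dist (ψn n a) (ψn n b) :=
      le_mul_of_one_le_left dist_nonneg h4
    linarith
  have han : ‖a‖ ≤ 2 * X := by
    have h3 : ‖a‖ ≤ dist a X + ‖(X : ℂ)‖ := by
      rw [dist_eq_norm]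
      have := norm_add_le (a - X) (X : ℂ)
      rwa [sub_add_cancel] at this
    rw [Complex.norm_real, Real.norm_of_nonneg hX0.le] at h3
    linarith
  have h7 := hsepn a b ha0.le hb0.le han hd1
  rw [dist_eq_norm] at haX hbX h7
  obtain ⟨-, -, h8⟩ := lip_X hX0 hX8 hX64 hDr ha0 hb0 (haX.trans hκ') (hbX.trans hκ')
  refine ⟨a, ha, rfl, y, hy, ?_⟩
  have h9 := dist_triangle (mb 1 Complex.I (Zf W a t)) (mb 1 Complex.I (Zf W b t))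
    (mb 1 Complex.I (y : ℂ))
  linarith

end Vale.Agent.P167.H450.PE
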