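import Vale.Agent.P167.CL.Geo1
import Vale.Agent.P167.H411.Expand
import Vale.Agent.P167.H756.Exn

/-!
# P167, block CLOSE: the step `0` of the comparison

The squares read before the steps `0` and `1` are the same (none), so the polygon of the step `1` also
serves the step `0`; the observable at the capacity of the step `1` is close to the observable at `0`.
-/

set_option autoImplicit false

open MeasureTheory Filter Topology Set Metric

namespace Vale.Agent.P167.H450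

open Vale.Agent.P153.BESS (RSol)
open Vale.Agent.P167.CL
open Vale.Agent.P167.E6 Vale.Agent.P167.E2 Vale.Agent.P167.H411
open Vale.Agent.P167.H161 (Rd)

/-- The observable is close to one at small capacities, for small drivers. -/
theorem obsF_small {b : ℝ} (hb : 0 < b) {ε : ℝ} (hε : 0 < ε) : ∃ η > 0, ∀ (W : ℝ → ℝ) (t : ℝ),
    0 ≤ t → t ≤ η → ContinuousOn W (Icc 0 t) → (∀ s ∈ Icc 0 t, |W s| ≤ η) →
      |obsF W b t - 1| ≤ ε := by
  -- continuity of the function of two variables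
  have hf : ContinuousAt (fun q : ℝ × ℝ => Real.exp ((q.1 - Real.log (1 + q.2)) / 3)) (0, 0) := by
    refine Real.continuous_exp.continuousAt.comp ?_
    refine ContinuousAt.div_const ?_ 3
    refine continuousAt_fst.sub ?_
    refine ContinuousAt.log ?_ ?_
    · exact continuousAt_const.add continuousAt_snd
    · simp
  obtain ⟨e, he, h⟩ := Metric.continuousAt_iff.1 hf ε hε
  -- bounds
  set F : ℝ → ℝ := fun η => 2 * η / b ^ 2 + 20 * (4 * η / b + η) * η / b ^ 3 with hF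
  set G : ℝ → ℝ := fun η => (η + 2 * η / b + 4 * η * (4 * η / b + η) / b ^ 2) / b with hG
  have hF0 : ∀ᶠ η in 𝓝[>] (0 : ℝ), F η < e := by
    have h1 : ContinuousAt F 0 := by
      rw [hF]; fun_prop
    have h2 : F 0 = 0 := by simp [hF]
    have h3 : ∀ᶠ η in 𝓝 (0 : ℝ), F η < e := by
      refine h1.eventually_lt continuousAt_const ?_
      rw [h2]; exact he
    exact h3.filter_mono nhdsWithin_le_nhds
  have hG0 : ∀ᶠ η in 𝓝[>] (0 : ℝ), G η < e := by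
    have h1 : ContinuousAt G 0 := by
      rw [hG]; fun_prop
    have h2 : G 0 = 0 := by simp [hG]
    have h3 : ∀ᶠ η in 𝓝 (0 : ℝ), G η < e := by
      refine h1.eventually_lt continuousAt_const ?_
      rw [h2]; exact he
    exact h3.filter_mono nhdsWithin_le_nhds
  have hη4 : ∀ᶠ η in 𝓝[>] (0 : ℝ), η < min (b / 4) (b ^ 2 / 16) := by
    have h3 : ∀ᶠ η in 𝓝 (0 : ℝ), η < min (b / 4) (b ^ 2 / 16) :=
      eventually_lt_nhds (by positivity)
    exact h3.filter_mono nhdsWithin_le_nhds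
  obtain ⟨η, ⟨h1, h2, h3⟩, hη⟩ := ((hF0.and (hG0.and hη4)).and self_mem_nhdsWithin).exists
  have hη0 : 0 < η := hη
  refine ⟨η, hη0, fun W t ht htη hW hWη => ?_⟩
  have hbb : |b| = b := abs_of_pos hb
  have a1 : 4 * η ≤ |b| := by
    rw [hbb]; have := (h3.trans_le (min_le_left _ _)).le; linarith
  have a2 : 16 * t ≤ b ^ 2 := by
    have := (h3.trans_le (min_le_right _ _)).le; linarith
  obtain ⟨y, hy⟩ := exists_rsol ht hW hWη hb.ne' a1 a2
  have h4 := RSol.second ht hη0.le hW hWη hb.ne' a1 a2 hy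
  have h5 := RSol.ldv_bound ht hη0.le hW hWη hb.ne' a1 a2 hy
  rw [hbb] at h4 h5
  rw [obsF_eq ht hW hy, obsY]
  have hWt := hWη t ⟨ht, le_rfl⟩
  have c1 : |ldv W y t| < e := by
    refine lt_of_le_of_lt ?_ h1
    have h6 : |ldv W y t| ≤ |ldv W y t + 2 * t / b ^ 2| + |2 * t / b ^ 2| := by
      have := abs_sub_abs_le_abs_sub (ldv W y t) (-(2 * t / b ^ 2))
      rw [sub_neg_eq_add, abs_neg] at this
      linarith
    have h7 : |2 * t / b ^ 2| ≤ 2 * η / b ^ 2 := by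
      rw [abs_of_nonneg (by positivity)]
      gcongr
    have h8 : 20 * (4 * t / b + η) * t / b ^ 3 ≤ 20 * (4 * η / b + η) * η / b ^ 3 := by
      gcongr
    show _ ≤ 2 * η / b ^ 2 + 20 * (4 * η / b + η) * η / b ^ 3
    linarith
  have c2 : |(y t - W t) / b - 1| < e := by
    refine lt_of_le_of_lt ?_ h2
    have e1 : (y t - W t) / b - 1 = ((y t - b - 2 * t / b) + 2 * t / b - W t) / b := by
      field_simp
      ring
    rw [e1, abs_div, hbb]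
    show _ ≤ (η + 2 * η / b + 4 * η * (4 * η / b + η) / b ^ 2) / b
    have h7 : |2 * t / b| ≤ 2 * η / b := by
      rw [abs_of_nonneg (by positivity)]
      gcongr
    have h8 : 4 * t * (4 * t / b + η) / b ^ 2 ≤ 4 * η * (4 * η / b + η) / b ^ 2 := by
      gcongr
    have h9 : |(y t - b - 2 * t / b) + 2 * t / b - W t| ≤
        |y t - b - 2 * t / b| + |2 * t / b| + |W t| := by
      refine (abs_sub _ _).trans ?_
      gcongr
      exact abs_add_le _ _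
    gcongr
    linarith
  have h10 := h (x := (ldv W y t, (y t - W t) / b - 1)) (by
    rw [Prod.dist_eq, max_lt_iff, Real.dist_eq, Real.dist_eq, sub_zero, sub_zero]
    exact ⟨c1, c2⟩)
  rw [Real.dist_eq] at h10
  have e2 : (1 : ℝ) + ((y t - W t) / b - 1) = (y t - W t) / b := by ring
  simp only [e2, add_zero, Real.log_one, sub_zero, zero_div, Real.exp_zero] at h10
  exact h10.le

/-- `StageAt` for the steps `1, 2, ...`. -/
def StageAt1 (δ : ℕ → ℝ) (N k : ℕ → ℕ) (p : ∀ n, ZMod (N n) → ℤ × ℤ) (S : ℕ → Finset (ℤ × ℤ))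
    (ψn : ℕ → ℂ → ℂ) (n : ℕ) (T R b ε ε' ℓ ρ M : ℝ) (Bx : Finset (ℤ × ℤ)) (Nn : ℕ) : Prop :=
  ∃ (v₀ : ℤ × ℤ) (Kc : ℤ × ℤ → Finset (ℤ × ℤ)) (κ : ℤ × ℤ → Cfg) (x : ℤ × ℤ → ℤ × ℤ) (g₀ : ℝ),
    M⁻¹ ≤ g₀ ∧ g₀ ≤ M ∧
    ∀ A ∈ (exn δ N k p S ψn n).C, ∀ j < (exn δ N k p S ψn n).K A, 0 < j →
      (∀ i < j, (exn δ N k p S ψn n).c A i ≤ T ∧ |(exn δ N k p S ψn n).V A i| ≤ R) →
      ∃ P ∈ Fam ρ ℓ M Bx,
        (∀ u : ℤ × ℤ, (u = (0, 0) ∨ u = (1, 0)) → ∀ (r Rb : ℤ), 0 < r → r ≤ Rb →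
          (Rb : ℝ) ≤ ρ * Nn / ℓ → ∃ (PE : Finset (ℤ × ℤ)) (y : ℤ × ℤ),
            LatOne (p n) (k n) (S n) A j (Kc u) PE (sq Nn (v₀ + u) P) (κ u) (x u) y
              (larc Nn (v₀ + u) P) (v₀ + u) r Rb ε') ∧
        ∀ g : ℝ, IsG P ℓ g →
          |(g / g₀) ^ (1 / 3 : ℝ) - obsF ((exn δ N k p S ψn n).W A) b
            ((exn δ N k p S ψn n).c A j)| ≤ ε

/-- The lattice comparison for the steps `1, 2, ...`, for all large `n`. -/
def I_stage1 : Prop := ∀ (Φ : (ℝ × ℝ) ≃ₜ (ℝ × ℝ)) (ψ : ℂ → ℂ)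
  (δ : ℕ → ℝ) (N k : ℕ → ℕ) (p : ∀ n, ZMod (N n) → ℤ × ℤ) (S : ℕ → Finset (ℤ × ℤ))
  (ψn : ℕ → ℂ → ℂ), Set6 Φ ψ δ N k p S ψn → ∀ T R : ℝ, 0 ≤ T → 0 < R → ∃ b₁ : ℝ, ∀ b : ℝ, b₁ ≤ b →
    ∀ ε : ℝ, 0 < ε → ∃ ρ M : ℝ, 0 < ρ ∧ 0 < M ∧ ∀ ε' : ℝ, 0 < ε' →
      ∃ ℓ : ℝ, 0 < ℓ ∧ ℓ < ρ ∧ ∃ Bx : Finset (ℤ × ℤ),
        ∀ᶠ n in atTop, StageAt1 δ N k p S ψn n T R b ε ε' ℓ ρ M Bx (4 * ⌊ℓ / (4 * δ n)⌋₊)

/-- **The step `0`.** -/
theorem i_stage_of (h : I_stage1) : I_stage := by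
  intro Φ ψ δ N k p S ψn hS T R hT hR
  obtain ⟨b₁, h1⟩ := h Φ ψ δ N k p S ψn hS T R hT hR
  refine ⟨max b₁ 1, fun b hb ε hε => ?_⟩
  have hb0 : 0 < b := lt_of_lt_of_le one_pos ((le_max_right _ _).trans hb)
  obtain ⟨ρ, M, hρ, hM, h2⟩ := h1 b ((le_max_left _ _).trans hb) (ε / 2) (by positivity)
  refine ⟨ρ, M, hρ, hM, fun ε' hε' => ?_⟩
  obtain ⟨ℓ, hℓ, hℓρ, Bx, h3⟩ := h2 ε' hε'
  refine ⟨ℓ, hℓ, hℓρ, Bx, ?_⟩
  obtain ⟨η, hη, hobs⟩ := obsF_small hb0 (show 0 < ε / 4 by positivity)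
  filter_upwards [h3, H756.drv hS le_rfl le_rfl hη, good_ev hS.appr] with n hn hd hg
  obtain ⟨v₀, Kc, κ, x, g₀, g1, g2, hn⟩ := hn
  refine ⟨v₀, Kc, κ, x, g₀, g1, g2, ?_⟩
  intro A hA j hj hc
  rcases Nat.eq_zero_or_pos j with h0 | h0
  swap
  · obtain ⟨P, hP, Hi, Hii⟩ := hn A hA j hj h0 hc
    exact ⟨P, hP, Hi, fun g hg => (Hii g hg).trans (by linarith)⟩
  subst h0
  have hwf : (exn δ N k p S ψn n).WF := DC.expl_wf (H756.wf_of hS hg) (hS.uni n hg)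
  have hc0 : (exn δ N k p S ψn n).c A 0 = 0 := hwf.c0 A hA
  have hV0 : (exn δ N k p S ψn n).V A 0 = 0 := by
    show (exn δ N k p S ψn n).w A ((exn δ N k p S ψn n).c A 0).toNNReal = 0
    rw [hc0, Real.toNNReal_zero]
    exact hwf.w0 A hA
  have hK : 1 < (exn δ N k p S ψn n).K A := by
    show 1 < nu (p n) (k n) A
    unfold nu
    omega
  have hi : ∀ (T R : ℝ), 0 ≤ T → 0 ≤ R → ∀ i < 1, (exn δ N k p S ψn n).c A i ≤ T ∧
      |(exn δ N k p S ψn n).V A i| ≤ R := by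
    intro T R hT hR i hi
    obtain rfl : i = 0 := by omega
    rw [hc0, hV0, abs_zero]
    exact ⟨hT, hR⟩
  obtain ⟨P, hP, Hi, Hii⟩ := hn A hA 1 hK one_pos (hi T R hT hR.le)
  refine ⟨P, hP, ?_, ?_⟩
  · intro u hu r Rb hr hrR hRb
    obtain ⟨PE, y, L⟩ := Hi u hu r Rb hr hrR hRb
    exact ⟨PE, y, ⟨L.hx, L.hy, L.hP, L.hisl, L.hbP, L.hB, L.hBK, L.hBR, L.hKR, L.hPR, L.hcmp⟩⟩
  · intro g hg
    obtain ⟨hd1, hd2⟩ := hd A hA 1 hK (hi 0 0 le_rfl le_rfl)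
    have e1 := hobs _ _ hd1.nn (by simpa using hd1.le) hd1.cont.continuousOn
      (fun s hs => by simpa using hd1.bdd s hs)
    have e0 := hobs ((exn δ N k p S ψn n).W A) 0 le_rfl hη.le hd1.cont.continuousOn (fun s hs => by
      rw [Icc_self, mem_singleton_iff] at hs
      rw [hs, hd2, abs_zero]
      exact hη.le)
    have h5 := Hii g hg
    rw [hc0]
    rw [abs_le] at *
    constructor <;> linarith [h5.1, h5.2, e1.1, e1.2, e0.1, e0.2]

/-- **`I_geo` from the comparison at the stages `1, 2, ...`.** -/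
theorem i_geo_of1 (h : I_stage1) : I_geo := i_geo_of (i_stage_of h)

end Vale.Agent.P167.H450
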