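import Vale.Agent.P167.H450.Labv
import Vale.Agent.P167.H531.Arm3

/-!
# P167, block CONT-ASM: [LABW], the points near the visited faces are conformally near the origin
-/

set_option autoImplicit false

open MeasureTheory Set Metric Filter Topology

namespace Vale.Agent.P167.H450

open Vale.Agent.P167 Vale.Agent.P167.E6 Vale.Agent.P167.E2
open Vale.Agent.P167.H531
open Vale.Agent.P167.H161 (zp)
open Vale.Agent.P167.H634 (cf)
open Vale.Agent.P167.H756 (HConf Drv)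
open Vale.Agent.P164 (loewnerDomain Zf)
open Vale.Agent.P153.R2.R1 (mb)
open Vale.Agent.P153.R2.L1 (HH)

/-- The analytic part: a point joined to the path by a small set is conformally near the origin. -/
theorem labv_core {T R Rd cd Y u₀ : ℝ} (hRd : 0 < Rd) (hcd : 0 < cd) (hY0 : 0 < Y) (hY : 8 * R ≤ Y)
    (hY2 : 64 * T ≤ Y ^ 2) (hu : 0 < u₀) (hRu : 64 * R ≤ u₀) (hTu : 1024 * T ≤ u₀ ^ 2) :
    ∃ η > 0, ∀ {n : ℕ} {p : ZMod n → ℤ × ℤ} {k : ℕ} {S : Finset (ℤ × ℤ)}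
      {A : Finset (Sym2 (ℤ × ℤ))} {δ : ℝ} {j : ℕ} {ψ : ℂ → ℂ} {W : ℝ → ℝ} {t : ℝ},
      CDat δ p k S A j ψ W t T R Rd cd Y → ∀ (C : Set ℂ) (z σ : ℂ), IsPreconnected C →
      C ⊆ ψ '' loewnerDomain W t → z ∈ C → (∀ x ∈ C, ∀ y ∈ C, dist x y ≤ η) →
      σ ∈ pl p k δ A '' Icc 0 (j : ℝ) → σ ∈ Om δ S → σ ∈ closure C →
      ∃ w ∈ loewnerDomain W t, ψ w = z ∧ ‖Zf W w t‖ ≤ u₀ / 2 := by
  obtain ⟨κ, hκ, hchart⟩ := chart_small hu
  obtain ⟨η, hη, hsm⟩ := H756.small_dom (T := T) (R := R) hRd hcd hY0 hY hY2 hκ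
  refine ⟨η, hη, ?_⟩
  intro n p k S A δ j ψ W t hD C z σ hCc hCs hCf hCd hσp hσO hσC
  obtain ⟨w, hw, hwe⟩ := hCs hCf
  refine ⟨w, hw, hwe, ?_⟩
  -- a point of `C` with small preimage
  obtain ⟨η', hη', hηe⟩ : ∃ z ∈ HH, ψ z = σ := by
    have : σ ∈ ψ '' HH := by rw [hD.dom0]; exact hσO
    exact this
  have hηn : η' ∉ loewnerDomain W t := by
    intro hc
    have : σ ∈ ψ '' loewnerDomain W t := ⟨η', hc, hηe⟩
    rw [hD.dom] at this
    exact this.2 hσp
  have hηs : ‖η'‖ < u₀ / 8 := by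
    by_contra hc
    push Not at hc
    exact hηn (mem_dom_of hD.drv hu hRu hTu hη' hc)
  set U : Set ℂ := HH ∩ ball 0 (u₀ / 8) with hU
  have hUo : IsOpen (ψ '' U) := H756.isOpen_img hD.conf.diff hD.conf.inj
    ((isOpen_lt continuous_const Complex.continuous_im).inter isOpen_ball) inter_subset_left
  have hσU : σ ∈ ψ '' U := ⟨η', ⟨hη', by rwa [mem_ball_zero_iff]⟩, hηe⟩
  obtain ⟨z', ⟨w', ⟨hw'H, hw'b⟩, hw'e⟩, hz'C⟩ := mem_closure_iff_nhds.1 hσC _ (hUo.mem_nhds hσU)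
  obtain ⟨w'', hw''d, hw''e⟩ := hCs hz'C
  have hLH : loewnerDomain W t ⊆ HH := fun z hz => by
    have h1 : z ∈ HH \ (HH \ loewnerDomain W t) := by
      rw [Vale.Agent.P153.R2.STEP.dom_compl hD.drv.nn]; exact hz
    exact h1.1
  have e1 : w'' = w' := hD.conf.inj (hLH hw''d) hw'H (by rw [hw''e, hw'e])
  subst e1
  rw [mem_ball_zero_iff] at hw'b
  have h1 := zf_small hD.drv hu hRu hTu hw''d hw'b.le
  have h2 := hsm ψ hD.conf W t hD.drv C hCs hCc hCd
    w hw w'' hw''d (by rw [hwe]; exact hCf) (by rw [hw''e]; exact hz'C)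
  exact hchart _ _ (Vale.Agent.P164.Zf_im_pos hD.drv.nn hw)
    (Vale.Agent.P164.Zf_im_pos hD.drv.nn hw''d) h1 h2

/-- The first exit of a polygonal curve of three pieces. -/
theorem first_hit {D P : Set ℂ} (hP : IsClosed P) {x : ℕ → ℂ} {M : ℝ}
    (hseg : ∀ i < 3, segment ℝ (x i) (x (i + 1)) ⊆ D)
    (hM : ∀ i < 3, ∀ j < 3, ∀ y ∈ segment ℝ (x i) (x (i + 1)), ∀ y' ∈ segment ℝ (x j) (x (j + 1)),
      dist y y' ≤ M) (h0 : x 0 ∉ P) (h3 : x 3 ∈ P) :
    ∃ C ⊆ D \ P, IsPreconnected C ∧ x 0 ∈ C ∧ (∀ y ∈ C, ∀ y' ∈ C, dist y y' ≤ M) ∧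
      ∃ σ ∈ P, σ ∈ D ∧ σ ∈ closure C := by
  have hlin : ∀ s : ℝ, 0 ≤ s → s ≤ 3 → ∃ i < 3, lin x s ∈ segment ℝ (x i) (x (i + 1)) := by
    intro s hs0 hs3
    obtain ⟨i, hi, h1, h2⟩ : ∃ i : ℕ, i < 3 ∧ (i : ℝ) ≤ s ∧ s ≤ i + 1 := by
      rcases le_total s 1 with h | h
      · exact ⟨0, by norm_num, by simpa using hs0, by simpa using h⟩
      rcases le_total s 2 with h' | h'
      · exact ⟨1, by norm_num, by simpa using h, by push_cast; linarith⟩
      · exact ⟨2, by norm_num, by simpa using h', by push_cast; linarith⟩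
    refine ⟨i, hi, ?_⟩
    rw [lin_eq x i (Or.inl h1) h2, segment_eq_image']
    exact ⟨s - i, ⟨by linarith, by linarith⟩, by simp⟩
  set Θ : Set ℝ := Icc 0 3 ∩ lin x ⁻¹' P with hΘ
  have hΘc : IsCompact Θ := isCompact_Icc.inter_right (hP.preimage (continuous_lin x))
  have e3 : lin x 3 = x 3 := by
    have := lin_nat x 3
    simpa using this
  have e0 : lin x 0 = x 0 := by
    have := lin_nat x 0
    simpa using this
  obtain ⟨s₀, ⟨⟨h4, h5⟩, h6⟩, hmin⟩ := hΘc.exists_isLeast ⟨3, ⟨by norm_num, le_rfl⟩, by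
    rw [mem_preimage, e3]; exact h3⟩
  have h7 : 0 < s₀ := by
    refine lt_of_le_of_ne h4 fun h => h0 ?_
    rw [← e0, h]
    exact h6
  have hin : ∀ s, 0 ≤ s → s ≤ 3 → lin x s ∈ D := fun s h h' => by
    obtain ⟨i, hi, h8⟩ := hlin s h h'
    exact hseg i hi h8
  refine ⟨lin x '' Ico 0 s₀, ?_, isPreconnected_Ico.image _ (continuous_lin x).continuousOn,
    ⟨0, ⟨le_rfl, h7⟩, e0⟩, ?_, lin x s₀, h6, hin s₀ h4 h5, ?_⟩
  · rintro _ ⟨s, hs, rfl⟩
    have hs3 : s ≤ 3 := hs.2.le.trans h5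
    exact ⟨hin s hs.1 hs3, fun hc => absurd (hmin ⟨⟨hs.1, hs3⟩, hc⟩) (not_le.2 hs.2)⟩
  · rintro _ ⟨s, hs, rfl⟩ _ ⟨s', hs', rfl⟩
    obtain ⟨i, hi, h8⟩ := hlin s hs.1 (hs.2.le.trans h5)
    obtain ⟨i', hi', h9⟩ := hlin s' hs'.1 (hs'.2.le.trans h5)
    exact hM i hi i' hi' _ h8 _ h9
  · have h8 : s₀ ∈ closure (Ico 0 s₀) := by
      rw [closure_Ico h7.ne]
      exact ⟨h4, le_rfl⟩
    exact image_closure_subset_closure_image (continuous_lin x) ⟨s₀, h8, rfl⟩

theorem crn_edge {S : Finset (ℤ × ℤ)} {f v : ℤ × ℤ} (hf : f ∈ S) (hv : CrnS v (H192.rf f)) :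
    H192.ed v ∈ edges S := by
  obtain ⟨w, r, hw⟩ := H192.isEdge_ed v
  have h1 := stM_faces w r
  rw [← hw, H192.sq_ed] at h1
  rw [hw, mem_edges]
  have hodd : ((H192.rf f).1 + (H192.rf f).2) % 2 = 1 := by
    simp only [H192.rf]; omega
  have key : H192.rf f = H192.rf (face w r) ∨ H192.rf f = H192.rf (face w (r - 1)) := by
    generalize H192.rf (face w r) = x at h1
    generalize H192.rf (face w (r - 1)) = y at h1
    generalize H192.rf f = s at hv hodd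
    obtain ⟨h2, h3, h4, h5⟩ := h1
    have e1 : v.1 = min x.1 y.1 := by rw [h2]
    have e2 : v.2 = min x.2 y.2 := by rw [h2]
    obtain ⟨g1, g2⟩ := hv
    by_cases h : s.1 = x.1
    · left
      exact Prod.ext h (by omega)
    · right
      exact Prod.ext (by omega) (by omega)
  rcases key with h | h
  · left
    have := congrArg H192.rf' h
    rw [H192.rf'_rf, H192.rf'_rf] at this
    rw [← this]; exact hf
  · right
    have := congrArg H192.rf' h
    rw [H192.rf'_rf, H192.rf'_rf] at this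
    rw [← this]; exact hf

/-- **[LABW]** -/
theorem s_labw : S_labw := by
  intro T R Rd cd Y u₀ hT hR hRd hcd hY0 hY hY2 hu hRu hTu
  obtain ⟨η, hη, hcore⟩ := labv_core hRd hcd hY0 hY hY2 hu hRu hTu
  refine ⟨η / 8, by positivity, ?_⟩
  intro n p k S A δ j ψ W t hj0 hδη hD i hi hf v hv z hz hzD
  have hδ := hD.hδ
  set c := run p k A i with hc
  obtain ⟨ζ, rfl⟩ := exists_unit hδ z
  have hζ : ζ ∈ Bq v := (mem_Dsq hδ).1 hz
  have hzO : (δ : ℂ) * ζ ∈ Om δ S := by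
    rw [hD.dom] at hzD; exact hzD.1
  have hζO : ζ ∈ O1 (S : Set (ℤ × ℤ)) := (mem_Om hδ).1 hzO
  have hve := crn_edge hf hv
  -- the centre
  set m := pt (fc c) + (1 + Complex.I) / 2 with hm
  have hm1 : m = zp 1 (H192.rf (fc c)) := by
    apply Complex.ext
    · rw [H161.zp_re, hm]
      simp [pt, H192.rf]
      ring
    · rw [H161.zp_im, hm]
      simp [pt, H192.rf]
      ring
  have hmB : m ∈ Bq v := by rw [hm1]; exact crn_bq hv
  have hmre : m.re = (fc c).1 + 1 / 2 := by simp [hm, pt]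
  have hmim : m.im = (fc c).2 + 1 / 2 := by simp [hm, pt]
  have hmO : m ∈ O1 (S : Set (ℤ × ℤ)) := by
    refine ⟨fc c, hf, ?_, ?_, ?_, ?_⟩ <;> first | rw [hmre] | rw [hmim]
    all_goals linarith
  -- the good points
  have hgB : ∀ w ∈ Bq v, |w.re - m.re| ≤ 1 ∧ |w.im - m.im| ≤ 1 := by
    rintro w ⟨a1, a2, a3, a4⟩
    obtain ⟨b1, b2, b3, b4⟩ := hmB
    constructor <;> rw [abs_le] <;> constructor <;> linarith
  have hconv : ∀ {a b : ℂ} {s : ℝ}, a ∈ Bq v → b ∈ Bq v → 0 ≤ s → s ≤ 1 →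
      a + (s : ℂ) * (b - a) ∈ Bq v := by
    rintro a b s ⟨a1, a2, a3, a4⟩ ⟨b1, b2, b3, b4⟩ h0 h1
    have e1 : (a + (s : ℂ) * (b - a)).re - (a + (s : ℂ) * (b - a)).im =
        (1 - s) * (a.re - a.im) + s * (b.re - b.im) := by
      simp only [Complex.add_re, Complex.add_im, Complex.re_ofReal_mul, Complex.im_ofReal_mul,
        Complex.sub_re, Complex.sub_im]
      ring
    have e2 : (a + (s : ℂ) * (b - a)).re + (a + (s : ℂ) * (b - a)).im =
        (1 - s) * (a.re + a.im) + s * (b.re + b.im) := by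
      simp only [Complex.add_re, Complex.add_im, Complex.re_ofReal_mul, Complex.im_ofReal_mul,
        Complex.sub_re, Complex.sub_im]
      ring
    have h2 : 0 ≤ 1 - s := by linarith
    refine ⟨?_, ?_, ?_, ?_⟩
    · rw [e1]; nlinarith
    · rw [e1]; nlinarith
    · rw [e2]; nlinarith
    · rw [e2]; nlinarith
  set y : ℕ → ℂ := fun i => if i = 0 then ζ else if i = 1 then mq v else if i = 2 then m else
    cpt (1 / 4) c with hy
  have hseg : ∀ i < 3, ∀ w ∈ segment ℝ ((δ : ℂ) * y i) ((δ : ℂ) * y (i + 1)), ∃ w', w = (δ : ℂ) * w' ∧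
      w' ∈ O1 (S : Set (ℤ × ℤ)) ∧ |w'.re - m.re| ≤ 1 ∧ |w'.im - m.im| ≤ 1 := by
    intro i hi w hw
    rw [segment_eq_image'] at hw
    obtain ⟨s, ⟨h0, h1⟩, rfl⟩ := hw
    refine ⟨y i + (s : ℂ) * (y (i + 1) - y i), ?_, ?_⟩
    · simp only [Complex.real_smul]; ring
    obtain rfl | rfl | rfl : i = 0 ∨ i = 1 ∨ i = 2 := by omega
    · have e : y 0 + (s : ℂ) * (y (0 + 1) - y 0) = mq v + ((1 - s : ℝ) : ℂ) * (ζ - mq v) := by
        simp only [hy]; push_cast; ring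
      rw [e]
      refine ⟨star_O1 hve hζ hζO (by linarith) (by linarith), hgB _ ?_⟩
      have hmq : mq v ∈ Bq v := by
        obtain ⟨c1, c2, c3, c4⟩ := mq_bo v
        exact ⟨c1.le, c2.le, c3.le, c4.le⟩
      exact hconv hmq hζ (by linarith) (by linarith)
    · have e : y 1 + (s : ℂ) * (y (1 + 1) - y 1) = mq v + (s : ℂ) * (m - mq v) := by
        simp only [hy]; norm_num
      rw [e]
      refine ⟨star_O1 hve hmB hmO h0 h1, hgB _ ?_⟩
      have hmq : mq v ∈ Bq v := by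
        obtain ⟨c1, c2, c3, c4⟩ := mq_bo v
        exact ⟨c1.le, c2.le, c3.le, c4.le⟩
      exact hconv hmq hmB h0 h1
    · have e : y 2 + (s : ℂ) * (y (2 + 1) - y 2) = cpt (1 / 2 - s / 4) c := by
        have e1 : y 2 = cpt (1 / 2) c := by simp only [hy]; norm_num; rw [cpt_half]
        have e2 : y (2 + 1) = cpt (1 / 4) c := by simp only [hy]; norm_num
        rw [e1, e2]
        unfold cpt
        push_cast
        ring
      rw [e]
      obtain ⟨d1, d2, d3, d4⟩ := cpt_face (θ := 1 / 2 - s / 4) (by linarith) (by linarith) c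
      refine ⟨⟨fc c, hf, by linarith, by linarith, by linarith, by linarith⟩, ?_, ?_⟩
      · rw [abs_le, hmre]; constructor <;> linarith
      · rw [abs_le, hmim]; constructor <;> linarith
  obtain ⟨C, hCs, hCc, hC0, hCd, σ, hσ1, hσ2, hσ3⟩ := first_hit
    (D := Om δ S) (P := pl p k δ A '' Icc 0 (j : ℝ)) (x := fun i => (δ : ℂ) * y i) (M := η)
    (isCompact_Icc.image (continuous_pl δ)).isClosed
    (fun i hi w hw => by
      obtain ⟨w', rfl, h1, -⟩ := hseg i hi w hw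
      exact (mem_Om hδ).2 h1)
    (fun i hi i' hi' w hw u hu' => by
      obtain ⟨w', rfl, -, h1, h2⟩ := hseg i hi w hw
      obtain ⟨u', rfl, -, h3, h4⟩ := hseg i' hi' u hu'
      rw [dist_eq_norm, ← mul_sub, norm_mul, Complex.norm_real, Real.norm_of_nonneg hδ.le]
      have h5 : ‖w' - u'‖ ≤ 4 := by
        refine (Complex.norm_le_abs_re_add_abs_im _).trans ?_
        rw [Complex.sub_re, Complex.sub_im]
        have h6 : |w'.re - u'.re| ≤ 2 := by
          rw [abs_le] at *; constructor <;> linarith [h1.1, h1.2, h3.1, h3.2]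
        have h7 : |w'.im - u'.im| ≤ 2 := by
          rw [abs_le] at *; constructor <;> linarith [h2.1, h2.2, h4.1, h4.2]
        linarith
      calc δ * ‖w' - u'‖ ≤ δ * 4 := by gcongr
        _ ≤ η := by linarith)
    (by
      have e : y 0 = ζ := by simp [hy]
      show (δ : ℂ) * y 0 ∉ _
      rw [e]
      rw [hD.dom] at hzD
      exact hzD.2)
    (by
      have e : y 3 = cpt (1 / 4) c := by simp [hy]
      show (δ : ℂ) * y 3 ∈ _
      rw [e]
      refine ⟨((i + 1 : ℕ) : ℝ), ⟨by positivity, ?_⟩, ?_⟩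
      · exact_mod_cast (by omega : i + 1 ≤ j)
      · unfold pl
        rw [lin_nat, xv_mid (by have := hD.hj; omega)])
  have e : (δ : ℂ) * y 0 = (δ : ℂ) * ζ := by simp [hy]
  refine hcore hD C _ σ hCc ?_ (by rw [← e]; exact hC0) hCd hσ1 hσ2 hσ3
  rw [hD.dom]
  exact hCs

end Vale.Agent.P167.H450
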