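import Vale.Agent.P167.H450.Cyc

/-!
# Brick polygons inside a rough domain

`D` is a bounded open set with connected complement, `E ⊇ D` is an open set (`E = D`, or `D`
enlarged through a flat piece of the boundary). `P` is the component of the union of the bricks at
distance at least `ρ` from the complement of `E` with the interior in `D`.
-/

namespace Vale.Agent.P167.H450

open Set Metric Vale.Agent.P167.E6

/-- The closed square of the face `F`, mesh `ℓ`. -/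
def sqr (ℓ : ℝ) (F : ℤ × ℤ) : Set ℂ :=
  {z | ℓ * F.1 ≤ z.re ∧ z.re ≤ ℓ * (F.1 + 1) ∧ ℓ * F.2 ≤ z.im ∧ z.im ≤ ℓ * (F.2 + 1)}

/-- The union of the squares of a set of faces. -/
def reg (ℓ : ℝ) (A : Set (ℤ × ℤ)) : Set ℂ := {z | ∃ F ∈ A, z ∈ sqr ℓ F}

theorem reg_coe (ℓ : ℝ) (S : Finset (ℤ × ℤ)) : reg ℓ (S : Set (ℤ × ℤ)) = region ℓ S := rfl

/-- The closed brick `b`. -/
def bk (ℓ : ℝ) (b : ℤ × ℤ) : Set ℂ :=
  {z | ℓ * (2 * b.1 - b.2) ≤ z.re ∧ z.re ≤ ℓ * (2 * b.1 - b.2 + 2) ∧ ℓ * b.2 ≤ z.im ∧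
    z.im ≤ ℓ * (b.2 + 1)}

/-- The open brick `b`. -/
def obk (ℓ : ℝ) (b : ℤ × ℤ) : Set ℂ :=
  {z | ℓ * (2 * b.1 - b.2) < z.re ∧ z.re < ℓ * (2 * b.1 - b.2 + 2) ∧ ℓ * b.2 < z.im ∧
    z.im < ℓ * (b.2 + 1)}

/-- Good bricks. -/
def Good (ℓ ρ : ℝ) (D E : Set ℂ) (b : ℤ × ℤ) : Prop :=
  (∀ z ∈ bk ℓ b, ball z ρ ⊆ E) ∧ obk ℓ b ⊆ D

/-- Good faces. -/
def GF (ℓ ρ : ℝ) (D E : Set ℂ) : Set (ℤ × ℤ) := {F | Good ℓ ρ D E (br F)}

/-- The component of the face `F₀`. -/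
def Cmp (A : Set (ℤ × ℤ)) (F₀ : ℤ × ℤ) : Set (ℤ × ℤ) :=
  {F | Relation.ReflTransGen (fun a b => b ∈ A ∧ ∃ r, b = a + dir r) F₀ F}

variable {ℓ ρ : ℝ} {D E : Set ℂ} {F F' F₀ b : ℤ × ℤ} {z w : ℂ}

/-- The faces of a brick. -/
theorem br_eq_iff : br F = b ↔ (F.1 = 2 * b.1 - b.2 ∨ F.1 = 2 * b.1 - b.2 + 1) ∧ F.2 = b.2 := by
  obtain ⟨i, j⟩ := F
  obtain ⟨k, m⟩ := b
  simp only [br, Prod.mk.injEq]
  constructor
  · rintro ⟨h1, h2⟩
    refine ⟨?_, h2⟩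
    omega
  · rintro ⟨h1, h2⟩
    refine ⟨?_, h2⟩
    omega

theorem sqr_subset_bk (hℓ : 0 < ℓ) : sqr ℓ F ⊆ bk ℓ (br F) := by
  intro z hz
  obtain ⟨h1, h2⟩ := (br_eq_iff (F := F) (b := br F)).1 rfl
  obtain ⟨h3, h4, h5, h6⟩ := hz
  have e2 : (F.2 : ℝ) = (br F).2 := by rw [h2]
  refine ⟨?_, ?_, by rw [← e2]; exact h5, by rw [← e2]; exact h6⟩
  · rcases h1 with h | h
    · have : (F.1 : ℝ) = 2 * (br F).1 - (br F).2 := by rw [h]; push_cast; ring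
      rw [← this]; exact h3
    · have : (F.1 : ℝ) = 2 * (br F).1 - (br F).2 + 1 := by rw [h]; push_cast; ring
      have e : ℓ * (2 * ((br F).1 : ℝ) - (br F).2) = ℓ * F.1 - ℓ := by rw [this]; ring
      rw [e]; linarith
  · rcases h1 with h | h
    · have : (F.1 : ℝ) = 2 * (br F).1 - (br F).2 := by rw [h]; push_cast; ring
      have e : ℓ * (2 * ((br F).1 : ℝ) - (br F).2 + 2) = ℓ * (F.1 + 1) + ℓ := by rw [this]; ring
      rw [e]; linarith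
    · have : (F.1 : ℝ) = 2 * (br F).1 - (br F).2 + 1 := by rw [h]; push_cast; ring
      have e : ℓ * (2 * ((br F).1 : ℝ) - (br F).2 + 2) = ℓ * (F.1 + 1) := by rw [this]; ring
      rw [e]; exact h4

theorem bk_subset (hz : z ∈ bk ℓ b) : ∃ F, br F = b ∧ z ∈ sqr ℓ F := by
  obtain ⟨h1, h2, h3, h4⟩ := hz
  rcases le_total z.re (ℓ * (2 * b.1 - b.2 + 1)) with h | h
  · refine ⟨(2 * b.1 - b.2, b.2), br_eq_iff.2 ⟨Or.inl rfl, rfl⟩, ?_⟩
    refine ⟨?_, ?_, h3, h4⟩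
    · push_cast; exact h1
    · push_cast; exact h
  · refine ⟨(2 * b.1 - b.2 + 1, b.2), br_eq_iff.2 ⟨Or.inr rfl, rfl⟩, ?_⟩
    refine ⟨?_, ?_, h3, h4⟩
    · push_cast; exact h
    · push_cast
      have : ℓ * (2 * (b.1 : ℝ) - b.2 + 1 + 1) = ℓ * (2 * b.1 - b.2 + 2) := by ring
      rw [this]; exact h2

theorem exists_sqr (hℓ : 0 < ℓ) (z : ℂ) : ∃ F, z ∈ sqr ℓ F := by
  refine ⟨(⌊z.re / ℓ⌋, ⌊z.im / ℓ⌋), ?_, ?_, ?_, ?_⟩
  · have := Int.floor_le (z.re / ℓ)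
    rw [le_div_iff₀ hℓ] at this
    simpa [mul_comm] using this
  · have := (Int.lt_floor_add_one (z.re / ℓ)).le
    rw [div_le_iff₀ hℓ] at this
    simpa [mul_comm] using this
  · have := Int.floor_le (z.im / ℓ)
    rw [le_div_iff₀ hℓ] at this
    simpa [mul_comm] using this
  · have := (Int.lt_floor_add_one (z.im / ℓ)).le
    rw [div_le_iff₀ hℓ] at this
    simpa [mul_comm] using this

theorem convex_bk (ℓ : ℝ) (b : ℤ × ℤ) : Convex ℝ (bk ℓ b) := by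
  intro z hz w hw s t hs ht hst
  obtain ⟨h1, h2, h3, h4⟩ := hz
  obtain ⟨g1, g2, g3, g4⟩ := hw
  have e1 : (s • z + t • w).re = s * z.re + t * w.re := by simp
  have e2 : (s • z + t • w).im = s * z.im + t * w.im := by simp
  have ht' : t = 1 - s := by linarith
  subst ht'
  refine ⟨?_, ?_, ?_, ?_⟩
  · rw [e1]; nlinarith
  · rw [e1]; nlinarith
  · rw [e2]; nlinarith
  · rw [e2]; nlinarith

theorem dist_le_of_bk (hz : z ∈ bk ℓ b) (hw : w ∈ bk ℓ b) : dist z w ≤ 3 * ℓ := by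
  obtain ⟨h1, h2, h3, h4⟩ := hz
  obtain ⟨g1, g2, g3, g4⟩ := hw
  have a1 : |(z - w).re| ≤ 2 * ℓ := by
    rw [Complex.sub_re, abs_le]
    constructor <;> nlinarith
  have a2 : |(z - w).im| ≤ ℓ := by
    rw [Complex.sub_im, abs_le]
    constructor <;> nlinarith
  calc dist z w = ‖z - w‖ := dist_eq_norm _ _
    _ ≤ |(z - w).re| + |(z - w).im| := Complex.norm_le_abs_re_add_abs_im _
    _ ≤ 3 * ℓ := by linarith

theorem isClosed_sqr (ℓ : ℝ) (F : ℤ × ℤ) : IsClosed (sqr ℓ F) := by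
  have e : sqr ℓ F = {z : ℂ | ℓ * F.1 ≤ z.re} ∩ {z | z.re ≤ ℓ * (F.1 + 1)} ∩ {z | ℓ * F.2 ≤ z.im} ∩
      {z | z.im ≤ ℓ * (F.2 + 1)} := by
    ext z
    simp only [sqr, mem_inter_iff, mem_ofPred_eq]
    tauto
  rw [e]
  exact (((isClosed_le continuous_const Complex.continuous_re).inter
    (isClosed_le Complex.continuous_re continuous_const)).inter
    (isClosed_le continuous_const Complex.continuous_im)).inter
    (isClosed_le Complex.continuous_im continuous_const)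

theorem isPreconnected_sqr (ℓ : ℝ) (F : ℤ × ℤ) : IsPreconnected (sqr ℓ F) := by
  apply Convex.isPreconnected
  intro z hz w hw s t hs ht hst
  obtain ⟨h1, h2, h3, h4⟩ := hz
  obtain ⟨g1, g2, g3, g4⟩ := hw
  have e1 : (s • z + t • w).re = s * z.re + t * w.re := by simp
  have e2 : (s • z + t • w).im = s * z.im + t * w.im := by simp
  have ht' : t = 1 - s := by linarith
  subst ht'
  refine ⟨?_, ?_, ?_, ?_⟩
  · rw [e1]; nlinarith
  · rw [e1]; nlinarith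
  · rw [e2]; nlinarith
  · rw [e2]; nlinarith

/-- The faces near a point. -/
theorem near_face (hℓ : 0 < ℓ) (hz : z ∈ sqr ℓ F) (hw : w ∈ sqr ℓ F') (h : dist z w < ℓ / 2) :
    |F.1 - F'.1| ≤ 1 ∧ |F.2 - F'.2| ≤ 1 := by
  obtain ⟨h1, h2, h3, h4⟩ := hz
  obtain ⟨g1, g2, g3, g4⟩ := hw
  have a1 : |(z - w).re| < ℓ / 2 := lt_of_le_of_lt (Complex.abs_re_le_norm _)
    (by rw [← dist_eq_norm]; exact h)
  have a2 : |(z - w).im| < ℓ / 2 := lt_of_le_of_lt (Complex.abs_im_le_norm _)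
    (by rw [← dist_eq_norm]; exact h)
  rw [Complex.sub_re, abs_lt] at a1
  rw [Complex.sub_im, abs_lt] at a2
  have key : ∀ a b : ℤ, (∃ x y : ℝ, ℓ * a ≤ x ∧ x ≤ ℓ * (a + 1) ∧ ℓ * b ≤ y ∧ y ≤ ℓ * (b + 1) ∧
      -(ℓ / 2) < x - y ∧ x - y < ℓ / 2) → |a - b| ≤ 1 := by
    rintro a b ⟨x, y, q1, q2, q3, q4, q5, q6⟩
    have c1 : ℓ * ((a : ℝ) - b - 1) < ℓ * (1 / 2) := by nlinarith
    have c2 : ℓ * ((b : ℝ) - a - 1) < ℓ * (1 / 2) := by nlinarith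
    have d1 := lt_of_mul_lt_mul_left c1 hℓ.le
    have d2 := lt_of_mul_lt_mul_left c2 hℓ.le
    have e1 : (a : ℝ) - b < 2 := by linarith
    have e2 : (b : ℝ) - a < 2 := by linarith
    have e1' : a - b < 2 := by exact_mod_cast e1
    have e2' : b - a < 2 := by exact_mod_cast e2
    rw [abs_le]; constructor <;> omega
  exact ⟨key _ _ ⟨z.re, w.re, h1, h2, g1, g2, a1.1, a1.2⟩,
    key _ _ ⟨z.im, w.im, h3, h4, g3, g4, a2.1, a2.2⟩⟩

/-- Unions of closed squares are closed. -/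
theorem isClosed_reg (hℓ : 0 < ℓ) (A : Set (ℤ × ℤ)) : IsClosed (reg ℓ A) := by
  rw [← isOpen_compl_iff, Metric.isOpen_iff]
  intro z hz
  obtain ⟨F, hF⟩ := exists_sqr hℓ z
  -- finitely many squares near `z`
  set N : Set (ℤ × ℤ) := {G ∈ A | |F.1 - G.1| ≤ 1 ∧ |F.2 - G.2| ≤ 1} with hN
  have hfin : N.Finite := by
    apply Set.Finite.subset ((Set.finite_Icc (F.1 - 1) (F.1 + 1)).prod
      (Set.finite_Icc (F.2 - 1) (F.2 + 1)))
    rintro G ⟨-, h1, h2⟩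
    rw [abs_le] at h1 h2
    exact ⟨⟨by omega, by omega⟩, ⟨by omega, by omega⟩⟩
  have hcl : IsClosed (⋃ G ∈ N, sqr ℓ G) := hfin.isClosed_biUnion fun G _ => isClosed_sqr ℓ G
  have hzn : z ∈ (⋃ G ∈ N, sqr ℓ G)ᶜ := by
    intro h
    simp only [mem_iUnion] at h
    obtain ⟨G, hG, hzG⟩ := h
    exact hz ⟨G, hG.1, hzG⟩
  obtain ⟨ε, hε, hb⟩ := Metric.isOpen_iff.1 hcl.isOpen_compl z hzn
  refine ⟨min ε (ℓ / 2), lt_min hε (by linarith), fun w hw => ?_⟩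
  rintro ⟨G, hG, hwG⟩
  have h1 : dist z w < ℓ / 2 := by
    rw [dist_comm]; exact lt_of_lt_of_le hw (min_le_right _ _)
  have h2 := near_face hℓ hF hwG h1
  have h3 : w ∈ ball z ε := mem_ball.2 (lt_of_lt_of_le (mem_ball.1 hw) (min_le_left _ _))
  apply hb h3
  simp only [mem_iUnion]
  exact ⟨G, ⟨hG, h2⟩, hwG⟩

/-- A point all of whose squares are in `A` is an interior point. -/
theorem mem_interior_reg (hℓ : 0 < ℓ) {A : Set (ℤ × ℤ)} (h : ∀ F, z ∈ sqr ℓ F → F ∈ A) :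
    z ∈ interior (reg ℓ A) := by
  have h1 : z ∉ reg ℓ Aᶜ := by
    rintro ⟨F, hF, hz⟩
    exact hF (h F hz)
  obtain ⟨ε, hε, hb⟩ := Metric.isOpen_iff.1 (isClosed_reg hℓ Aᶜ).isOpen_compl z h1
  rw [mem_interior]
  refine ⟨ball z ε, fun w hw => ?_, isOpen_ball, mem_ball_self hε⟩
  obtain ⟨F, hF⟩ := exists_sqr hℓ w
  refine ⟨F, ?_, hF⟩
  by_contra hFA
  exact hb hw ⟨F, hFA, hF⟩

/-- The centre of a square is only in this square, and is near every point of the square on a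
segment. -/
theorem exists_only (hℓ : 0 < ℓ) (hz : z ∈ sqr ℓ F) {ε : ℝ} (hε : 0 < ε) :
    ∃ w, dist w z < ε ∧ ∀ G, w ∈ sqr ℓ G → G = F := by
  obtain ⟨h1, h2, h3, h4⟩ := hz
  set c : ℂ := ⟨ℓ * (F.1 + 1 / 2), ℓ * (F.2 + 1 / 2)⟩ with hc
  obtain ⟨t, ht0, ht1, ht⟩ : ∃ t : ℝ, 0 < t ∧ t ≤ 1 ∧ t * (dist c z + 1) < ε := by
    refine ⟨min 1 (ε / (2 * (dist c z + 1))), lt_min one_pos (by positivity), min_le_left _ _, ?_⟩
    calc min 1 (ε / (2 * (dist c z + 1))) * (dist c z + 1)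
        ≤ ε / (2 * (dist c z + 1)) * (dist c z + 1) := by gcongr; exact min_le_right _ _
      _ = ε / 2 := by field_simp
      _ < ε := by linarith
  refine ⟨z + t * (c - z), ?_, ?_⟩
  · rw [dist_eq_norm, add_sub_cancel_left, norm_mul, Complex.norm_real, Real.norm_eq_abs,
      abs_of_pos ht0, ← dist_eq_norm]
    nlinarith
  · intro G hG
    obtain ⟨g1, g2, g3, g4⟩ := hG
    have e1 : (z + t * (c - z)).re = z.re + t * (ℓ * (F.1 + 1 / 2) - z.re) := by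
      simp [hc]
    have e2 : (z + t * (c - z)).im = z.im + t * (ℓ * (F.2 + 1 / 2) - z.im) := by
      simp [hc]
    rw [e1] at g1 g2
    rw [e2] at g3 g4
    have key : ∀ (a b : ℤ) (x : ℝ), ℓ * a ≤ x → x ≤ ℓ * (a + 1) →
        ℓ * b ≤ x + t * (ℓ * (a + 1 / 2) - x) → x + t * (ℓ * (a + 1 / 2) - x) ≤ ℓ * (b + 1) →
        b = a := by
      intro a b x q1 q2 q3 q4
      have c1 : ℓ * (b : ℝ) < ℓ * (a + 1) := by nlinarith
      have c2 : ℓ * (a : ℝ) < ℓ * (b + 1) := by nlinarith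
      have d1 := lt_of_mul_lt_mul_left c1 hℓ.le
      have d2 := lt_of_mul_lt_mul_left c2 hℓ.le
      have e1 : b < a + 1 := by exact_mod_cast d1
      have e2 : a < b + 1 := by exact_mod_cast d2
      omega
    exact Prod.ext (key _ _ _ h1 h2 g1 g2) (key _ _ _ h3 h4 g3 g4)

/-- The interior of a union of squares does not meet the other squares. -/
theorem mem_of_interior (hℓ : 0 < ℓ) {A : Set (ℤ × ℤ)} (hz : z ∈ interior (reg ℓ A))
    (hF : z ∈ sqr ℓ F) : F ∈ A := by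
  obtain ⟨ε, hε, hb⟩ := Metric.isOpen_iff.1 isOpen_interior z hz
  obtain ⟨w, hw, hG⟩ := exists_only hℓ hF hε
  obtain ⟨G, hGA, hwG⟩ := interior_subset (hb hw)
  rwa [← hG G hwG]

theorem mem_interior_iff (hℓ : 0 < ℓ) {A : Set (ℤ × ℤ)} :
    z ∈ interior (reg ℓ A) ↔ ∀ F, z ∈ sqr ℓ F → F ∈ A :=
  ⟨fun h _ hF => mem_of_interior hℓ h hF, mem_interior_reg hℓ⟩

/-! ### Adjacency -/

theorem near_self (hℓ : 0 < ℓ) (hz : z ∈ sqr ℓ F) (hw : z ∈ sqr ℓ F') :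
    |F.1 - F'.1| ≤ 1 ∧ |F.2 - F'.2| ≤ 1 :=
  near_face hℓ hz hw (by rw [dist_self]; linarith)

theorem mem_mix (hz : z ∈ sqr ℓ F) (hw : z ∈ sqr ℓ F') : z ∈ sqr ℓ (F.1, F'.2) :=
  ⟨hz.1, hz.2.1, hw.2.2.1, hw.2.2.2⟩

theorem step_row {i i' j : ℤ} (h : |i - i'| ≤ 1) : (i, j) = (i', j) ∨ ∃ r, (i', j) = (i, j) + dir r := by
  rw [abs_le] at h
  have : i' = i ∨ i' = i + 1 ∨ i' = i - 1 := by omega
  rcases this with rfl | rfl | rfl
  · exact Or.inl rfl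
  · exact Or.inr ⟨0, by simp [dir]⟩
  · exact Or.inr ⟨2, by simp [dir]; ring⟩

theorem step_col {i j j' : ℤ} (h : |j - j'| ≤ 1) : (i, j) = (i, j') ∨ ∃ r, (i, j') = (i, j) + dir r := by
  rw [abs_le] at h
  have : j' = j ∨ j' = j + 1 ∨ j' = j - 1 := by omega
  rcases this with rfl | rfl | rfl
  · exact Or.inl rfl
  · exact Or.inr ⟨1, by simp [dir]⟩
  · exact Or.inr ⟨3, by simp [dir]; ring⟩

/-- The adjacency relation inside `A`. -/
abbrev Adj (A : Set (ℤ × ℤ)) (a b : ℤ × ℤ) : Prop := b ∈ A ∧ ∃ r, b = a + dir r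

/-- Two squares of `A` with a common point whose corner square is in `A` are connected. -/
theorem conn_mix (hℓ : 0 < ℓ) {A : Set (ℤ × ℤ)} (hF' : F' ∈ A) (hz : z ∈ sqr ℓ F)
    (hw : z ∈ sqr ℓ F') (hG : (F.1, F'.2) ∈ A) : Relation.ReflTransGen (Adj A) F F' := by
  obtain ⟨h1, h2⟩ := near_self hℓ hz hw
  have s1 : Relation.ReflTransGen (Adj A) F (F.1, F'.2) := by
    rcases step_col (i := F.1) h2 with h | ⟨r, h⟩
    · have : F = (F.1, F'.2) := h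
      rw [← this]
    · exact Relation.ReflTransGen.single ⟨hG, r, h⟩
  have s2 : Relation.ReflTransGen (Adj A) (F.1, F'.2) F' := by
    rcases step_row (j := F'.2) h1 with h | ⟨r, h⟩
    · have : (F.1, F'.2) = F' := h
      rw [this]
    · exact Relation.ReflTransGen.single ⟨hF', r, h⟩
  exact s1.trans s2

theorem conn_mix' (hℓ : 0 < ℓ) {A : Set (ℤ × ℤ)} (hF' : F' ∈ A) (hz : z ∈ sqr ℓ F)
    (hw : z ∈ sqr ℓ F') (hG : (F'.1, F.2) ∈ A) : Relation.ReflTransGen (Adj A) F F' := by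
  obtain ⟨h1, h2⟩ := near_self hℓ hz hw
  have s1 : Relation.ReflTransGen (Adj A) F (F'.1, F.2) := by
    rcases step_row (j := F.2) h1 with h | ⟨r, h⟩
    · have : F = (F'.1, F.2) := h
      rw [← this]
    · exact Relation.ReflTransGen.single ⟨hG, r, h⟩
  have s2 : Relation.ReflTransGen (Adj A) (F'.1, F.2) F' := by
    rcases step_col (i := F'.1) h2 with h | ⟨r, h⟩
    · have : (F'.1, F.2) = F' := h
      rw [this]
    · exact Relation.ReflTransGen.single ⟨hF', r, h⟩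
  exact s1.trans s2

/-- Of two diagonal faces one is in the same brick as its neighbour in the row. -/
theorem diag_brick (h1 : |F.1 - F'.1| ≤ 1) (h2 : |F.2 - F'.2| ≤ 1) (h3 : F.1 ≠ F'.1)
    (h4 : F.2 ≠ F'.2) : br F = br (F'.1, F.2) ∨ br F' = br (F.1, F'.2) := by
  obtain ⟨a, b⟩ := F
  obtain ⟨c, d⟩ := F'
  simp only [br, Prod.mk.injEq, and_true] at *
  rw [abs_le] at h1 h2
  omega

/-- Unions of bricks. -/
def Bricky (A : Set (ℤ × ℤ)) : Prop := ∀ F F', br F = br F' → (F ∈ A ↔ F' ∈ A)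

/-- The complement of a union of bricks is connected if its union can be joined to a connected
set. -/
theorem conn_compl (hℓ : 0 < ℓ) {A : Set (ℤ × ℤ)} (hA : Bricky A) {K : Set ℂ}
    (hK : IsPreconnected K) (hKA : K ⊆ reg ℓ Aᶜ)
    (hC : ∀ F ∉ A, ∃ C : Set ℂ, IsPreconnected C ∧ C ⊆ reg ℓ Aᶜ ∧ (C ∩ sqr ℓ F).Nonempty ∧
      (C ∩ K).Nonempty) : Conn Aᶜ := by
  intro F hF F' hF'
  by_contra hcon
  set T1 : Set (ℤ × ℤ) := {G | Relation.ReflTransGen (Adj Aᶜ) F G} with hT1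
  set T2 : Set (ℤ × ℤ) := Aᶜ \ T1 with hT2
  have hT1A : T1 ⊆ Aᶜ := by
    intro G hG
    rcases Relation.ReflTransGen.cases_tail hG with h | ⟨d, -, h⟩
    · rw [← h] at hF; exact hF
    · exact h.1
  have hcl1 := isClosed_reg hℓ T1
  have hcl2 := isClosed_reg hℓ T2
  have hcov : reg ℓ Aᶜ ⊆ reg ℓ T1 ∪ reg ℓ T2 := by
    rintro z ⟨G, hG, hz⟩
    by_cases h : G ∈ T1
    · exact Or.inl ⟨G, h, hz⟩
    · exact Or.inr ⟨G, ⟨hG, h⟩, hz⟩
  have hdis : ∀ z, z ∈ reg ℓ T1 → z ∉ reg ℓ T2 := by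
    rintro z ⟨G, hG, hz⟩ ⟨G', ⟨hG', hGT⟩, hz'⟩
    have hGA := hT1A hG
    have n1 : (G.1, G'.2) ∈ A := by
      by_contra h
      exact hGT (Relation.ReflTransGen.trans hG (conn_mix hℓ hG' hz hz' h))
    have n2 : (G'.1, G.2) ∈ A := by
      by_contra h
      exact hGT (Relation.ReflTransGen.trans hG (conn_mix' hℓ hG' hz hz' h))
    obtain ⟨d1, d2⟩ := near_self hℓ hz hz'
    by_cases h3 : G.1 = G'.1
    · apply hGA
      rw [← h3] at n2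
      exact n2
    · by_cases h4 : G.2 = G'.2
      · apply hGA
        rw [← h4] at n1
        exact n1
      · rcases diag_brick d1 d2 h3 h4 with h | h
        · exact hGA ((hA _ _ h).2 n2)
        · exact hG' ((hA _ _ h).2 n1)
  have hsep : ∀ C : Set ℂ, IsPreconnected C → C ⊆ reg ℓ Aᶜ → (C ∩ reg ℓ T1).Nonempty →
      ¬ (C ∩ reg ℓ T2).Nonempty := by
    intro C hCc hCs h1 h2
    obtain ⟨z, -, hz1, hz2⟩ := isPreconnected_closed_iff.1 hCc _ _ hcl1 hcl2 (hCs.trans hcov) h1 h2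
    exact hdis z hz1 hz2
  obtain ⟨C, hCc, hCs, ⟨x, hxC, hxF⟩, ⟨y, hyC, hyK⟩⟩ := hC F hF
  obtain ⟨C', hCc', hCs', ⟨x', hxC', hxF'⟩, ⟨y', hyC', hyK'⟩⟩ := hC F' hF'
  have hx : x ∈ reg ℓ T1 := ⟨F, Relation.ReflTransGen.refl, hxF⟩
  have hx' : x' ∈ reg ℓ T2 := ⟨F', ⟨hF', hcon⟩, hxF'⟩
  have hy : y ∈ reg ℓ T1 := by
    rcases hcov (hCs hyC) with h | h
    · exact h
    · exact absurd ⟨y, hyC, h⟩ (hsep C hCc hCs ⟨x, hxC, hx⟩)
  have hy' : y' ∈ reg ℓ T2 := by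
    rcases hcov (hCs' hyC') with h | h
    · exact absurd ⟨x', hxC', hx'⟩ (hsep C' hCc' hCs' ⟨y', hyC', h⟩)
    · exact h
  exact hsep K hK hKA ⟨y, hyK, hy⟩ ⟨y', hyK', hy'⟩

end Vale.Agent.P167.H450
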