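import Vale.Agent.P167.H450.MkC1

/-!
# The mark for the domains of a Loewner chain

`mk_of`: the data `Mk` of the mark exist for all domains of the class.
-/

set_option autoImplicit false

namespace Vale.Agent.P167.H450.Out

open Set Metric Filter Topology
open Vale.Agent.P153.R2.R1 (Conf dinv JCurve mb cc)
open Vale.Agent.P153.R2.L1 (HH)
open Vale.Agent.P164 (loewnerDomain gf Zf)
open Vale.Agent.P167.H756 (Cls FD FD_mb FD_img HConf Drv cls_FD)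
open Vale.Agent.P167.SG Vale.Agent.P167.H450

/-- Small connected sets have small images in the disc. -/
def SmI (Rd cC η ε : ℝ) : Prop :=
  ∀ F : ℂ → ℂ, Cls Rd cC F → ∀ C ⊆ F '' ball (0 : ℂ) 1, IsPreconnected C →
    (∀ x ∈ C, ∀ y ∈ C, dist x y ≤ η) → ∀ w ∈ ball (0 : ℂ) 1, ∀ w' ∈ ball (0 : ℂ) 1,
      F w ∈ C → F w' ∈ C → dist w w' ≤ ε

/-- Balls in the domains. -/
def InI (Rd cC ρ η : ℝ) : Prop :=
  ∀ F : ℂ → ℂ, Cls Rd cC F → ∀ w ∈ closedBall (0 : ℂ) ρ, ball (F w) η ⊆ F '' ball 0 1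

/-- Harnack's inequality. -/
def Hnk (rf η cK : ℝ) : Prop :=
  ∀ (F : ℂ → ℂ) (D : Set ℂ), Conf F D →
    ∀ (C : Set ℂ) (z₀ : ℂ), IsPreconnected C → z₀ ∈ C → (∀ z ∈ C, ball z η ⊆ D) →
      (∀ z ∈ C, dist z z₀ ≤ 4 * rf) → ∀ z ∈ C, cK * (1 - ‖dinv F z₀‖) ≤ 1 - ‖dinv F z‖

/-- The constants of the mark for a given flat box. -/
structure MC2 (Rd cC X3 X6 x4 rf rd a₀ cθ sθ m t₁ κ₀ ηV ηh η₄ η₅ cK : ℝ) : Prop where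
  ht : t₁ = (1 + xre X6) / 2
  s4 : SmI Rd cC η₄ (sθ / 8)
  v0 : 0 < ηV
  v1 : ηV ≤ η₄ / 16
  v2 : ηV ≤ rd / 2
  v3 : ηV ≤ rf / 32
  i5 : InI Rd cC cθ η₅
  h0 : 0 < ηh
  h1 : ηh ≤ ηV
  h2 : ηh ≤ η₅ / 4
  h3 : ηh ≤ rf / 32
  hk : Hnk rf (ηh / 2) cK
  m0 : 0 < m
  m1 : m ≤ a₀ / 128
  m2 : m ≤ (1 - t₁) / 2
  m3 : 4 * m ≤ cK * (1 - cθ)
  m4 : m ≤ 1 / 8
  m5 : m ≤ (cθ - x4) / 4
  k0 : 0 < κ₀
  k1 : κ₀ ≤ m
  k2 : κ₀ ≤ a₀ / 512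
  k3 : κ₀ ≤ (1 - xre X3) / 4
  k4 : κ₀ ≤ 1 / 16

theorem exists_mc2 {Rd cC X3 X6 x4 rf rd a₀ cθ sθ : ℝ} (hRd : 0 < Rd) (hcC : 0 < cC)
    (hrf : 0 < rf) (hrd : 0 < rd) (ha₀ : 0 < a₀) (hc1 : cθ < 1) (hx4 : x4 < cθ)
    (hs : 0 < sθ) : ∃ m t₁ κ₀ ηV ηh η₄ η₅ cK : ℝ,
      MC2 Rd cC X3 X6 x4 rf rd a₀ cθ sθ m t₁ κ₀ ηV ηh η₄ η₅ cK := by
  have hx61 : xre X6 < 1 := xre_lt X6
  obtain ⟨t₁, ht₁⟩ : ∃ t : ℝ, t = (1 + xre X6) / 2 := ⟨_, rfl⟩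
  obtain ⟨η₄, hη₄, hs4⟩ := Cls.small_img (R := Rd) (c := cC) hRd hcC
    (show (0 : ℝ) < sθ / 8 by positivity)
  obtain ⟨ηV, hηV0, hηV1, hηV2, hηV3⟩ : ∃ e : ℝ, 0 < e ∧ e ≤ η₄ / 16 ∧ e ≤ rd / 2 ∧ e ≤ rf / 32 :=
    ⟨min (η₄ / 16) (min (rd / 2) (rf / 32)), by positivity, min_le_left _ _,
      (min_le_right _ _).trans (min_le_left _ _), (min_le_right _ _).trans (min_le_right _ _)⟩
  obtain ⟨η₅, hη₅, hin5⟩ := Cls.inside (R := Rd) (c := cC) hRd hcC (ρ := cθ) hc1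
  obtain ⟨ηh, hηh0, hηh1, hηh2, hηh3⟩ : ∃ e : ℝ, 0 < e ∧ e ≤ ηV ∧ e ≤ η₅ / 4 ∧ e ≤ rf / 32 :=
    ⟨min ηV (min (η₅ / 4) (rf / 32)), by positivity, min_le_left _ _,
      (min_le_right _ _).trans (min_le_left _ _), (min_le_right _ _).trans (min_le_right _ _)⟩
  obtain ⟨cK, hcK, hcore⟩ := core (Rd := 4 * rf) (η := ηh / 2) (by positivity)
  have h1t : 0 < 1 - t₁ := by rw [ht₁]; linarith
  have hcx : 0 < cθ - x4 := by linarith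
  have h1c : 0 < 1 - cθ := by linarith
  obtain ⟨m, hm0, hm1, hm2, hm3, hm4, hm5⟩ : ∃ m : ℝ, 0 < m ∧ m ≤ a₀ / 128 ∧ m ≤ (1 - t₁) / 2 ∧
      m ≤ cK * (1 - cθ) / 4 ∧ m ≤ 1 / 8 ∧ m ≤ (cθ - x4) / 4 :=
    ⟨min (min (a₀ / 128) ((1 - t₁) / 2)) (min (cK * (1 - cθ) / 4) (min (1 / 8) ((cθ - x4) / 4))),
      by positivity, (min_le_left _ _).trans (min_le_left _ _),
      (min_le_left _ _).trans (min_le_right _ _), (min_le_right _ _).trans (min_le_left _ _),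
      (min_le_right _ _).trans ((min_le_right _ _).trans (min_le_left _ _)),
      (min_le_right _ _).trans ((min_le_right _ _).trans (min_le_right _ _))⟩
  have h13 : 0 < 1 - xre X3 := by have := xre_lt X3; linarith
  obtain ⟨κ₀, hκ0, hκ1, hκ2, hκ3, hκ4⟩ : ∃ k : ℝ, 0 < k ∧ k ≤ m ∧ k ≤ a₀ / 512 ∧
      k ≤ (1 - xre X3) / 4 ∧ k ≤ 1 / 16 :=
    ⟨min (min m (a₀ / 512)) (min ((1 - xre X3) / 4) (1 / 16)), by positivity,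
      (min_le_left _ _).trans (min_le_left _ _), (min_le_left _ _).trans (min_le_right _ _),
      (min_le_right _ _).trans (min_le_left _ _), (min_le_right _ _).trans (min_le_right _ _)⟩
  exact ⟨m, t₁, κ₀, ηV, ηh, η₄, η₅, cK, ht₁, hs4, hηV0, hηV1, hηV2, hηV3, hin5, hηh0, hηh1, hηh2,
    hηh3, hcore, hm0, hm1, hm2, by linarith, hm4, hm5, hκ0, hκ1, hκ2, hκ3, hκ4⟩

section

variable {T R Rd cd cC Y X1 X3 X4 X6 rf rc rd h₁ b₁ a₀ b₀ cθ sθ X5 x5 : ℝ}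
  {m t₁ κ₀ ηV ηh η₄ η₅ cK : ℝ}

/-- The data of a domain. -/
structure DomD {ι : Type} (T R Rd cd cC Y X1 X3 X4 X5 X6 rf rc rd : ℝ) (ψ : ℂ → ℂ) (W : ℝ → ℝ)
    (t σ xb cg δ r₀ ℓ ε e ν xc ε' : ℝ) (Gt : Set ℂ) (x₁ : ℂ) (κ : ι → Set ℂ) : Prop where
  hc : HConf Rd cd Y ψ
  drv : Drv T R W t
  flt : Flt ψ xb rf cg X1 X3 δ Gt x₁
  cls : Cls Rd cC (FD ψ W t)
  n4 : ∀ z ∈ HH, X4 ≤ ‖z‖ → ψ z ∈ Bf xb (rc / 2)
  i5 : ∀ z ∈ HH, ψ z ∈ Bf xb rd → X5 ≤ ‖z‖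
  n6 : ∀ z ∈ HH, X6 ≤ ‖z‖ → ψ z ∈ Bf xb (rd / 2)
  sit : Sit (FD ψ W t) σ ε ε' xc e ν (2 * r₀) ℓ κ
  nc : ∀ u ∈ Ug (FD ψ W t) σ ε ε' xc κ, ∀ y ∈ ψ '' loewnerDomain W t, dist u y ≤ 12 * ℓ →
    (Nr2 σ ν (dinv (FD ψ W t) y) → xre X3 < (dinv (FD ψ W t) y).re) →
    Jd (ψ '' loewnerDomain W t) r₀ u y
  fl : ∀ z ∈ Bf xb rc, (z ∈ Pm ℓ (Ug (FD ψ W t) σ ε ε' xc κ) ↔ 0 < z.im)

namespace DomD

variable {ι : Type} {ψ : ℂ → ℂ} {W : ℝ → ℝ} {t σ xb cg δ r₀ ℓ ε e ν xc ε' : ℝ} {Gt : Set ℂ}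
  {x₁ : ℂ} {κ : ι → Set ℂ}
  (H : DomD T R Rd cd cC Y X1 X3 X4 X5 X6 rf rc rd ψ W t σ xb cg δ r₀ ℓ ε e ν xc ε' Gt x₁ κ)
include H

theorem img : FD ψ W t '' ball 0 1 = ψ '' loewnerDomain W t := FD_img H.drv ψ

theorem dinv_ψ {z : ℂ} (hz : z ∈ loewnerDomain W t) : dinv (FD ψ W t) (ψ z) = pos W t z :=
  dinv_FD H.drv H.hc.diff H.hc.inj hz

/-- Positions with large real part. -/
theorem re_large (h4R : 4 * R ≤ X1) (h16 : 16 * T ≤ X1 ^ 2) {X ρ : ℝ} (hX : X1 ≤ X)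
    (hX1 : 1 ≤ X) (hnear : ∀ z ∈ HH, X ≤ ‖z‖ → ψ z ∈ Bf xb ρ) {w : ℂ} (hw : w ∈ ball (0 : ℂ) 1)
    (hwre : xre X < w.re) : FD ψ W t w ∈ Bf xb ρ := by
  have hFw : FD ψ W t w ∈ ψ '' loewnerDomain W t := by rw [← H.img]; exact ⟨w, hw, rfl⟩
  obtain ⟨z, hz, hze⟩ := hFw
  have h1 : dinv (FD ψ W t) (ψ z) = w := by rw [hze]; exact H.cls.conf.dinv_apply hw
  rw [H.dinv_ψ hz] at h1
  have h2 := far_of_re H.drv (X3 := X) H.flt.hX1 h4R h16 hX hX1 hz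
    (by rw [h1]; exact hwre)
  rw [← hze]
  exact hnear z (Vale.Agent.P164.im_pos_of_dom H.drv.nn hz) h2.le

/-- Positions of points near the target. -/
theorem re_inv (h4R : 4 * R ≤ X1) (h16 : 16 * T ≤ X1 ^ 2) {X : ℝ} (hX : X1 ≤ X) (hX2 : 2 ≤ X)
    {z : ℂ} (hz : z ∈ FD ψ W t '' ball 0 1) (hv : ∀ v ∈ HH, ψ v = z → X ≤ ‖v‖) :
    (X / 2 - 1) / (X / 2 + 1) ≤ (dinv (FD ψ W t) z).re := by
  rw [H.img] at hz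
  obtain ⟨v, hv1, rfl⟩ := hz
  rw [H.dinv_ψ hv1]
  have hvH := Vale.Agent.P164.im_pos_of_dom H.drv.nn hv1
  exact re_of_far H.drv H.flt.hX1 h4R h16 hX (by linarith) hvH (hv v hvH rfl)

/-- The crosscut. -/
theorem exists_cut (C1 : MC1 Rd X3 X4 h₁ b₁ a₀ b₀ cθ sθ X5 x5) (hRd : 0 < Rd) (hh₁ : 0 < h₁) :
    ∃ s ∈ Ioo a₀ b₀, ∀ w ∈ Hc σ s, ∀ w' ∈ Hc σ s, dist (FD ψ W t w) (FD ψ W t w') ≤ h₁ := by
  have hCls := H.cls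
  have hconf := hCls.conf
  have hvol : MeasureTheory.volume (FD ψ W t '' ball 0 1) ≤
      ENNReal.ofReal (Real.pi * (Rd + 1) ^ 2) := by
    have h1 : FD ψ W t '' ball 0 1 ⊆ ball (FD ψ W t 0) (Rd + 1) := by
      rintro _ ⟨w, hw, rfl⟩
      rw [mem_ball, dist_eq_norm]
      linarith [hCls.bdd w hw]
    refine (MeasureTheory.measure_mono h1).trans ?_
    rw [Complex.volume_ball]
    rw [ENNReal.ofReal_mul Real.pi_pos.le, mul_comm, ENNReal.ofReal_pow (by linarith)]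
    gcongr
    rw [← NNReal.coe_real_pi, ENNReal.ofReal_coe_nnreal]
  obtain ⟨s, hs, hcut⟩ := hconf.exists_crosscut (A := Real.pi * (Rd + 1) ^ 2) (by positivity) hvol
    (ζ := -1) (by simp) C1.ha C1.hab C1.hlog
  refine ⟨s, hs, fun w hw w' hw' => ?_⟩
  have h0 : 0 < s := C1.ha.trans hs.1
  have h1 := hcut w (hc_mem H.sit.hσ h0 hw).2.2.2 w' (hc_mem H.sit.hσ h0 hw').2.2.2
  rw [dist_eq_norm]
  exact (abs_le_of_sq_le_sq' h1 hh₁.le).2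

/-- The ball around the top of the crosscut. -/
theorem ball_top {η₃ η₆ η₇ s : ℝ} (hs : s ∈ Ioo a₀ 1) (h3 : InI Rd cC (1 - a₀ / 2) η₃)
    (h6 : SmI Rd cC η₆ (a₀ / 4)) (hη₇0 : 0 < η₇) (hη₇3 : η₇ ≤ η₃) (hη₇6 : η₇ ≤ η₆ / 2)
    (hem : e ≤ m) (hεm : ε ≤ m) (hm0 : 0 < m) (hm1 : m ≤ a₀ / 128) :
    ball (FD ψ W t ((-1 + s : ℝ) : ℂ)) η₇ ⊆ Ug (FD ψ W t) σ ε ε' xc κ := by
  obtain ⟨hsa, hs1⟩ := hs
  have hCls := H.cls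
  have hconf := hCls.conf
  have htopn : ‖(((-1 + s : ℝ)) : ℂ)‖ = 1 - s := by
    rw [Complex.norm_real, Real.norm_eq_abs, abs_of_neg (by linarith)]
    ring
  have htopb : (((-1 + s : ℝ)) : ℂ) ∈ ball (0 : ℂ) 1 := by
    rw [mem_ball_zero_iff, htopn]; linarith
  have hball : ball (FD ψ W t ((-1 + s : ℝ) : ℂ)) η₇ ⊆ FD ψ W t '' ball 0 1 :=
    (ball_subset_ball hη₇3).trans (h3 _ hCls _ (by
      rw [mem_closedBall_zero_iff, htopn]; linarith))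
  refine ball_U H.sit hem hεm hm0 (by linarith) hball fun w hw => ?_
  have h1 := h6 _ hCls (ball (FD ψ W t ((-1 + s : ℝ) : ℂ)) η₇) hball
    (convex_ball _ _).isPreconnected (by
      intro x hx y hy
      have h2 := mem_ball.1 hx
      have h3 := mem_ball.1 hy
      have h4 := dist_triangle_right x y (FD ψ W t ((-1 + s : ℝ) : ℂ))
      linarith) (dinv (FD ψ W t) w) (hconf.dinv_mem (hball hw)) ((-1 + s : ℝ) : ℂ) htopb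
    (by rw [hconf.apply_dinv (hball hw)]; exact hw) (mem_ball_self hη₇0)
  have h2 : ‖dinv (FD ψ W t) w‖ ≤ dist (dinv (FD ψ W t) w) ((-1 + s : ℝ) : ℂ) +
      ‖(((-1 + s : ℝ)) : ℂ)‖ := by
    rw [dist_eq_norm]
    calc ‖dinv (FD ψ W t) w‖ = ‖(dinv (FD ψ W t) w - ((-1 + s : ℝ) : ℂ)) + ((-1 + s : ℝ) : ℂ)‖ := by
          congr 1; ring
      _ ≤ _ := norm_add_le _ _
  rw [htopn] at h2
  linarith

/-- The height of `F q`. -/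
theorem height_q (C1 : MC1 Rd X3 X4 h₁ b₁ a₀ b₀ cθ sθ X5 x5)
    (C2 : MC2 Rd cC X3 X6 (xre X4) rf rd a₀ cθ sθ m t₁ κ₀ ηV ηh η₄ η₅ cK)
    (h4R : 4 * R ≤ X1) (h16 : 16 * T ≤ X1 ^ 2) (hX4 : X1 ≤ X4) (hX41 : 1 ≤ X4)
    (hrc : 2 * rc ≤ rf) (hδ : 8 * δ ≤ ηh) {q : ℂ}
    (hqb : q ∈ ball (0 : ℂ) 1) (hqn : 1 - ‖q‖ = 2 * m) (hqB : FD ψ W t q ∈ Bf xb (rc / 2)) :
    (FD ψ W t q).im < ηV := by
  have hcb : (cθ : ℂ) ∈ ball (0 : ℂ) 1 := by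
    rw [mem_ball_zero_iff, Complex.norm_real, Real.norm_of_nonneg C1.hc0.le]; exact C1.hc1
  have hcB : FD ψ W t (cθ : ℂ) ∈ Bf xb (rc / 2) :=
    H.re_large h4R h16 hX4 hX41 H.n4 hcb (by rw [Complex.ofReal_re]; exact C1.hc4)
  refine height H.cls.conf C1.hc0 C1.hc1 C2.h0 C2.h1 C2.h2 C2.h3 hrc hδ C2.hk hcB
    (C2.i5 _ H.cls _ (by
      rw [mem_closedBall_zero_iff, Complex.norm_real, Real.norm_of_nonneg C1.hc0.le])) hqb hqB ?_ ?_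
    ?_
  · intro w hw hwB
    rw [H.img] at hw
    exact H.flt.low' H.drv h4R h16 hw hwB
  · intro w hw hwi
    rw [H.img]
    exact H.flt.dom_of H.drv h4R h16 (H.flt.up w hw hwi) hw
  · have := C2.m3
    have := C2.m0
    rw [hqn]
    linarith

/-- The set at the other side. -/
theorem x_pos (C1 : MC1 Rd X3 X4 h₁ b₁ a₀ b₀ cθ sθ X5 x5)
    (C2 : MC2 Rd cC X3 X6 (xre X4) rf rd a₀ cθ sθ m t₁ κ₀ ηV ηh η₄ η₅ cK)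
    (h4R : 4 * R ≤ X1) (h16 : 16 * T ≤ X1 ^ 2) (hrc : 2 * rc ≤ rf)
    (hδ : 8 * δ ≤ ηh) (hνκ : ν ≤ κ₀) {q : ℂ} (hqb : q ∈ ball (0 : ℂ) 1)
    (hqB : FD ψ W t q ∈ Bf xb (rc / 2)) (hqi : σ * q.im ≤ -(3 / 4 * sθ)) (hp : 0 < (FD ψ W t q).im)
    (hh : (FD ψ W t q).im < ηV) {z : ℂ} (hz : z ∈ segment ℝ (FD ψ W t q) ((FD ψ W t q).re : ℂ))
    (hzD : z ∈ FD ψ W t '' ball 0 1) : σ * (dinv (FD ψ W t) z).im < -(2 * ν) := by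
  obtain ⟨F, hF⟩ : ∃ F, F = FD ψ W t := ⟨_, rfl⟩
  have hFqs : dist (FD ψ W t q) ((FD ψ W t q).re : ℂ) = (FD ψ W t q).im := by
    rw [dist_eq_norm]
    have : FD ψ W t q - ((FD ψ W t q).re : ℂ) = (((FD ψ W t q).im : ℝ) : ℂ) * Complex.I := by
      apply Complex.ext <;> simp
    rw [this, norm_mul, Complex.norm_I, mul_one, Complex.norm_real, Real.norm_of_nonneg hp.le]
  have h1 : dist (FD ψ W t q) z ≤ ηV := by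
    have := dist_segment (left_mem_segment ℝ (FD ψ W t q) ((FD ψ W t q).re : ℂ)) hz
    rw [hFqs] at this
    linarith
  have hFqD : FD ψ W t q ∈ ψ '' loewnerDomain W t := by rw [← H.img]; exact ⟨q, hqb, rfl⟩
  have v3 := C2.v3
  have h3 := C2.h1
  obtain ⟨C, j1, j2, j3, j4, j5⟩ := H.flt.join H.drv h4R h16 hFqD (by rw [← H.img]; exact hzD)
    (bf_mono (by linarith) hqB) C2.v0 h1 (by linarith)
  have h2 := C2.s4 _ H.cls C (by rw [H.img]; exact j2) j1 (by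
    intro x hx y hy
    have h3 := mem_ball.1 (j3 hx)
    have h4 := mem_ball.1 (j3 hy)
    have h5 := dist_triangle_right x y (FD ψ W t q)
    have h6 := C2.v1
    linarith) q hqb (dinv (FD ψ W t) z) (H.cls.conf.dinv_mem hzD) j4
    (by rw [H.cls.conf.apply_dinv hzD]; exact j5)
  have h3 := H.sit.im_dist (w := dinv (FD ψ W t) z) (w' := q)
  rw [dist_comm] at h3
  have k2 := C2.k2
  have hb3 := C1.hb3
  have hab := C1.hab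
  have ha := C1.ha
  linarith

/-- Positions of the points near the target. -/
theorem k_pos (C1 : MC1 Rd X3 X4 h₁ b₁ a₀ b₀ cθ sθ X5 x5) {z : ℂ}
    (hzD : z ∈ FD ψ W t '' ball 0 1) (h1 : x5 ≤ (dinv (FD ψ W t) z).re) :
    dinv (FD ψ W t) z ∉ Ωx σ (a₀ / 2) (a₀ / 8) := by
  have hσ2 : σ ^ 2 = 1 := by rw [← sq_abs, H.sit.hσ]; norm_num
  have h2 : ‖dinv (FD ψ W t) z‖ < 1 := mem_ball_zero_iff.1 (H.cls.conf.dinv_mem hzD)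
  have c0 := C1.hc0
  have c5 := C1.hx5b
  have ha := C1.ha
  have hab := C1.hab
  have hb2 := C1.hb2
  have hx5a := C1.hx5a
  have hx51 : x5 < 1 := by
    have h3 := Complex.re_le_norm (dinv (FD ψ W t) z)
    linarith
  rintro (h | h)
  · have h3 := Complex.abs_re_le_norm (dinv (FD ψ W t) z + 1)
    rw [Complex.add_re, Complex.one_re, abs_of_nonneg (by linarith)] at h3
    linarith
  · have h3 : (dinv (FD ψ W t) z).re ^ 2 + (dinv (FD ψ W t) z).im ^ 2 < 1 := by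
      have : ‖dinv (FD ψ W t) z‖ ^ 2 =
          (dinv (FD ψ W t) z).re ^ 2 + (dinv (FD ψ W t) z).im ^ 2 := by
        rw [← Complex.normSq_eq_norm_sq, Complex.normSq_apply]; ring
      rw [← this]
      nlinarith [norm_nonneg (dinv (FD ψ W t) z)]
    have h4 : (σ * (dinv (FD ψ W t) z).im) ^ 2 = (dinv (FD ψ W t) z).im ^ 2 := by
      rw [mul_pow, hσ2, one_mul]
    have h5 : x5 ^ 2 ≤ (dinv (FD ψ W t) z).re ^ 2 := pow_le_pow_left₀ (by linarith) h1 2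
    have h6 : (a₀ / 8) ^ 2 < (σ * (dinv (FD ψ W t) z).im) ^ 2 := by
      have h7 : 0 < a₀ / 8 := by linarith
      nlinarith
    nlinarith

omit H in
/-- The point `q`. -/
theorem q_facts (C1 : MC1 Rd X3 X4 h₁ b₁ a₀ b₀ cθ sθ X5 x5)
    (C2 : MC2 Rd cC X3 X6 (xre X4) rf rd a₀ cθ sθ m t₁ κ₀ ηV ηh η₄ η₅ cK) (hX4 : 1 ≤ X4)
    (hσ : |σ| = 1) {q : ℂ} (hq : q = ⟨(1 - 2 * m) * cθ, σ * -((1 - 2 * m) * sθ)⟩) :
    ‖q‖ = 1 - 2 * m ∧ σ * q.im ≤ -(3 / 4 * sθ) ∧ xre X4 < q.re ∧ q.re ≤ cθ := by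
  have c4 := C1.hc0
  have c5 := C1.hc1
  have d1 := C2.m0
  have d4 := C2.m4
  have d5 := C2.m5
  have hx40 : 0 ≤ xre X4 := xre_nonneg hX4
  have hqn : ‖q‖ = 1 - 2 * m := by rw [hq]; exact norm_q C1.hsθ2 hσ (by linarith)
  have hσ2 : σ ^ 2 = 1 := by rw [← sq_abs, hσ]; norm_num
  have hqi : σ * q.im = -((1 - 2 * m) * sθ) := by
    rw [hq]
    simp only
    linear_combination (-((1 - 2 * m) * sθ)) * hσ2
  have hsθ := C1.hsθ0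
  have hqr : q.re = (1 - 2 * m) * cθ := by rw [hq]
  have k1 : m * sθ ≤ 1 / 8 * sθ := mul_le_mul_of_nonneg_right d4 hsθ.le
  have k2 : m * cθ ≤ m := mul_le_of_le_one_right d1.le c5.le
  have k3 : 0 ≤ m * cθ := by positivity
  refine ⟨hqn, ?_, ?_, ?_⟩
  · rw [hqi]
    have : (1 - 2 * m) * sθ = sθ - 2 * (m * sθ) := by ring
    linarith
  · rw [hqr]
    have : (1 - 2 * m) * cθ = cθ - 2 * (m * cθ) := by ring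
    linarith
  · rw [hqr]
    have : (1 - 2 * m) * cθ = cθ - 2 * (m * cθ) := by ring
    linarith

/-- Positions in the core. -/
theorem mem_U (hem : e ≤ m) (hεm : ε ≤ m) (hm : 0 < m) (hm1 : m < 1) {w : ℂ} (hw : ‖w‖ < 1 - m) :
    FD ψ W t w ∈ Ug (FD ψ W t) σ ε ε' xc κ :=
  ⟨w, core_mem H.sit.obs hem hεm hm hm1 hw, rfl⟩

/-- The height of points of `U` in the box. -/
theorem low {z : ℂ} (hz : z ∈ Ug (FD ψ W t) σ ε ε' xc κ) (hzb : z ∈ Bf xb rc) : 0 < z.im :=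
  (H.fl z hzb).1 (sub_Pm H.sit.od.hℓ hz)

/-- The point `F t₁`. -/
theorem t_facts (C2 : MC2 Rd cC X3 X6 (xre X4) rf rd a₀ cθ sθ m t₁ κ₀ ηV ηh η₄ η₅ cK)
    (h4R : 4 * R ≤ X1) (h16 : 16 * T ≤ X1 ^ 2) (hX1 : 2 ≤ X1)
    (hX6 : X1 ≤ X6) (hrc0 : 0 < rc) (hrd : rd ≤ rc) (hem : e ≤ m) (hεm : ε ≤ m) :
    FD ψ W t (t₁ : ℂ) ∈ Bf xb (rd / 2) ∧ 0 < (FD ψ W t (t₁ : ℂ)).im ∧ 0 < t₁ ∧ t₁ < 1 - m := by
  have d1 := C2.m0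
  have d3 := C2.m2
  have d4 := C2.m4
  have ht := C2.ht
  have hx61 : xre X6 < 1 := xre_lt X6
  have hx60 : 0 ≤ xre X6 := xre_nonneg (by linarith)
  have ht0 : 0 < t₁ := by rw [ht]; linarith
  have ht1 : t₁ < 1 - m := by linarith
  have hn : ‖(t₁ : ℂ)‖ = t₁ := by rw [Complex.norm_real, Real.norm_of_nonneg ht0.le]
  have ht₁b : (t₁ : ℂ) ∈ ball (0 : ℂ) 1 := by rw [mem_ball_zero_iff, hn]; linarith
  have hFtB : FD ψ W t (t₁ : ℂ) ∈ Bf xb (rd / 2) :=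
    H.re_large h4R h16 hX6 (by linarith) H.n6 ht₁b (by
      rw [Complex.ofReal_re, ht]; linarith)
  have hFtU : FD ψ W t (t₁ : ℂ) ∈ Ug (FD ψ W t) σ ε ε' xc κ :=
    H.mem_U hem hεm d1 (by linarith) (by rw [hn]; exact ht1)
  exact ⟨hFtB, H.low hFtU (bf_mono (by linarith) hFtB), ht0, ht1⟩

/-- The top of the crosscut is not in the flat box. -/
theorem top_far (h4R : 4 * R ≤ X1) (h16 : 16 * T ≤ X1 ^ 2) (hX1 : 2 ≤ X1) {s : ℝ} (hs0 : 0 < s)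
    (hs1 : s < 1) (hrc : 2 * rc ≤ rf) (hh : 8 * h₁ ≤ rf) (hr : 64 * r₀ ≤ rf) (h40 : 40 * ℓ ≤ r₀)
    {x : ℂ} (hx : x ∈ Bf xb (rc / 2)) :
    h₁ + 2 * (2 * r₀) + 3 * ℓ < dist x (FD ψ W t ((-1 + s : ℝ) : ℂ)) := by
  have hℓ := H.sit.od.hℓ
  have htopn : ‖(((-1 + s : ℝ)) : ℂ)‖ = 1 - s := by
    rw [Complex.norm_real, Real.norm_eq_abs, abs_of_neg (by linarith)]
    ring
  have htopb : (((-1 + s : ℝ)) : ℂ) ∈ ball (0 : ℂ) 1 := by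
    rw [mem_ball_zero_iff, htopn]; linarith
  have h1 : FD ψ W t ((-1 + s : ℝ) : ℂ) ∉ Bf xb rf := by
    intro hcon
    have h2 : FD ψ W t ((-1 + s : ℝ) : ℂ) ∈ FD ψ W t '' ball 0 1 := ⟨_, htopb, rfl⟩
    have h3 := H.re_inv h4R h16 le_rfl hX1 h2 fun v hv hve =>
      H.flt.far v hv (by rw [hve]; exact hcon)
    rw [H.cls.conf.dinv_apply htopb, Complex.ofReal_re] at h3
    have h4 : 0 ≤ (X1 / 2 - 1) / (X1 / 2 + 1) := div_nonneg (by linarith) (by linarith)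
    linarith
  have h2 := bf_dist hx h1
  linarith

/-- The top of the crosscut is deep. -/
theorem top_deep {s η₇ : ℝ}
    (hU : ball (FD ψ W t ((-1 + s : ℝ) : ℂ)) η₇ ⊆ Ug (FD ψ W t) σ ε ε' xc κ)
    (hr : 64 * r₀ ≤ η₇) (h40 : 40 * ℓ ≤ r₀) {y : ℂ}
    (hy : y ∈ frontier (Pm ℓ (Ug (FD ψ W t) σ ε ε' xc κ))) :
    2 * r₀ + 16 * ℓ ≤ dist (FD ψ W t ((-1 + s : ℝ) : ℂ)) y := by
  have hℓ := H.sit.od.hℓ
  have h1 : y ∉ ball (FD ψ W t ((-1 + s : ℝ) : ℂ)) η₇ := fun h =>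
    (disjoint_frontier_iff_isOpen.2 isOpen_Pm).le_bot ⟨hy, sub_Pm H.sit.od.hℓ (hU h)⟩
  rw [mem_ball, dist_comm, not_lt] at h1
  linarith

/-- **The mark of a domain.** -/
theorem mk_dom (C1 : MC1 Rd X3 X4 h₁ b₁ a₀ b₀ cθ sθ X5 x5)
    (C2 : MC2 Rd cC X3 X6 (xre X4) rf rd a₀ cθ sθ m t₁ κ₀ ηV ηh η₄ η₅ cK)
    (hRd : 0 < Rd) (hh₁ : 0 < h₁) (h4R : 4 * R ≤ X1) (h16 : 16 * T ≤ X1 ^ 2) (hX1 : 2 ≤ X1)
    (hX3 : X1 ≤ X3) (hX4 : X3 ≤ X4) (hX6 : X3 ≤ X6) (hrc0 : 0 < rc) (hrc : 2 * rc ≤ rf)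
    (hrd : rd ≤ rc) (hh₁f : 8 * h₁ ≤ rf) {η₃ η₆ η₇ : ℝ}
    (h3 : InI Rd cC (1 - a₀ / 2) η₃) (h6 : SmI Rd cC η₆ (a₀ / 4)) (hη₇0 : 0 < η₇)
    (hη₇3 : η₇ ≤ η₃) (hη₇6 : η₇ ≤ η₆ / 2) (hε : ε ≤ κ₀) (he : e ≤ κ₀) (hν0 : 0 < ν) (hν : ν ≤ κ₀)
    (hr₀0 : 0 < r₀) (h40 : 40 * ℓ ≤ r₀) (hr1 : 64 * r₀ ≤ η₇) (hr2 : 64 * r₀ ≤ rf)
    (hδ : 8 * δ ≤ ηh) :
    ∃ s ∈ Ioo a₀ b₀, ∃ Xb Kb : Set ℂ, ∃ q s₂ : ℂ,
      q = ⟨(1 - 2 * m) * cθ, σ * -((1 - 2 * m) * sθ)⟩ ∧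
      s₂ = ((FD ψ W t q).re : ℂ) ∧ s₂ ∈ Bf xb (rc / 2) ∧
      Xb = segment ℝ (FD ψ W t q) s₂ ∧ FD ψ W t q ∈ FD ψ W t '' ball 0 1 ∧
      0 < (FD ψ W t q).im ∧ (FD ψ W t q).im ≤ rd / 2 ∧ rd ≤ |(FD ψ W t q).re - xb| ∧
      Mk (FD ψ W t) σ ε ε' xc e ν (2 * r₀) ℓ κ s (a₀ / 2) (a₀ / 8) m h₁ t₁
        (Bf xb (rc / 2)) Kb Xb (xb : ℂ) s₂ q := by
  have hσ := H.sit.hσ
  have c1 := C1.ha
  have c3 := C1.hb2
  have d1 := C2.m0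
  have d2 := C2.m1
  have d4 := C2.m4
  have e2 := C2.k2
  have e4 := C2.k4
  have hem : e ≤ m := he.trans C2.k1
  have hεm : ε ≤ m := hε.trans C2.k1
  obtain ⟨s, ⟨hsa, hsb⟩, hcut⟩ := H.exists_cut C1 hRd hh₁
  have hs1 : s < 1 := by linarith only [hsb, c3]
  have hs0 : 0 < s := c1.trans hsa
  have hballU := H.ball_top ⟨hsa, hs1⟩ h3 h6 hη₇0 hη₇3 hη₇6 hem hεm d1 d2
  obtain ⟨q, hq⟩ : ∃ q : ℂ, q = ⟨(1 - 2 * m) * cθ, σ * -((1 - 2 * m) * sθ)⟩ := ⟨_, rfl⟩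
  obtain ⟨hqn, hqi, hqre, hqre'⟩ := q_facts C1 C2 (by linarith only [hX1, hX3, hX4]) hσ hq
  have hqb : q ∈ ball (0 : ℂ) 1 := by rw [mem_ball_zero_iff, hqn]; linarith only [d1]
  have hFqU : FD ψ W t q ∈ Ug (FD ψ W t) σ ε ε' xc κ :=
    H.mem_U hem hεm d1 (by linarith only [d4]) (by rw [hqn]; linarith only [d1])
  have hFqB : FD ψ W t q ∈ Bf xb (rc / 2) :=
    H.re_large h4R h16 (by linarith only [hX3, hX4]) (by linarith only [hX1, hX3, hX4]) H.n4 hqb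
      hqre
  have hFqi : 0 < (FD ψ W t q).im := H.low hFqU (bf_mono (by linarith only [hrc0]) hFqB)
  have hheight := H.height_q C1 C2 h4R h16 (by linarith only [hX3, hX4])
    (by linarith only [hX1, hX3, hX4]) hrc hδ hqb (by rw [hqn]; ring) hFqB
  obtain ⟨hFtB, hFti, ht0, ht1⟩ := H.t_facts C2 h4R h16 hX1 (hX3.trans hX6) hrc0 hrd hem hεm
  have hnearb : ∀ z ∈ FD ψ W t '' ball 0 1, z ∈ Bf xb rd → x5 ≤ (dinv (FD ψ W t) z).re := by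
    intro z hz hzb
    rw [C1.hx5e]
    have h53 := C1.hX53
    exact H.re_inv h4R h16 (by linarith only [h53, hX3]) (by linarith only [h53, hX3, hX1]) hz
      fun v hv hve => H.i5 v hv (by rw [hve]; exact hzb)
  have hXb : ∀ z ∈ segment ℝ (FD ψ W t q) ((FD ψ W t q).re : ℂ), z ∈ Bf xb (rc / 2) := by
    intro z hz
    obtain ⟨h1, h2, h3, -⟩ := vseg hFqi hz
    refine ⟨by rw [h1]; exact hFqB.1, ?_⟩
    have h4 := hFqB.2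
    rw [abs_of_pos hFqi] at h4
    rw [abs_of_nonneg h2]
    exact lt_of_le_of_lt h3 h4
  have hv2 := C2.v2
  have hrd0 : 0 < rd := by
    have := C2.v0
    linarith only [this, hv2]
  have hx2 : rd ≤ |(FD ψ W t q).re - xb| := by
    by_contra hcon
    push Not at hcon
    have h2 : FD ψ W t q ∈ Bf xb rd := by
      refine ⟨hcon, ?_⟩
      rw [abs_of_pos hFqi]; linarith only [hv2, hheight, hrd0]
    have h3 := hnearb _ ⟨q, hqb, rfl⟩ h2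
    rw [H.cls.conf.dinv_apply hqb] at h3
    exact absurd (C1.hx5b.trans_le h3) (not_lt.2 hqre')
  have hdisj : Disjoint (segment ℝ (FD ψ W t (t₁ : ℂ)) (xb : ℂ))
      (segment ℝ (FD ψ W t q) ((FD ψ W t q).re : ℂ)) := by
    rw [Set.disjoint_left]
    intro z hz hz'
    obtain ⟨h1, -⟩ := kseg hFti hFtB hz
    obtain ⟨g1, g2, g3, -⟩ := vseg hFqi hz'
    rw [← g1] at hx2
    linarith only [hx2, h1.1, hrd0]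
  refine ⟨s, ⟨hsa, hsb⟩, segment ℝ (FD ψ W t q) ((FD ψ W t q).re : ℂ),
    segment ℝ (FD ψ W t (t₁ : ℂ)) (xb : ℂ), q, _, hq, rfl, hXb _ (right_mem_segment ℝ _ _), rfl,
    ⟨q, hqb, rfl⟩, hFqi, by linarith only [hv2, hheight], hx2, ?_⟩
  exact
    { sit := H.sit
      hem := hem
      hεm := hεm
      hms := by linarith only [d2, c1]
      hδs := by linarith only [c1]
      hδν := by linarith only [hν, e2, c1]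
      hss := by linarith only [hν, e2, c1, hsa]
      hs1 := hs1
      top := sub_Pm H.sit.od.hℓ (hballU (mem_ball_self hη₇0))
      deep := fun y hy => H.top_deep hballU hr1 h40 hy
      cut := hcut
      nc2 := by
        intro u hu z hz hd h1 h2
        have e3 := C2.k3
        rw [H.img]
        rw [H.img] at hz
        exact jd_mono (H.nc u hu z hz hd fun h => safe_nr2 hσ hν0.le (by linarith only [hν, e4])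
          (by linarith only [hν, e2, hsa, c1]) (by linarith only [hν, e3]) hν0 h1 h2 h)
          (by linarith only [hr₀0])
      far := fun x hx => H.top_far h4R h16 hX1 hs0 hs1 hrc hh₁f hr2 h40 hx
      t₁s := by linarith only [ht0, hs1, c3, hsb]
      t₁m := ht1
      cb := isCompact_seg _ _
      pb := (convex_segment _ _).isPreconnected
      Kb_sub := by
        intro z hz
        obtain ⟨h1, h2⟩ := kseg hFti hFtB hz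
        rcases h2 with h2 | h2
        · exact Or.inl h2
        · exact Or.inr ((H.fl z (bf_mono (by linarith only [hrd, hrc0]) h1)).2 h2)
      Kb_bx := fun z hz => bf_mono (by linarith only [hrd]) (kseg hFti hFtB hz).1
      b_mem := right_mem_segment ℝ _ _
      Kb_mem := left_mem_segment ℝ _ _
      cx := isCompact_seg _ _
      px := (convex_segment _ _).isPreconnected
      Xb_sub := by
        intro z hz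
        obtain ⟨h1, h2, h3, h4⟩ := vseg hFqi hz
        rcases h4 with h4 | h4
        · exact Or.inl h4
        · exact Or.inr ((H.fl z (bf_mono (by linarith only [hrc0]) (hXb z hz))).2 h4)
      Xb_bx := hXb
      s_mem := right_mem_segment ℝ _ _
      q_mem := left_mem_segment ℝ _ _
      qm := by rw [hqn]; linarith only [d1]
      qi := by linarith only [C1.hb3, hqi, C1.hab, c1]
      KX := hdisj
      Kpos := fun z hz hzD => H.k_pos C1 hzD (hnearb z hzD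
        (bf_mono (by
          have hv2 := C2.v2
          have := C2.v0
          linarith only [hv2, this]) (kseg hFti hFtB hz).1))
      Xpos := fun z hz hzD => H.x_pos C1 C2 h4R h16 hrc hδ hν hqb hFqB hqi hFqi hheight hz
        hzD }

end DomD

/-- **The mark for a class of domains.** -/
theorem mk_of (hRd : 0 < Rd) (hcd : 0 < cd) (hY0 : 0 < Y) (hY : 8 * R ≤ Y)
    (hY2 : 64 * T ≤ Y ^ 2) (h4R : 4 * R ≤ X1) (h16 : 16 * T ≤ X1 ^ 2) (hX1 : 2 ≤ X1)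
    (hX3 : X1 ≤ X3) (hrf : 0 < rf) (hrc0 : 0 < rc) (hrc : 2 * rc ≤ rf)
    (hX4 : X3 ≤ X4) (hh₁ : 0 < h₁) (hh₁f : 8 * h₁ ≤ rf) (hb₁ : 0 < b₁) :
    ∃ a₀ b₀ X5 : ℝ, 0 < a₀ ∧ a₀ < b₀ ∧ b₀ ≤ b₁ ∧ b₀ ≤ 1 / 2 ∧ ∀ rd : ℝ, 0 < rd → rd ≤ rc →
    ∀ X6 : ℝ, X3 ≤ X6 → ∃ m t₁ κ₀ r₁ : ℝ, 0 < m ∧ m ≤ a₀ / 128 ∧ 0 < κ₀ ∧ κ₀ ≤ m ∧
    κ₀ ≤ a₀ / 512 ∧ 0 < r₁ ∧
    ∀ {ε e ν : ℝ}, ε ≤ κ₀ → e ≤ κ₀ → 0 < ν → ν ≤ κ₀ → ∀ {ι : Type}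
      {ψ : ℂ → ℂ} {W : ℝ → ℝ} {t σ xb cg δ r₀ ℓ xc ε' : ℝ} {Gt : Set ℂ} {x₁ : ℂ} {κ : ι → Set ℂ},
      HConf Rd cd Y ψ → Drv T R W t → Flt ψ xb rf cg X1 X3 δ Gt x₁ →
      (∀ z ∈ HH, X4 ≤ ‖z‖ → ψ z ∈ Bf xb (rc / 2)) →
      (∀ z ∈ HH, ψ z ∈ Bf xb rd → X5 ≤ ‖z‖) →
      (∀ z ∈ HH, X6 ≤ ‖z‖ → ψ z ∈ Bf xb (rd / 2)) →
      Sit (FD ψ W t) σ ε ε' xc e ν (2 * r₀) ℓ κ →
      (∀ u ∈ Ug (FD ψ W t) σ ε ε' xc κ, ∀ y ∈ ψ '' loewnerDomain W t, dist u y ≤ 12 * ℓ →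
          (Nr2 σ ν (dinv (FD ψ W t) y) → xre X3 < (dinv (FD ψ W t) y).re) →
          Jd (ψ '' loewnerDomain W t) r₀ u y) →
      (∀ z ∈ Bf xb rc, (z ∈ Pm ℓ (Ug (FD ψ W t) σ ε ε' xc κ) ↔ 0 < z.im)) →
      0 < r₀ → r₀ ≤ r₁ → 40 * ℓ ≤ r₀ → δ ≤ r₁ →
      ∃ s ∈ Ioo a₀ b₀, ∃ Xb Kb : Set ℂ, ∃ q : ℂ, ∃ x₂ : ℝ,
        (x₂ : ℂ) ∈ Bf xb (rc / 2) ∧ x₂ = (FD ψ W t q).re ∧ rd ≤ |x₂ - xb| ∧
        Xb = segment ℝ (FD ψ W t q) (x₂ : ℂ) ∧ FD ψ W t q ∈ FD ψ W t '' ball 0 1 ∧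
        0 < (FD ψ W t q).im ∧ (FD ψ W t q).im ≤ rd / 2 ∧
        Mk (FD ψ W t) σ ε ε' xc e ν (2 * r₀) ℓ κ s (a₀ / 2) (a₀ / 8) m h₁ t₁
          (Bf xb (rc / 2)) Kb Xb (xb : ℂ) (x₂ : ℂ) q := by
  obtain ⟨cC, hcC, hcls⟩ := cls_FD (T := T) (R := R) hRd hcd hY0 hY hY2
  obtain ⟨a₀, b₀, cθ, sθ, X5, x5, C1⟩ := exists_mc1 (Rd := Rd) (X3 := X3) (X4 := X4) hRd
    (by linarith) hh₁ hb₁
  refine ⟨a₀, b₀, X5, C1.ha, C1.hab, C1.hb1, C1.hb2, fun rd hrd hrdc X6 hX6 => ?_⟩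
  obtain ⟨m, t₁, κ₀, ηV, ηh, η₄, η₅, cK, C2⟩ := exists_mc2 (cC := cC) (X3 := X3) (X6 := X6)
    (x4 := xre X4) hRd hcC hrf hrd C1.ha C1.hc1 C1.hc4 C1.hsθ0
  have ha := C1.ha
  obtain ⟨η₃, hη₃, hin3⟩ := Cls.inside (R := Rd) (c := cC) hRd hcC (ρ := 1 - a₀ / 2) (by linarith)
  obtain ⟨η₆, hη₆, hs6⟩ := Cls.small_img (R := Rd) (c := cC) hRd hcC
    (show (0 : ℝ) < a₀ / 4 by positivity)
  obtain ⟨η₇, hη₇0, hη₇3, hη₇6⟩ : ∃ e : ℝ, 0 < e ∧ e ≤ η₃ ∧ e ≤ η₆ / 2 :=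
    ⟨min η₃ (η₆ / 2), by positivity, min_le_left _ _, min_le_right _ _⟩
  have hh0 := C2.h0
  obtain ⟨r₁, hr₁0, hr₁1, hr₁2, hr₁3⟩ : ∃ r : ℝ, 0 < r ∧ r ≤ η₇ / 64 ∧ r ≤ rf / 64 ∧ r ≤ ηh / 8 :=
    ⟨min (η₇ / 64) (min (rf / 64) (ηh / 8)), by positivity, min_le_left _ _,
      (min_le_right _ _).trans (min_le_left _ _), (min_le_right _ _).trans (min_le_right _ _)⟩
  refine ⟨m, t₁, κ₀, r₁, C2.m0, C2.m1, C2.k0, C2.k1, C2.k2, hr₁0, ?_⟩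
  intro ε e ν hε he hν0 hν ι ψ W t σ xb cg δ r₀ ℓ xc ε' Gt x₁ κ hψ Hd HF hn4 hi5 hn6 H hNC hfl hr₀0
    hr₀ h40 hδr
  have D : DomD T R Rd cd cC Y X1 X3 X4 X5 X6 rf rc rd ψ W t σ xb cg δ r₀ ℓ ε e ν xc ε' Gt x₁ κ :=
    ⟨hψ, Hd, HF, hcls ψ hψ W t Hd, hn4, hi5, hn6, H, hNC, hfl⟩
  obtain ⟨s, hs, Xb, Kb, q, s₂, -, rfl, hsB, e1, e2, e3, e4, e5, hM⟩ := D.mk_dom C1 C2 hRd hh₁ h4R h16 hX1 hX3 hX4 hX6
    hrc0 hrc hrdc hh₁f hin3 hs6 hη₇0 hη₇3 hη₇6 hε he hν0 hν hr₀0 h40 (by linarith) (by linarith)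
    (by linarith)
  exact ⟨s, hs, Xb, Kb, q, _, hsB, rfl, e5, e1, e2, e3, e4, hM⟩

end

/-- **Bad positions**, with the constants of `mk_of`. -/
theorem badP_of {ι : Type*} [Finite ι] {F : ℂ → ℂ} {σ ε ε' xc e ν r ℓ : ℝ} {κ : ι → Set ℂ}
    (H : Sit F σ ε ε' xc e ν r ℓ κ) {a₀ b₁ m κ₀ τ x₁ : ℝ} (ha : 0 < a₀) (hab : a₀ ≤ b₁)
    (ha1 : a₀ ≤ 1 / 2) (hm : m ≤ a₀ / 128) (hm0 : 0 < m) (hκ : κ₀ ≤ a₀ / 512) (hε0 : 0 ≤ ε)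
    (hε : ε ≤ κ₀) (he : e ≤ κ₀) (hν : ν ≤ κ₀) (hx₁ : 0 ≤ x₁) (hx : x₁ ^ 2 < 1 - 2 * b₁)
    (hτ : τ ≤ a₀ / 8) {u v : ℂ} (hu : u ∈ Ug F σ ε ε' xc κ) (hv : v ∉ Ug F σ ε ε' xc κ)
    (huv : dist v u ≤ 3 * ℓ) (hre : (dinv F u).re ≤ x₁) (him : σ * (dinv F u).im ≤ τ) :
    BadP σ (a₀ / 2) (a₀ / 8) e m (dinv F u) := by
  have he0 := H.he
  have hν0 := H.hν
  refine H.bad_pos hu hv huv (m₂ := a₀ / 64) (τ₂ := a₀ / 8 + 4 * e + 2 * m) (x₁ := x₁)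
    (by linarith) hε0 (by linarith) (by linarith) le_rfl hx₁ hre ?_ (by linarith) (by linarith)
  have h1 : a₀ / 8 + 4 * e + 2 * m ≤ a₀ / 4 := by linarith
  have h2 : (a₀ / 8 + 4 * e + 2 * m) ^ 2 ≤ (a₀ / 4) ^ 2 := by
    apply pow_le_pow_left₀ (by linarith) h1
  nlinarith

/-- **The mark is not near the free points**, with the constants of `mk_of`. -/
theorem clear_of {ι : Type*} [Finite ι] {F : ℂ → ℂ} {σ ε ε' xc e ν r ℓ : ℝ} {κ : ι → Set ℂ}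
    {a₀ b₁ m κ₀ x₁ s h₁ t₁ : ℝ} {Bx Kb Xb K : Set ℂ} {b s₂ q e₁ : ℂ}
    (M : Mk F σ ε ε' xc e ν r ℓ κ s (a₀ / 2) (a₀ / 8) m h₁ t₁ Bx Kb Xb b s₂ q)
    (hK : IsMk (Pm ℓ (Ug F σ ε ε' xc κ)) (Ug F σ ε ε' xc κ) F σ ν s ℓ
      (h₁ + 2 * r + 3 * ℓ) (F ((-1 + s : ℝ) : ℂ)) e₁ K) (ha : 0 < a₀) (hab : a₀ ≤ b₁)
    (ha1 : a₀ ≤ 1 / 2) (hm : m ≤ a₀ / 128) (hm0 : 0 < m) (hκ : κ₀ ≤ a₀ / 512) (hε0 : 0 ≤ ε)
    (hε : ε ≤ κ₀) (he : e ≤ κ₀) (hν : ν ≤ κ₀) (hx₁ : 0 ≤ x₁) (hx : x₁ ^ 2 < 1 - 2 * b₁)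
    (hτ : ε' ≤ a₀ / 16)
    (hre : ∀ u ∈ Ug F σ ε ε' xc κ, dist u e₁ ≤ 3 * ℓ → (dinv F u).re ≤ x₁) {v : ℂ}
    (hv : v ∉ Pm ℓ (Ug F σ ε ε' xc κ)) (hvD : v ∈ F '' ball 0 1) (hvd : dinv F v ∈ Dd κ)
    (hj : ∀ u ∈ Ug F σ ε ε' xc κ, dist u v ≤ 12 * ℓ → Jd (F '' ball 0 1) r u v) :
    9 * ℓ < dist v e₁ := by
  have he0 := M.sit.he
  have hν0 := M.sit.hν
  refine M.clear hK (m₂ := a₀ / 64) (τ₂ := a₀ / 8 + 4 * e + 2 * m) (x₁ := x₁)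
    (by linarith) hε0 (by linarith) (by linarith) le_rfl (by linarith) hx₁ hre ?_ (by linarith)
    hv hvD hvd hj
  have h1 : a₀ / 8 + 4 * e + 2 * m ≤ a₀ / 4 := by linarith
  have h2 : (a₀ / 8 + 4 * e + 2 * m) ^ 2 ≤ (a₀ / 4) ^ 2 := by
    apply pow_le_pow_left₀ (by linarith) h1
  nlinarith

end Vale.Agent.P167.H450.Out
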