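import Vale.Agent.P167.H450.OutQ
import Vale.Agent.P167.H756.Flat
import Vale.Agent.P167.E6.Poly6

/-!
# Gates and flat sides of the outer polygon

* `OD.good_Pm`, `OD.good_Qt`: the outer polygon and the common inner polygon are good domains.
* `ofc_of_gate`: bricks joined to infinity off `U` are outside of the outer polygon.
* `flat_Pm`: if `U` is a half box near a row line of the bricks, then so is the outer polygon.
-/

namespace Vale.Agent.P167.H450.Out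

open Set Metric Vale.Agent.P167.E6 Vale.Agent.P167.H450
variable {ℓ r R ρ : ℝ} {D U X : Set ℂ} {F F₀ : ℤ × ℤ} {z k : ℂ}

namespace OD

/-- The outer polygon is a Jordan domain. -/
theorem good_Pm (H : OD ℓ r D U) : Vale.Agent.P153.R2.R1.Good (Pm ℓ U) := by
  obtain ⟨S, n, p, hS, hp, hE⟩ := H.exists_polygon
  have e : Pm ℓ U = D6 ℓ S := by
    rw [Pm, ← hS]; rfl
  rw [e]
  exact good_D6 H.hℓ hp hE

/-- The common inner polygon is a Jordan domain. -/
theorem good_Qt (H : OD ℓ r D U) (hR : 0 < R) (hg : F₀ ∈ GF ℓ R (Pm ℓ U) (Pm ℓ U)) :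
    Vale.Agent.P153.R2.R1.Good (Qt ℓ R U F₀) := by
  obtain ⟨S, n, p, hS, hp, hE⟩ := (H.data hR hg).exists_polygon
  have e : Qt ℓ R U F₀ = D6 ℓ S := by
    rw [Qt, ← hS]; rfl
  rw [e]
  exact good_D6 H.hℓ hp hE

theorem Qt_sub_Pm (H : OD ℓ r D U) (hR : 0 < R) (hg : F₀ ∈ GF ℓ R (Pm ℓ U) (Pm ℓ U)) :
    Qt ℓ R U F₀ ⊆ Pm ℓ U := fun _ hz => H.margin_Q hR hg hz (mem_ball_self hR)

theorem Qt_sub (H : OD ℓ r D U) (hR : r + 16 * ℓ < R) (hg : F₀ ∈ GF ℓ R (Pm ℓ U) (Pm ℓ U)) :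
    Qt ℓ R U F₀ ⊆ D := by
  intro z hz
  have h1 := H.Q_sub (R' := R - (r + 16 * ℓ)) (by linarith) (by linarith) hg hz
  exact h1 (mem_ball_self (by linarith))

/-- A ball in `U` gives a good face. -/
theorem good_face (H : OD ℓ r D U) (hR : 0 < R) (hz : ball z (R + 3 * ℓ) ⊆ U)
    (hF : z ∈ sqr ℓ F) : F ∈ GF ℓ R (Pm ℓ U) (Pm ℓ U) := by
  have hℓ := H.hℓ
  have hz' : ball z (R + 3 * ℓ) ⊆ Pm ℓ U := hz.trans (sub_Pm H.hℓ)
  refine ⟨fun w hw => ?_, fun w hw => hz' ?_⟩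
  · refine (ball_subset_ball' ?_).trans hz'
    have := dist_le_of_bk (sqr_subset_bk hℓ hF) hw
    rw [dist_comm] at this
    linarith
  · have := dist_le_of_bk (sqr_subset_bk hℓ hF) (obk_subset_bk hw)
    rw [mem_ball, dist_comm]
    linarith

end OD

/-- Bricks which are joined to infinity by a set whose bricks do not meet `U` are outside. -/
theorem ofc_of_gate (hℓ : 0 < ℓ) (hX : IsPreconnected X) (hfar : ∀ G ∈ MF ℓ X, G ∉ MF ℓ U)
    {x₁ : ℂ} (hx₁ : x₁ ∈ X) (hout : ∀ u ∈ U, u.re + 3 * ℓ < x₁.re) (hF : F ∈ MF ℓ X) :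
    F ∈ Ofc (MF ℓ U) := by
  obtain ⟨G, hG⟩ := exists_sqr hℓ x₁
  have hGX : G ∈ MF ℓ X := mf_of_mem hℓ hx₁ hG
  have hGO : G ∈ Ofc (MF ℓ U) := by
    apply ofc_right
    rintro E ⟨u, hu, huU⟩
    have h1 := hout u huU
    have h2 := hG.2.1
    have h3 := hu.1
    obtain ⟨h4, -⟩ := br_eq_iff.1 (rfl : br E = br E)
    have h5 : ℓ * ((E.1 : ℝ) - 1) ≤ u.re := by
      refine le_trans (mul_le_mul_of_nonneg_left ?_ hℓ.le) h3
      rcases h4 with h | h
      · have : (E.1 : ℝ) = 2 * (br E).1 - (br E).2 := by exact_mod_cast h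
        linarith
      · have : (E.1 : ℝ) = 2 * (br E).1 - (br E).2 + 1 := by exact_mod_cast h
        linarith
    have h6 : ℓ * ((E.1 : ℝ) - 1) < ℓ * ((G.1 : ℝ) + 1) := by linarith
    have h7 : ℓ * ((E.1 : ℝ) + 2) < ℓ * ((G.1 : ℝ) + 1) := by linarith
    have h8 := lt_of_mul_lt_mul_left h7 hℓ.le
    have h9 : (E.1 : ℝ) < G.1 := by linarith
    exact_mod_cast h9
  refine ofc_trans hGO ?_
  have h := conn_mf hℓ hX G hGX F hF
  exact rtg_mono (fun E hE => hfar E hE) h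

theorem not_mem_Pm_of_gate (hℓ : 0 < ℓ) (hX : IsPreconnected X)
    (hfar : ∀ x ∈ X, ∀ u ∈ U, 3 * ℓ < dist x u) {x₁ : ℂ} (hx₁ : x₁ ∈ X)
    (hout : ∀ u ∈ U, u.re + 3 * ℓ < x₁.re) (hz : z ∈ X) : z ∉ Pm ℓ U := by
  obtain ⟨F, hF⟩ := exists_sqr hℓ z
  have h1 : F ∈ Ofc (MF ℓ U) := by
    refine ofc_of_gate hℓ hX ?_ hx₁ hout (mf_of_mem hℓ hz hF)
    rintro G ⟨x, hx, hxX⟩ ⟨u, hu, huU⟩
    have h2 := hfar x hxX u huU
    have h3 := dist_le_of_bk hx hu
    linarith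
  have h2 : z ∈ (Pm ℓ U)ᶜ := by
    rw [compl_Pm hℓ]
    exact ⟨F, h1, hF⟩
  exact h2

/-- **Flat sides.** If `U` is the upper half of the box of radius `ρ` around a point of the row line
`im = ℓ b`, and the lower half is joined to infinity at distance `> 3 ℓ` from `U`, then the outer
polygon is the upper half of the box of radius `ρ - 3 ℓ`. -/
theorem flat_Pm (hℓ : 0 < ℓ) {xb : ℝ} {b : ℤ}
    (hup : ∀ z : ℂ, |z.re - xb| < ρ → ℓ * b < z.im → z.im < ℓ * b + ρ → z ∈ U)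
    (hdn : ∀ z : ℂ, |z.re - xb| < ρ → ℓ * b - ρ < z.im → z.im ≤ ℓ * b → z ∉ U)
    (hX : IsPreconnected X) (hfar : ∀ x ∈ X, ∀ u ∈ U, 3 * ℓ < dist x u) {x₁ : ℂ} (hx₁ : x₁ ∈ X)
    (hout : ∀ u ∈ U, u.re + 3 * ℓ < x₁.re) (hk : k ∈ X) (hk1 : |k.re - xb| < ρ - 3 * ℓ)
    (hk2 : ℓ * b - (ρ - 3 * ℓ) < k.im) (hk3 : k.im < ℓ * b) (hz1 : |z.re - xb| < ρ - 3 * ℓ)
    (hz2 : |z.im - ℓ * b| < ρ - 3 * ℓ) : z ∈ Pm ℓ U ↔ ℓ * b < z.im := by
  constructor
  · intro hz
    by_contra hcon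
    push Not at hcon
    -- the box
    set B : Set ℂ := {w | |w.re - xb| < ρ - 3 * ℓ ∧ ℓ * b - (ρ - 3 * ℓ) < w.im ∧ w.im < ℓ * b} with hB
    have hBc : Convex ℝ B := by
      have e : B = {w : ℂ | w.re < xb + (ρ - 3 * ℓ)} ∩ {w | xb - (ρ - 3 * ℓ) < w.re} ∩
          {w | ℓ * b - (ρ - 3 * ℓ) < w.im} ∩ {w | w.im < ℓ * b} := by
        ext w
        simp only [hB, mem_ofPred_eq, mem_inter_iff, abs_lt]
        constructor
        · rintro ⟨⟨h1, h2⟩, h3, h4⟩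
          exact ⟨⟨⟨by linarith, by linarith⟩, h3⟩, h4⟩
        · rintro ⟨⟨⟨h1, h2⟩, h3⟩, h4⟩
          exact ⟨⟨by linarith, by linarith⟩, h3, h4⟩
      rw [e]
      exact (((convex_halfSpace_re_lt _).inter (convex_halfSpace_re_gt _)).inter
        (convex_halfSpace_im_gt _)).inter (convex_halfSpace_im_lt _)
    have hBX : IsPreconnected (B ∪ X) :=
      IsPreconnected.union k ⟨hk1, hk2, hk3⟩ hk hBc.isPreconnected hX
    have hfar' : ∀ G ∈ MF ℓ (B ∪ X), G ∉ MF ℓ U := by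
      rintro G ⟨x, hx, hxB | hxX⟩ ⟨u, hu, huU⟩
      · obtain ⟨h1, h2, h3⟩ := hxB
        have hd := dist_le_of_bk hx hu
        rw [dist_eq_norm] at hd
        have hre := (Complex.abs_re_le_norm (x - u)).trans hd
        have him := (Complex.abs_im_le_norm (x - u)).trans hd
        simp only [Complex.sub_re, Complex.sub_im] at hre him
        rw [abs_le] at hre him
        rw [abs_lt] at h1
        have h4 : ℓ * ((br G).2 : ℝ) < ℓ * b := lt_of_le_of_lt hx.2.2.1 h3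
        have h5 : ((br G).2 : ℝ) < b := lt_of_mul_lt_mul_left h4 hℓ.le
        have h6 : (br G).2 + 1 ≤ b := by
          have : (br G).2 < b := by exact_mod_cast h5
          omega
        have h7 : ((br G).2 : ℝ) + 1 ≤ b := by exact_mod_cast h6
        have h8 : u.im ≤ ℓ * b := hu.2.2.2.trans (mul_le_mul_of_nonneg_left h7 hℓ.le)
        refine hdn u ?_ ?_ h8 huU
        · rw [abs_lt]
          constructor <;> linarith
        · linarith
      · have h2 := hfar x hxX u huU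
        have h3 := dist_le_of_bk hx hu
        linarith
    -- a face below
    obtain ⟨F, hF, hFb⟩ : ∃ F, z ∈ sqr ℓ F ∧ F.2 < b := by
      obtain ⟨F, hF⟩ := exists_sqr hℓ z
      by_cases h : F.2 < b
      · exact ⟨F, hF, h⟩
      · push Not at h
        have h1 : ℓ * (b : ℝ) ≤ ℓ * F.2 := mul_le_mul_of_nonneg_left (by exact_mod_cast h) hℓ.le
        have h2 : z.im = ℓ * b := le_antisymm hcon (h1.trans hF.2.2.1)
        refine ⟨(F.1, b - 1), ⟨hF.1, hF.2.1, ?_, ?_⟩, by simp⟩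
        · push_cast
          rw [h2]; nlinarith
        · push_cast
          rw [h2]; nlinarith
    have hFM : F ∈ MF ℓ (B ∪ X) := by
      rw [abs_lt] at hz2
      have hFb' : (F.2 : ℝ) + 1 ≤ b := by exact_mod_cast hFb
      by_cases h : z.im < ℓ * b
      · exact mf_of_mem hℓ (Or.inl ⟨hz1, by linarith [hz2.1], h⟩) hF
      · have h2 : z.im = ℓ * b := le_antisymm hcon (not_lt.1 h)
        have h3 := hF.2.2.2
        have h4 : ℓ * ((F.2 : ℝ) + 1) ≤ ℓ * b := mul_le_mul_of_nonneg_left hFb' hℓ.le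
        have h5 : ℓ * ((F.2 : ℝ) + 1) = ℓ * b := le_antisymm h4 (h2 ▸ h3)
        set s : ℝ := min ℓ ((ρ - 3 * ℓ) / 2) with hs
        have hρ : 0 < ρ - 3 * ℓ := lt_of_le_of_lt (abs_nonneg _) hz1
        have hs0 : 0 < s := lt_min hℓ (by linarith)
        have hs1 : s ≤ ℓ := min_le_left _ _
        have hs2 : s ≤ (ρ - 3 * ℓ) / 2 := min_le_right _ _
        refine mf_of_mem hℓ (z := ⟨z.re, z.im - s⟩) (Or.inl ⟨hz1, ?_, ?_⟩) ⟨hF.1, hF.2.1, ?_, ?_⟩
        · show ℓ * b - (ρ - 3 * ℓ) < z.im - s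
          linarith
        · show z.im - s < ℓ * b
          linarith
        · show ℓ * F.2 ≤ z.im - s
          linarith
        · show z.im - s ≤ ℓ * (F.2 + 1)
          linarith
    have h1 : F ∈ Ofc (MF ℓ U) := ofc_of_gate hℓ hBX hfar' (Or.inr hx₁) hout hFM
    have h2 : z ∈ (Pm ℓ U)ᶜ := by
      rw [compl_Pm hℓ]
      exact ⟨F, h1, hF⟩
    exact h2 hz
  · intro h
    apply sub_Pm hℓ
    rw [abs_lt] at hz2
    exact hup z (by linarith) h (by linarith [hz2.2])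

end Vale.Agent.P167.H450.Out
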