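import Vale.Agent.P167.H327.OriG
import Vale.Agent.P167.H72.Cross

/-!
# Crossing connected sets in a Jordan domain

`jordan_cross`: in a Jordan domain with boundary curve `F` of period `L`, and
`t₁ < t₂ < t₃ < t₄ < t₁ + L`, a compact connected set of the domain from `F t₁` to `F t₃` meets every
compact connected set of the domain from `F t₂` to `F t₄`.
-/

set_option autoImplicit false

namespace Vale.Agent.P167.H450.Out

open Set Metric
open Vale.Agent.P153.R2.R1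
open Vale.Agent.P153.R2.DET (HC)
open Vale.Agent.P167.H327

theorem jordan_cross {D : Set ℂ} (hG : Good D) (hne : D.Nonempty) {F : ℝ → ℂ} {L : ℝ}
    (hF : JCurve F L) (hfr : frontier D = range F) {A B : Set ℂ} (hA : IsCompact A)
    (hAc : IsPreconnected A) (hB : IsCompact B) (hBc : IsPreconnected B) {t₁ t₂ t₃ t₄ : ℝ}
    (h12 : t₁ < t₂) (h23 : t₂ < t₃) (h34 : t₃ < t₄) (h41 : t₄ < t₁ + L)
    (hAD : A ⊆ insert (F t₁) (insert (F t₃) D)) (hBD : B ⊆ insert (F t₂) (insert (F t₄) D))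
    (h1 : F t₁ ∈ A) (h3 : F t₃ ∈ A) (h2 : F t₂ ∈ B) (h4 : F t₄ ∈ B) : ¬ Disjoint A B := by
  intro hd
  set tb : ℝ := (t₁ + t₄ - L) / 2 with htb
  have hL := hF.pos
  have i1 : t₁ ∈ Ioo tb (tb + L) := ⟨by rw [htb]; linarith, by rw [htb]; linarith⟩
  have i2 : t₂ ∈ Ioo tb (tb + L) := ⟨by rw [htb]; linarith, by rw [htb]; linarith⟩
  have i3 : t₃ ∈ Ioo tb (tb + L) := ⟨by rw [htb]; linarith, by rw [htb]; linarith⟩
  have i4 : t₄ ∈ Ioo tb (tb + L) := ⟨by rw [htb]; linarith, by rw [htb]; linarith⟩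
  have hfrm : ∀ t, F t ∈ frontier D := fun t => by rw [hfr]; exact ⟨t, rfl⟩
  obtain ⟨ψ, hU, -⟩ := hG.exists_isU hne (hfrm t₁) (hfrm tb) (curve_ne hF i1)
  have hn := hG.nocut
  have hD := hG.isOpen
  have hbD : F tb ∉ D := fun h => by
    have := hfrm tb
    rw [hD.frontier_eq] at this
    exact this.2 h
  have hmem : ∀ t ∈ Ioo tb (tb + L), F t ∈ ψ '' HC := fun t ht =>
    ⟨_, real_HC _, (hpar_spec hU hn hD hF hfr ht).1⟩
  have hDm : D ⊆ ψ '' HC := fun z hz =>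
    closure_sub hU hn (subset_closure hz) (fun h => hbD (h ▸ hz))
  have hAs : A ⊆ ψ '' HC := by
    intro z hz
    rcases hAD hz with rfl | rfl | h
    · exact hmem _ i1
    · exact hmem _ i3
    · exact hDm h
  have hBs : B ⊆ ψ '' HC := by
    intro z hz
    rcases hBD hz with rfl | rfl | h
    · exact hmem _ i2
    · exact hmem _ i4
    · exact hDm h
  have hc := ph_cont (uni_of hU hn)
  set A' := ph ψ '' A with hA'
  set B' := ph ψ '' B with hB'
  have cA : IsClosed A' := (hA.image_of_continuousOn (hc.mono hAs)).isClosed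
  have cB : IsClosed B' := (hB.image_of_continuousOn (hc.mono hBs)).isClosed
  have pA : IsPreconnected A' := hAc.image _ (hc.mono hAs)
  have pB : IsPreconnected B' := hBc.image _ (hc.mono hBs)
  have hH : ∀ {S : Set ℂ}, S ⊆ ψ '' HC → ∀ z ∈ ph ψ '' S, 0 ≤ z.im := by
    rintro S hS _ ⟨w, hw, rfl⟩
    exact (ph_img (hS hw)).1
  have hdd : Disjoint A' B' := by
    rw [Set.disjoint_left]
    rintro _ ⟨z, hz, rfl⟩ ⟨w, hw, he⟩
    have e1 := (ph_img (hAs hz)).2
    have e2 := (ph_img (hBs hw)).2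
    rw [he, e1] at e2
    exact Set.disjoint_left.1 hd hz (e2 ▸ hw)
  have m : ∀ {S : Set ℂ} {t : ℝ}, t ∈ Ioo tb (tb + L) → F t ∈ S →
      ((hpar ψ F t : ℝ) : ℂ) ∈ ph ψ '' S := fun ht hs =>
    ⟨_, hs, (hpar_spec hU hn hD hF hfr ht).2⟩
  rcases hpar_mono_or hU hn hD hF hfr with hm | hm
  · exact H72.cross_lemma cA pA pB (hH hAs) (hH hBs) hdd (hm i1 i2 h12) (hm i2 i3 h23)
      (hm i3 i4 h34) (m i1 h1) (m i3 h3) (m i2 h2) (m i4 h4)
  · exact H72.cross_lemma cB pB pA (hH hBs) (hH hAs) hdd.symm (hm i3 i4 h34) (hm i2 i3 h23)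
      (hm i1 i2 h12) (m i4 h4) (m i2 h2) (m i3 h3) (m i1 h1)

end Vale.Agent.P167.H450.Out
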