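import Vale.Agent.P167.CL.CutNDefs
import Vale.Agent.P167.CL.Geo2

/-!
# P167, block CUT: the inner polygon near the leg, from its faces

A copy of `CL/CutQ` in another namespace (no clash with `CL/DQ1`).
-/

set_option autoImplicit false

open MeasureTheory Filter Topology Set Metric

namespace Vale.Agent.P167.H450.CQ

open Vale.Agent.P167.CL
open Vale.Agent.P167.H531 Vale.Agent.P167.H558
open Vale.Agent.P167.E6 Vale.Agent.P167.E2 Vale.Agent.P167.H411 Vale.Agent.P167.H450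

/-! ### Faces of the cut -/

theorem lf_sub_KF (c : CutP) : c.lf ⊆ c.KF := fun F hF => ⟨F, hF, rfl⟩

/-- Faces of a brick. -/
theorem br_rel {F G : ℤ × ℤ} (h : br F = br G) : F.2 = G.2 ∧ F.1 ≤ G.1 + 1 ∧ G.1 ≤ F.1 + 1 ∧
    (F.1 = G.1 ∨ (G.1 + G.2) % 2 = 0 ∧ F.1 = G.1 + 1 ∨ (G.1 + G.2) % 2 = 1 ∧ F.1 + 1 = G.1) := by
  obtain ⟨h1, h2⟩ := (br_eq_iff (F := F) (b := br G)).1 h
  obtain ⟨h3, h4⟩ := (br_eq_iff (F := G) (b := br G)).1 rfl
  omega

/-- Conditions on the parameters of the cut. -/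
structure COk (c : CutP) : Prop where
  hq : 2 ≤ c.q
  hm : c.q + 3 ≤ 2 * c.m
  he : c.q + 2 ≤ c.e

/-- The faces of the cut on the line of the leg. -/
theorem mem_KF_line {c : CutP} (hc : COk c) {F : ℤ × ℤ} :
    (c.hor = true → F.2 = -1 → 0 ≤ F.1 → c.pos = true → (F ∈ c.KF ↔ F.1 ≤ 2 * c.e)) ∧
    (c.hor = true → F.2 = -1 → F.1 < 0 → c.pos = false → (F ∈ c.KF ↔ -(2 * c.e) - 1 ≤ F.1)) ∧
    (c.hor = false → F.1 = 2 * c.m → c.pos = true → (F ∈ c.KF ↔ -1 ≤ F.2 ∧ F.2 ≤ c.e)) ∧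
    (c.hor = false → F.1 = 2 * c.m → c.pos = false → (F ∈ c.KF ↔ -c.e ≤ F.2 ∧ F.2 ≤ -1)) := by
  obtain ⟨h1, h2, h3⟩ := hc
  obtain ⟨hor, pos, m, q, e⟩ := c
  simp only at h1 h2 h3
  refine ⟨?_, ?_, ?_, ?_⟩
  · rintro rfl hF2 hF1 rfl
    constructor
    · rintro ⟨G, hG, hb⟩
      obtain ⟨e1, e2, e3, e4⟩ := br_rel hb
      simp only [CutP.lf, CutP.sg, mem_ofPred_eq, if_true, one_mul] at hG
      simp only [Bool.true_eq_false, false_and, or_false, true_and] at hG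
      simp only
      omega
    · intro h
      simp only at h
      by_cases hp : F.1 = 0
      all_goals
        refine ⟨F, ?_, rfl⟩
        simp only [CutP.lf, CutP.sg, mem_ofPred_eq, if_true, one_mul, true_and]
        omega
  · rintro rfl hF2 hF1 rfl
    constructor
    · rintro ⟨G, hG, hb⟩
      obtain ⟨e1, e2, e3, e4⟩ := br_rel hb
      simp only [CutP.lf, CutP.sg, mem_ofPred_eq, Bool.false_eq_true, if_false] at hG
      simp only [Bool.true_eq_false, false_and, or_false, true_and] at hG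
      simp only
      omega
    · intro h
      simp only at h
      rcases eq_or_lt_of_le h with h | h
      · refine ⟨(F.1 + 1, F.2), ?_, ?_⟩
        · simp only [CutP.lf, CutP.sg, mem_ofPred_eq, Bool.false_eq_true, if_false, true_and]
          omega
        · refine Prod.ext ?_ rfl
          simp only [br]
          omega
      · refine ⟨F, ?_, rfl⟩
        simp only [CutP.lf, CutP.sg, mem_ofPred_eq, Bool.false_eq_true, if_false, true_and]
        omega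
  · rintro rfl hF1 rfl
    simp only at hF1 ⊢
    constructor
    · rintro ⟨G, hG, hb⟩
      obtain ⟨e1, e2, e3, e4⟩ := br_rel hb
      simp only [CutP.lf, CutP.sg, mem_ofPred_eq, Bool.false_eq_true, false_and, false_or, true_and,
        Bool.true_eq_false, or_false] at hG
      omega
    · intro h
      refine ⟨F, ?_, rfl⟩
      simp only [CutP.lf, CutP.sg, mem_ofPred_eq, Bool.false_eq_true, false_and, false_or, true_and,
        Bool.true_eq_false, or_false]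
      omega
  · rintro rfl hF1 rfl
    simp only at hF1 ⊢
    constructor
    · rintro ⟨G, hG, hb⟩
      obtain ⟨e1, e2, e3, e4⟩ := br_rel hb
      simp only [CutP.lf, CutP.sg, mem_ofPred_eq, Bool.false_eq_true, false_and, false_or,
        true_and] at hG
      omega
    · intro h
      refine ⟨F, ?_, rfl⟩
      simp only [CutP.lf, CutP.sg, mem_ofPred_eq, Bool.false_eq_true, false_and, false_or, true_and]
      omega

/-- The faces of the cut: bounds. -/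
theorem KF_bound {c : CutP} (hc : COk c) {F : ℤ × ℤ} (hF : F ∈ c.KF) :
    -(2 * c.e + 2 * c.m + 2) ≤ F.1 ∧ F.1 ≤ 2 * c.e + 2 * c.m + 2 ∧
    -(2 * c.e + 2 * c.m + 2) ≤ F.2 ∧ F.2 ≤ 2 * c.e + 2 * c.m + 2 := by
  obtain ⟨h1, h2, h3⟩ := hc
  obtain ⟨G, hG, hb⟩ := hF
  obtain ⟨e1, e2, e3, e4⟩ := br_rel hb
  obtain ⟨hor, pos, m, q, e⟩ := c
  simp only at h1 h2 h3 ⊢
  simp only [CutP.lf, CutP.sg, mem_ofPred_eq] at hG
  cases pos <;> simp only [Bool.false_eq_true, if_false, if_true] at hG <;> omega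

theorem finite_KF {c : CutP} (hc : COk c) : c.KF.Finite := by
  refine ((Set.finite_Icc (-(2 * c.e + 2 * c.m + 2)) (2 * c.e + 2 * c.m + 2)).prod
    (Set.finite_Icc (-(2 * c.e + 2 * c.m + 2)) (2 * c.e + 2 * c.m + 2))).subset ?_
  intro F hF
  obtain ⟨h1, h2, h3, h4⟩ := KF_bound hc hF
  exact ⟨⟨h1, h2⟩, h3, h4⟩

/-- Faces of the box. -/
theorem box_KF {c : CutP} {F : ℤ × ℤ} (h1 : -c.q ≤ F.2) (h2 : F.2 < 0) (h3 : -c.q ≤ F.1)
    (h4 : F.1 < c.q) : F ∈ c.KF := lf_sub_KF c (Or.inl ⟨h1, h2, h3, h4⟩)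

/-- Faces of the row. -/
theorem row_KF {c : CutP} {F : ℤ × ℤ} (hh : c.hor = false) (h2 : F.2 = -1) (h3 : 0 ≤ F.1)
    (h4 : F.1 ≤ 2 * c.m) : F ∈ c.KF := lf_sub_KF c (Or.inr (Or.inr (Or.inl ⟨hh, h2, h3, h4⟩)))

/-! ### Division -/

theorem dv_le {N x a : ℤ} (hN : 0 < N) : x / N ≤ a ↔ x < (a + 1) * N := by
  rw [← Int.lt_add_one_iff, Int.ediv_lt_iff_lt_mul hN]

theorem le_dv {N x a : ℤ} (hN : 0 < N) : a ≤ x / N ↔ a * N ≤ x := Int.le_ediv_iff_mul_le hN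

/-- The exit index. -/
def ExitE (c : CutP) (N : ℕ) (E : ℕ) : Prop := (E : ℤ) + 1 = match c.hor, c.pos with
    | true, true => (2 * c.e + 1) * N
    | true, false => (2 * c.e + 1) * N + 1
    | false, true => (c.e + 1) * N + (N : ℤ) / 2
    | false, false => c.e * N - (N : ℤ) / 2 + 1

theorem dv_mem {N x a b : ℤ} (hN : 0 < N) (h1 : a * N ≤ x) (h2 : x < (b + 1) * N) :
    a ≤ x / N ∧ x / N ≤ b := ⟨(le_dv hN).2 h1, (dv_le hN).2 h2⟩

/-- A square whose face is in the box. -/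
theorem fce_box {c : CutP} (hc : COk c) {N : ℕ} (hN : 0 < N) {b v : ℤ × ℤ}
    (h1 : -(2 * N) ≤ v.1 - b.1) (h2 : v.1 - b.1 < 2 * N) (h3 : -N ≤ v.2 - b.2)
    (h4 : v.2 - b.2 < 0) : fce N b v ∈ c.KF := by
  have hN' : (0 : ℤ) < N := by exact_mod_cast hN
  have hq := hc.hq
  obtain ⟨a1, a2⟩ := dv_mem (a := -2) (b := 1) hN' (x := v.1 - b.1) (by linarith) (by linarith)
  obtain ⟨b1, b2⟩ := dv_mem (a := -1) (b := -1) hN' (x := v.2 - b.2) (by linarith) (by linarith)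
  refine box_KF ?_ ?_ ?_ ?_ <;>
  · simp only [fce]
    omega

/-- A square whose face is in the row. -/
theorem fce_row {c : CutP} (hh : c.hor = false) {N : ℕ} (hN : 0 < N) {b v : ℤ × ℤ}
    (h1 : 0 ≤ v.1 - b.1) (h2 : v.1 - b.1 < (2 * c.m + 1) * N) (h3 : -N ≤ v.2 - b.2)
    (h4 : v.2 - b.2 < 0) : fce N b v ∈ c.KF := by
  have hN' : (0 : ℤ) < N := by exact_mod_cast hN
  obtain ⟨a1, a2⟩ := dv_mem (a := 0) (b := 2 * c.m) hN' (x := v.1 - b.1) (by linarith) (by linarith)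
  obtain ⟨b1, b2⟩ := dv_mem (a := -1) (b := -1) hN' (x := v.2 - b.2) (by linarith) (by linarith)
  refine row_KF hh ?_ ?_ ?_ <;>
  · simp only [fce]
    omega

/-- Coordinates of the leg. -/
theorem leg_lv {c : CutP} {N : ℕ} {v₀ u : ℤ × ℤ} (i : ℕ) :
    (c.hor = true ∧ c.pos = true ∧ ((c.leg N v₀ u).lv i).1 = (v₀ + u).1 + i ∧
      ((c.leg N v₀ u).lv i).2 = (v₀ + u).2 - (N : ℤ) / 2 ∧ (c.leg N v₀ u).s = (1, 0)) ∨
    (c.hor = true ∧ c.pos = false ∧ ((c.leg N v₀ u).lv i).1 = (v₀ + u).1 - i ∧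
      ((c.leg N v₀ u).lv i).2 = (v₀ + u).2 - (N : ℤ) / 2 ∧ (c.leg N v₀ u).s = (-1, 0)) ∨
    (c.hor = false ∧ c.pos = true ∧ ((c.leg N v₀ u).lv i).1 = v₀.1 + 2 * c.m * N + (N : ℤ) / 2 ∧
      ((c.leg N v₀ u).lv i).2 = (v₀ + u).2 - (N : ℤ) / 2 + i ∧ (c.leg N v₀ u).s = (0, 1)) ∨
    (c.hor = false ∧ c.pos = false ∧ ((c.leg N v₀ u).lv i).1 = v₀.1 + 2 * c.m * N + (N : ℤ) / 2 ∧
      ((c.leg N v₀ u).lv i).2 = (v₀ + u).2 - (N : ℤ) / 2 - i ∧ (c.leg N v₀ u).s = (0, -1)) := by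
  rcases (c.leg N v₀ u).lv_cases i with ⟨h1, h2, h3, h4⟩ | ⟨h1, h2, h3, h4⟩ | ⟨h1, h2, h3, h4⟩ |
    ⟨h1, h2, h3, h4⟩
  · exact Or.inl ⟨h1, h2, by rw [h4]; rfl, by rw [h4]; rfl, h3⟩
  · exact Or.inr (Or.inl ⟨h1, h2, by rw [h4]; rfl, by rw [h4]; rfl, h3⟩)
  · exact Or.inr (Or.inr (Or.inl ⟨h1, h2, by rw [h4]; rfl, by rw [h4]; rfl, h3⟩))
  · exact Or.inr (Or.inr (Or.inr ⟨h1, h2, by rw [h4]; rfl, by rw [h4]; rfl, h3⟩))

theorem leg_pp {c : CutP} {N : ℕ} {v₀ u : ℤ × ℤ} (hh : c.hor = true) (hp : c.pos = true) :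
    (c.leg N v₀ u).s = (1, 0) ∧ ∀ i, ((c.leg N v₀ u).lv i).1 = (v₀ + u).1 + i ∧
      ((c.leg N v₀ u).lv i).2 = (v₀ + u).2 - (N : ℤ) / 2 := by
  constructor
  · rcases leg_lv (c := c) (N := N) (v₀ := v₀) (u := u) 0 with ⟨h1, h2, h3, h4, h5⟩ |
      ⟨h1, h2, h3, h4, h5⟩ | ⟨h1, h2, h3, h4, h5⟩ | ⟨h1, h2, h3, h4, h5⟩
    · exact h5
    · rw [hp] at h2; exact absurd h2 Bool.noConfusion
    · rw [hh] at h1; exact absurd h1 Bool.noConfusion
    · rw [hh] at h1; exact absurd h1 Bool.noConfusion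
  · intro i
    rcases leg_lv (c := c) (N := N) (v₀ := v₀) (u := u) i with ⟨h1, h2, h3, h4, h5⟩ |
      ⟨h1, h2, h3, h4, h5⟩ | ⟨h1, h2, h3, h4, h5⟩ | ⟨h1, h2, h3, h4, h5⟩
    · exact ⟨h3, h4⟩
    · rw [hp] at h2; exact absurd h2 Bool.noConfusion
    · rw [hh] at h1; exact absurd h1 Bool.noConfusion
    · rw [hh] at h1; exact absurd h1 Bool.noConfusion

theorem leg_pn {c : CutP} {N : ℕ} {v₀ u : ℤ × ℤ} (hh : c.hor = true) (hp : c.pos = false) :
    (c.leg N v₀ u).s = (-1, 0) ∧ ∀ i, ((c.leg N v₀ u).lv i).1 = (v₀ + u).1 - i ∧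
      ((c.leg N v₀ u).lv i).2 = (v₀ + u).2 - (N : ℤ) / 2 := by
  constructor
  · rcases leg_lv (c := c) (N := N) (v₀ := v₀) (u := u) 0 with ⟨h1, h2, h3, h4, h5⟩ |
      ⟨h1, h2, h3, h4, h5⟩ | ⟨h1, h2, h3, h4, h5⟩ | ⟨h1, h2, h3, h4, h5⟩
    · rw [hp] at h2; exact absurd h2 Bool.noConfusion
    · exact h5
    · rw [hh] at h1; exact absurd h1 Bool.noConfusion
    · rw [hh] at h1; exact absurd h1 Bool.noConfusion
  · intro i
    rcases leg_lv (c := c) (N := N) (v₀ := v₀) (u := u) i with ⟨h1, h2, h3, h4, h5⟩ |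
      ⟨h1, h2, h3, h4, h5⟩ | ⟨h1, h2, h3, h4, h5⟩ | ⟨h1, h2, h3, h4, h5⟩
    · rw [hp] at h2; exact absurd h2 Bool.noConfusion
    · exact ⟨h3, h4⟩
    · rw [hh] at h1; exact absurd h1 Bool.noConfusion
    · rw [hh] at h1; exact absurd h1 Bool.noConfusion

theorem leg_np {c : CutP} {N : ℕ} {v₀ u : ℤ × ℤ} (hh : c.hor = false) (hp : c.pos = true) :
    (c.leg N v₀ u).s = (0, 1) ∧ ∀ i, ((c.leg N v₀ u).lv i).1 = v₀.1 + 2 * c.m * N + (N : ℤ) / 2 ∧
      ((c.leg N v₀ u).lv i).2 = (v₀ + u).2 - (N : ℤ) / 2 + i := by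
  constructor
  · rcases leg_lv (c := c) (N := N) (v₀ := v₀) (u := u) 0 with ⟨h1, h2, h3, h4, h5⟩ |
      ⟨h1, h2, h3, h4, h5⟩ | ⟨h1, h2, h3, h4, h5⟩ | ⟨h1, h2, h3, h4, h5⟩
    · rw [hh] at h1; exact absurd h1 Bool.noConfusion
    · rw [hh] at h1; exact absurd h1 Bool.noConfusion
    · exact h5
    · rw [hp] at h2; exact absurd h2 Bool.noConfusion
  · intro i
    rcases leg_lv (c := c) (N := N) (v₀ := v₀) (u := u) i with ⟨h1, h2, h3, h4, h5⟩ |
      ⟨h1, h2, h3, h4, h5⟩ | ⟨h1, h2, h3, h4, h5⟩ | ⟨h1, h2, h3, h4, h5⟩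
    · rw [hh] at h1; exact absurd h1 Bool.noConfusion
    · rw [hh] at h1; exact absurd h1 Bool.noConfusion
    · exact ⟨h3, h4⟩
    · rw [hp] at h2; exact absurd h2 Bool.noConfusion

theorem leg_nn {c : CutP} {N : ℕ} {v₀ u : ℤ × ℤ} (hh : c.hor = false) (hp : c.pos = false) :
    (c.leg N v₀ u).s = (0, -1) ∧ ∀ i, ((c.leg N v₀ u).lv i).1 = v₀.1 + 2 * c.m * N + (N : ℤ) / 2 ∧
      ((c.leg N v₀ u).lv i).2 = (v₀ + u).2 - (N : ℤ) / 2 - i := by
  constructor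
  · rcases leg_lv (c := c) (N := N) (v₀ := v₀) (u := u) 0 with ⟨h1, h2, h3, h4, h5⟩ |
      ⟨h1, h2, h3, h4, h5⟩ | ⟨h1, h2, h3, h4, h5⟩ | ⟨h1, h2, h3, h4, h5⟩
    · rw [hh] at h1; exact absurd h1 Bool.noConfusion
    · rw [hh] at h1; exact absurd h1 Bool.noConfusion
    · rw [hp] at h2; exact absurd h2 Bool.noConfusion
    · exact h5
  · intro i
    rcases leg_lv (c := c) (N := N) (v₀ := v₀) (u := u) i with ⟨h1, h2, h3, h4, h5⟩ |
      ⟨h1, h2, h3, h4, h5⟩ | ⟨h1, h2, h3, h4, h5⟩ | ⟨h1, h2, h3, h4, h5⟩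
    · rw [hh] at h1; exact absurd h1 Bool.noConfusion
    · rw [hh] at h1; exact absurd h1 Bool.noConfusion
    · rw [hp] at h2; exact absurd h2 Bool.noConfusion
    · exact ⟨h3, h4⟩

/-- The faces near the leg: a square at distance at most `2` of `lv i`. -/
theorem fce_leg {c : CutP} (hc : COk c) {N : ℕ} (hN : 16 ≤ N) (hN2 : 4 ∣ N) {v₀ u : ℤ × ℤ}
    (hu : u ∈ Uset) {E : ℕ} (hE : ExitE c N E) {i : ℕ} {v : ℤ × ℤ}
    (h1 : |v.1 - ((c.leg N v₀ u).lv i).1| ≤ 2) (h2 : |v.2 - ((c.leg N v₀ u).lv i).2| ≤ 2)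
    (h0 : N ≤ i) :
    fce N (v₀ + u) v ∈ c.KF ↔ alon (c.leg N v₀ u).s ((c.leg N v₀ u).lv (E + 1)) v < 0 := by
  obtain ⟨hq, hm, he⟩ := id hc
  obtain ⟨M, rfl⟩ := hN2
  have hM : (4 : ℤ) ≤ M := by omega
  have hN' : (0 : ℤ) < (4 * M : ℕ) := by push_cast; omega
  have hH : ((4 * M : ℕ) : ℤ) / 2 = 2 * M := by push_cast; omega
  have hu2 : u.2 = 0 ∧ (u.1 = 0 ∨ u.1 = 1) := by
    rcases hu with rfl | rfl <;> simp
  have hb1 : (v₀ + u).1 = v₀.1 + u.1 := rfl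
  have hb2 : (v₀ + u).2 = v₀.2 + u.2 := rfl
  have h0' : (4 * M : ℤ) ≤ i := by exact_mod_cast h0
  unfold ExitE at hE
  rw [hH] at hE
  obtain ⟨l1, l2, l3, l4⟩ := mem_KF_line (F := fce (4 * M) (v₀ + u) v) hc
  rcases hh : c.hor with _ | _ <;> rcases hp : c.pos with _ | _ <;> rw [hh, hp] at hE <;>
    simp only at hE
  · obtain ⟨e1, e2⟩ := leg_nn (N := 4 * M) (v₀ := v₀) (u := u) hh hp
    rw [(e2 i).1, abs_le] at h1
    rw [(e2 i).2, abs_le] at h2
    unfold alon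
    rw [e1, (e2 (E + 1)).1, (e2 (E + 1)).2]
    rw [hH] at h1 h2 ⊢
    simp only [fce] at l4 ⊢
    push_cast at hE h1
    rw [l4 hh ?_ hp, le_dv hN', dv_le hN']
    · push_cast
      constructor
      · rintro ⟨a1, a2⟩; linarith
      · intro a; constructor <;> linarith
    · refine le_antisymm ((dv_le hN').2 ?_) ((le_dv hN').2 ?_)
      · push_cast; rcases hu2.2 with h | h <;> linarith
      · push_cast; rcases hu2.2 with h | h <;> linarith
  · obtain ⟨e1, e2⟩ := leg_np (N := 4 * M) (v₀ := v₀) (u := u) hh hp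
    rw [(e2 i).1, abs_le] at h1
    rw [(e2 i).2, abs_le] at h2
    unfold alon
    rw [e1, (e2 (E + 1)).1, (e2 (E + 1)).2]
    rw [hH] at h1 h2 ⊢
    simp only [fce] at l3 ⊢
    push_cast at hE h1
    rw [l3 hh ?_ hp, le_dv hN', dv_le hN']
    · push_cast
      constructor
      · rintro ⟨a1, a2⟩; linarith
      · intro a; constructor <;> linarith
    · refine le_antisymm ((dv_le hN').2 ?_) ((le_dv hN').2 ?_)
      · push_cast; rcases hu2.2 with h | h <;> linarith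
      · push_cast; rcases hu2.2 with h | h <;> linarith
  · obtain ⟨e1, e2⟩ := leg_pn (N := 4 * M) (v₀ := v₀) (u := u) hh hp
    rw [(e2 i).1, abs_le] at h1
    rw [(e2 i).2, abs_le] at h2
    unfold alon
    rw [e1, (e2 (E + 1)).1, (e2 (E + 1)).2]
    rw [hH] at h2 ⊢
    simp only [fce] at l2 ⊢
    push_cast at hE h1
    rw [l2 hh ?_ ?_ hp, le_dv hN']
    · push_cast
      constructor
      · intro a; linarith
      · intro a; linarith
    · refine le_antisymm ((dv_le hN').2 ?_) ((le_dv hN').2 ?_)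
      · push_cast; linarith
      · push_cast; linarith
    · rw [← Int.le_sub_one_iff, dv_le hN']
      push_cast
      linarith
  · obtain ⟨e1, e2⟩ := leg_pp (N := 4 * M) (v₀ := v₀) (u := u) hh hp
    rw [(e2 i).1, abs_le] at h1
    rw [(e2 i).2, abs_le] at h2
    unfold alon
    rw [e1, (e2 (E + 1)).1, (e2 (E + 1)).2]
    rw [hH] at h2 ⊢
    simp only [fce] at l1 ⊢
    push_cast at hE h1
    rw [l1 hh ?_ ?_ hp, dv_le hN']
    · push_cast
      constructor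
      · intro a; linarith
      · intro a; linarith
    · refine le_antisymm ((dv_le hN').2 ?_) ((le_dv hN').2 ?_)
      · push_cast; linarith
      · push_cast; linarith
    · rw [le_dv hN']
      push_cast
      linarith

/-- The faces of the squares of the leg before the exit. -/
theorem fce_lv {c : CutP} (hc : COk c) {N : ℕ} (hN : 16 ≤ N) (hN2 : 4 ∣ N) {v₀ u : ℤ × ℤ}
    (hu : u ∈ Uset) {E : ℕ} (hE : ExitE c N E) {i : ℕ} (hi : i ≤ E) {v : ℤ × ℤ}
    (h1 : |v.1 - ((c.leg N v₀ u).lv i).1| ≤ 1) (h2 : |v.2 - ((c.leg N v₀ u).lv i).2| ≤ 1) :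
    fce N (v₀ + u) v ∈ c.KF ∨
      (i = E ∧ 0 ≤ alon (c.leg N v₀ u).s ((c.leg N v₀ u).lv (E + 1)) v) := by
  rcases le_or_gt N i with h0 | h0
  · rw [fce_leg hc hN hN2 hu hE (i := i) (by omega) (by omega) h0]
    by_cases hi' : i = E
    · by_cases ha : alon (c.leg N v₀ u).s ((c.leg N v₀ u).lv (E + 1)) v < 0
      · exact Or.inl ha
      · exact Or.inr ⟨hi', not_lt.1 ha⟩
    · left
      have a1 := alon_lv (g := c.leg N v₀ u) (E + 1) i
      have hi2 : i + 1 ≤ E := by omega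
      unfold alon at a1 ⊢
      rw [abs_le] at h1 h2
      push_cast at a1
      rcases s_cases (c.leg N v₀ u) with h | h | h | h <;> rw [h] at a1 ⊢ <;> simp only at a1 ⊢ <;>
        omega
  · left
    obtain ⟨hq, hm, he⟩ := id hc
    obtain ⟨M, rfl⟩ := hN2
    have hM : (4 : ℤ) ≤ M := by omega
    have hN' : (0 : ℤ) < (4 * M : ℕ) := by push_cast; omega
    have hH : ((4 * M : ℕ) : ℤ) / 2 = 2 * M := by push_cast; omega
    have hu2 : u.2 = 0 ∧ (u.1 = 0 ∨ u.1 = 1) := by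
      rcases hu with rfl | rfl <;> simp
    have hb1 : (v₀ + u).1 = v₀.1 + u.1 := rfl
    have hb2 : (v₀ + u).2 = v₀.2 + u.2 := rfl
    have h0' : (i : ℤ) < 4 * M := by exact_mod_cast h0
    have h0'' : (0 : ℤ) ≤ i := by positivity
    obtain ⟨l1, l2, l3, l4⟩ := mem_KF_line (F := fce (4 * M) (v₀ + u) v) hc
    rcases hh : c.hor with _ | _ <;> rcases hp : c.pos with _ | _
    · obtain ⟨e1, e2⟩ := leg_nn (N := 4 * M) (v₀ := v₀) (u := u) hh hp
      rw [(e2 i).1, hH, abs_le] at h1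
      rw [(e2 i).2, hH, abs_le] at h2
      simp only [fce] at l4 ⊢
      push_cast at h1
      rw [l4 hh ?_ hp, le_dv hN', dv_le hN']
      · push_cast
        have : (4 : ℤ) * M * 4 ≤ 4 * M * c.e := by nlinarith
        constructor <;> linarith
      · refine le_antisymm ((dv_le hN').2 ?_) ((le_dv hN').2 ?_)
        · push_cast; rcases hu2.2 with h | h <;> linarith
        · push_cast; rcases hu2.2 with h | h <;> linarith
    · obtain ⟨e1, e2⟩ := leg_np (N := 4 * M) (v₀ := v₀) (u := u) hh hp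
      rw [(e2 i).1, hH, abs_le] at h1
      rw [(e2 i).2, hH, abs_le] at h2
      simp only [fce] at l3 ⊢
      push_cast at h1
      rw [l3 hh ?_ hp, le_dv hN', dv_le hN']
      · push_cast
        have : (4 : ℤ) * M * 4 ≤ 4 * M * c.e := by nlinarith
        constructor <;> linarith
      · refine le_antisymm ((dv_le hN').2 ?_) ((le_dv hN').2 ?_)
        · push_cast; rcases hu2.2 with h | h <;> linarith
        · push_cast; rcases hu2.2 with h | h <;> linarith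
    · obtain ⟨e1, e2⟩ := leg_pn (N := 4 * M) (v₀ := v₀) (u := u) hh hp
      rw [(e2 i).1, abs_le] at h1
      rw [(e2 i).2, hH, abs_le] at h2
      refine fce_box hc (by omega) ?_ ?_ ?_ ?_ <;> push_cast <;> linarith
    · obtain ⟨e1, e2⟩ := leg_pp (N := 4 * M) (v₀ := v₀) (u := u) hh hp
      rw [(e2 i).1, abs_le] at h1
      rw [(e2 i).2, hH, abs_le] at h2
      refine fce_box hc (by omega) ?_ ?_ ?_ ?_ <;> push_cast <;> linarith

/-- The squares of `O E`: a neighbour is in a face of the cut, or it is above the first square, or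
beyond the exit. -/
theorem fce_nbr {c : CutP} (hc : COk c) {N : ℕ} (hN : 16 ≤ N) (hN2 : 4 ∣ N) {v₀ u : ℤ × ℤ}
    (hu : u ∈ Uset) {E : ℕ} (hE : ExitE c N E) {v i : ℤ × ℤ} (hv : v ∈ (c.leg N v₀ u).O E)
    (h1 : |i.1 - v.1| ≤ 1) (h2 : |i.2 - v.2| ≤ 1) :
    fce N (v₀ + u) i ∈ c.KF ∨ (|i.1 - (v₀ + u).1| ≤ 1 ∧ i.2 = (v₀ + u).2 ∧ v ≠ i) ∨
      (v = (c.leg N v₀ u).lv E ∧ 0 ≤ alon (c.leg N v₀ u).s ((c.leg N v₀ u).lv (E + 1)) i) := by
  have hH : ((N : ℤ)) / 2 * 2 = N := by omega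
  have hu2 : u.2 = 0 ∧ (u.1 = 0 ∨ u.1 = 1) := by
    rcases hu with rfl | rfl <;> simp
  have hb1 : (v₀ + u).1 = v₀.1 + u.1 := rfl
  have hb2 : (v₀ + u).2 = v₀.2 + u.2 := rfl
  rw [LegP.mem_O] at hv
  have eb : (c.leg N v₀ u).b = v₀ + u := rfl
  have eH : (c.leg N v₀ u).H = (N : ℤ) / 2 := rfl
  rw [eb, eH] at hv
  rw [abs_le] at h1 h2
  rcases hv with ⟨k1, k2, k3⟩ | ⟨k1, k2, k3⟩ | ⟨j, hj, rfl⟩
  · rcases lt_or_ge i.2 (v₀ + u).2 with h | h
    · exact Or.inl (fce_box hc (by omega) (by omega) (by omega) (by omega) (by omega))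
    · refine Or.inr (Or.inl ⟨by rw [abs_le]; omega, by omega, ?_⟩)
      rintro rfl
      omega
  · left
    rcases hh : c.hor with _ | _
    · have e : (c.leg N v₀ u).base.1 = v₀.1 + 2 * c.m * N + (N : ℤ) / 2 := by
        simp [LegP.base, CutP.leg, hh]
      rw [e] at k2
      rcases lt_or_ge i.1 (v₀ + u).1 with h | h
      · exact fce_box hc (by omega) (by omega) (by omega) (by omega) (by omega)
      · refine fce_row hh (by omega) (by omega) ?_ (by omega) (by omega)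
        have : (2 * c.m + 1) * (N : ℤ) = 2 * c.m * N + N := by ring
        rw [this]
        omega
    · have e : (c.leg N v₀ u).base.1 = (v₀ + u).1 := by
        simp [LegP.base, CutP.leg, hh]
      rw [e] at k2
      exact fce_box hc (by omega) (by omega) (by omega) (by omega) (by omega)
  · rcases fce_lv hc hN hN2 hu hE hj (v := i) (by rw [abs_le]; omega) (by rw [abs_le]; omega) with
      h | ⟨rfl, h⟩
    · exact Or.inl h
    · exact Or.inr (Or.inr ⟨rfl, h⟩)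

/-- The faces of the squares in `O E`. -/
theorem fce_O {c : CutP} (hc : COk c) {N : ℕ} (hN : 16 ≤ N) (hN2 : 4 ∣ N) {v₀ u : ℤ × ℤ}
    (hu : u ∈ Uset) {E : ℕ} (hE : ExitE c N E) {v : ℤ × ℤ} (hv : v ∈ (c.leg N v₀ u).O E) :
    fce N (v₀ + u) v ∈ c.KF := by
  rcases fce_nbr hc hN hN2 hu hE hv (i := v) (by simp) (by simp) with h | h | ⟨rfl, h⟩
  · exact h
  · exact absurd rfl h.2.2
  · rw [alon_lv] at h
    push_cast at h
    omega

/-- **The inner polygon near the leg**, from its faces. -/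
theorem legPE_of {c : CutP} (hc : COk c) {N : ℕ} (hN : 16 ≤ N) (hN2 : 4 ∣ N) {v₀ u : ℤ × ℤ}
    (hu : u ∈ Uset) {E L : ℕ} (hE : ExitE c N E) (hEL : E < L) {SE : Finset (ℤ × ℤ)}
    (hKF : c.KF ⊆ SE) (hbox : ∀ F : ℤ × ℤ, F.2 = 0 → -1 ≤ F.1 → F.1 ≤ 0 → F ∈ SE)
    (hline : ∀ j, E < j → j ≤ L → ∀ i : ℤ × ℤ, |i.1 - ((c.leg N v₀ u).lv j).1| ≤ 2 →
      |i.2 - ((c.leg N v₀ u).lv j).2| ≤ 2 → fce N (v₀ + u) i ∈ SE → fce N (v₀ + u) i ∈ c.KF) :
    LegPE (c.leg N v₀ u) E L (sE SE N (v₀ + u)) := by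
  have hN0 : 0 < N := by omega
  have hN' : (0 : ℤ) < N := by exact_mod_cast hN0
  refine ⟨hEL, fun v hv => (mem_sE hN0).2 (hKF (fce_O hc hN hN2 hu hE hv)), ?_, ?_⟩
  · rintro v hv i ⟨w, hvw, hiw⟩ hi
    rw [mem_sE hN0] at hi
    unfold Crn at hvw hiw
    rcases fce_nbr hc hN hN2 hu hE hv (i := i) (by rw [abs_le]; omega) (by rw [abs_le]; omega) with
      h | ⟨h1, h2, -⟩ | h
    · exact absurd (hKF h) hi
    · refine absurd (hbox _ ?_ ?_ ?_) hi
      · simp only [fce]; rw [h2]; simp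
      · simp only [fce]
        rw [abs_le] at h1
        rw [le_dv hN']
        omega
      · simp only [fce]
        rw [abs_le] at h1
        rw [dv_le hN']
        omega
    · exact h
  · intro j h1 h2 i h3 h4
    have hNj : N ≤ j := by
      have he : 4 ≤ c.e := by have := hc.hq; have := hc.he; omega
      have h5 : (N : ℤ) * 4 ≤ N * c.e := by nlinarith
      unfold ExitE at hE
      have h6 : (N : ℤ) ≤ E + 1 := by
        rw [hE]
        rcases c.hor with _ | _ <;> rcases c.pos with _ | _ <;> simp only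
        · have : (N : ℤ) / 2 ≤ N := by omega
          linarith
        · have : 0 ≤ (N : ℤ) / 2 := by omega
          linarith
        · linarith
        · linarith
      omega
    rw [mem_sE hN0, ← fce_leg hc hN hN2 hu hE h3 h4 hNj]
    exact ⟨hline j h1 h2 i h3 h4, fun h => hKF h⟩

/-- The parameters of a cut. -/
theorem cok {ℓ ϱ μ d τ₀ : ℝ} {c : CutP} {D : Set ℂ} {w : ℂ} (C : CutC ℓ ϱ μ d τ₀ c D w) :
    COk c := by
  have h1 := C.hℓ
  have h2 := C.hμℓ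
  have h3 := C.hd
  have h4 := C.hqd
  have h5 := C.hq
  have h5' : (32 : ℝ) ≤ c.q := by exact_mod_cast h5
  have key : 14 * ((c.q : ℝ) + 3) * ℓ ≤ 7 / 32 * d := by nlinarith
  have h6 : ∀ x : ℝ, 7 / 32 * d < ℓ * x → 14 * ((c.q : ℝ) + 3) < x := by
    intro x hx
    have : 14 * ((c.q : ℝ) + 3) * ℓ < x * ℓ := by linarith
    exact lt_of_mul_lt_mul_right this h1.le
  refine ⟨by omega, C.hm, ?_⟩
  rcases hh : c.hor with _ | _
  · have h7 := abs_le.1 (C.posv hh).2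
    rcases hp : c.pos with _ | _
    · have h8 := (C.evn hh hp).2
      have h9 : (c.sg : ℝ) = -1 := by simp [CutP.sg, hp]
      rw [h9] at h7
      have h10 := h6 (c.e + 1) (by nlinarith [h7.1])
      have h11 : 14 * (c.q + 3) < c.e + 1 := by exact_mod_cast h10
      omega
    · have h8 := (C.evp hh hp).2
      have h9 : (c.sg : ℝ) = 1 := by simp [CutP.sg, hp]
      rw [h9] at h7
      have h10 := h6 (c.e + 2) (by nlinarith [h7.1])
      have h11 : 14 * (c.q + 3) < c.e + 2 := by exact_mod_cast h10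
      omega
  · have h7 := abs_le.1 (C.posh hh).2
    have h8 := (C.eh hh).2
    have h10 := h6 (2 * c.e + 3) (by nlinarith [h7.1])
    have h11 : 14 * (c.q + 3) < 2 * c.e + 3 := by exact_mod_cast h10
    omega

end Vale.Agent.P167.H450.CQ
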