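import Vale.Agent.P167.E6.Defs

/-!
# The boundary of a simply connected set of faces is one simple closed polygon

`exists_polygon`: a nonempty finite set of faces of `ℤ²` which is connected (through edges), has a
connected complement and has no pinch point is enclosed by a simple closed lattice polygon.
-/

namespace Vale.Agent.P167.H450

open Vale.Agent.P167.E6

/-- Directed edges: `(v, r)` is the edge from `v` to `v + dir r`. -/
abbrev DE := (ℤ × ℤ) × Fin 4

/-- Directed boundary edges: the left face is in `S`, the right face is not. -/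
def IsB (S : Finset (ℤ × ℤ)) (e : DE) : Prop := face e.1 e.2 ∈ S ∧ face e.1 (e.2 - 1) ∉ S

/-- The head of a directed edge. -/
def hd (e : DE) : ℤ × ℤ := e.1 + dir e.2

open Classical in
/-- The next boundary edge (turning left if possible). -/
noncomputable def nxt (S : Finset (ℤ × ℤ)) (e : DE) : DE :=
  if face (hd e) e.2 ∈ S then
    if face (hd e) (e.2 - 1) ∈ S then (hd e, e.2 - 1) else (hd e, e.2)
  else (hd e, e.2 + 1)

theorem face_head (v : ℤ × ℤ) (r : Fin 4) : face (v + dir r) (r + 1) = face v r := by
  obtain ⟨a, b⟩ := v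
  fin_cases r <;> simp [face, dir]

theorem face_head' (v : ℤ × ℤ) (r : Fin 4) : face (v + dir r) (r + 2) = face v (r - 1) := by
  obtain ⟨a, b⟩ := v
  fin_cases r <;> simp [face, dir]

variable {S : Finset (ℤ × ℤ)} {e e' : DE}

theorem IsB.head (h : IsB S e) : face (hd e) (e.2 + 1) ∈ S ∧ face (hd e) (e.2 + 2) ∉ S := by
  rw [hd, face_head, face_head']
  exact h

theorem sub_two (r : Fin 4) : r - 1 - 1 = r + 2 := by revert r; decide

theorem nxt_isB (h : IsB S e) : IsB S (nxt S e) := by
  have h1 := h.head
  unfold nxt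
  split_ifs with h2 h3
  · refine ⟨h3, ?_⟩
    show face (hd e) (e.2 - 1 - 1) ∉ S
    rw [sub_two]
    exact h1.2
  · exact ⟨h2, h3⟩
  · refine ⟨h1.1, ?_⟩
    show face (hd e) (e.2 + 1 - 1) ∉ S
    rwa [add_sub_cancel_right]

theorem nxt_fst (S : Finset (ℤ × ℤ)) (e : DE) : (nxt S e).1 = hd e := by
  unfold nxt
  split_ifs <;> rfl

theorem turn_inj (g : Fin 4 → Prop) [DecidablePred g] (r r' : Fin 4) (h1 : g (r + 1) ∧ ¬ g (r + 2))
    (h2 : g (r' + 1) ∧ ¬ g (r' + 2))
    (h : (if g r then if g (r - 1) then r - 1 else r else r + 1) =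
      (if g r' then if g (r' - 1) then r' - 1 else r' else r' + 1)) : r = r' := by
  by_contra hne
  fin_cases r <;> fin_cases r' <;> simp_all

theorem nxt_inj (h : IsB S e) (h' : IsB S e') (heq : nxt S e = nxt S e') : e = e' := by
  classical
  have hh : hd e = hd e' := by rw [← nxt_fst S e, heq, nxt_fst]
  have h1 := h.head
  have h2 := h'.head
  have h3 : (nxt S e).2 = (nxt S e').2 := by rw [heq]
  rw [← hh] at h2
  have e1 : ∀ e : DE, (nxt S e).2 = if face (hd e) e.2 ∈ S then
      if face (hd e) (e.2 - 1) ∈ S then e.2 - 1 else e.2 else e.2 + 1 := by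
    intro e
    unfold nxt
    split_ifs <;> rfl
  rw [e1, e1, ← hh] at h3
  have hr := turn_inj (fun s => face (hd e) s ∈ S) e.2 e'.2 h1 h2 h3
  obtain ⟨v, r⟩ := e
  obtain ⟨v', r'⟩ := e'
  simp only at hr
  subst hr
  simpa [hd] using hh

/-! ### Winding numbers of a closed set of directed edges -/

section wind

variable (C : Finset DE)

/-- Indicator of the directed edges of `C`. -/
def ch (e : DE) : ℤ := if e ∈ C then 1 else 0

/-- The weight of a vertical edge for the winding number of the face `F`. -/
def wt (F : ℤ × ℤ) (e : DE) : ℤ :=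
  if e.1.1 ≤ F.1 then
    if e.2 = 3 ∧ e.1.2 = F.2 + 1 then 1 else if e.2 = 1 ∧ e.1.2 = F.2 then -1 else 0
  else 0

/-- Winding number around the face `F`. -/
def wind (F : ℤ × ℤ) : ℤ := ∑ e ∈ C, wt F e

theorem wind_vert (i j : ℤ) :
    wind C (i, j) - wind C (i - 1, j) = ch C ((i, j + 1), 3) - ch C ((i, j), 1) := by
  have h : ∀ e : DE, wt (i, j) e - wt (i - 1, j) e =
      (if e = ((i, j + 1), 3) then 1 else 0) - (if e = ((i, j), 1) then 1 else 0) := by
    rintro ⟨⟨a, b⟩, r⟩
    simp only [wt, Prod.mk.injEq]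
    rcases lt_trichotomy a i with h | h | h
    · have h1 : a ≤ i := h.le
      have h2 : a ≤ i - 1 := by omega
      have h3 : a ≠ i := h.ne
      simp [h1, h2, h3]
    · subst h
      have h2 : ¬ a ≤ a - 1 := by omega
      simp only [le_refl, if_true, h2, if_false, sub_zero, true_and]
      by_cases hr3 : r = 3
      · subst hr3
        by_cases hb : b = j + 1 <;> simp [hb]
      · by_cases hr1 : r = 1
        · subst hr1
          by_cases hb : b = j <;> simp [hb]
        · simp [hr3, hr1]
    · have h1 : ¬ a ≤ i := by omega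
      have h2 : ¬ a ≤ i - 1 := by omega
      have h3 : a ≠ i := by omega
      simp [h1, h2, h3]
  unfold wind ch
  rw [← Finset.sum_sub_distrib, Finset.sum_congr rfl fun e _ => h e, Finset.sum_sub_distrib,
    Finset.sum_ite_eq', Finset.sum_ite_eq']

variable {C} in
theorem exists_low : ∃ m : ℤ, ∀ e ∈ C, m < e.1.1 := by
  obtain ⟨m, hm⟩ := (C.image fun e => e.1.1).bddBelow
  refine ⟨m - 1, fun e he => ?_⟩
  have h1 : m ≤ e.1.1 :=
    hm (Finset.mem_coe.2 (Finset.mem_image_of_mem (fun e : DE => e.1.1) he))
  omega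

/-- `C` is closed: every vertex has as many edges arriving as leaving. -/
def Closed : Prop :=
  ∀ v : ℤ × ℤ, ∑ r : Fin 4, ch C (v - dir r, r) = ∑ r : Fin 4, ch C (v, r)

variable {C} in
theorem wind_horiz (hC : Closed C) (i j : ℤ) :
    wind C (i, j) - wind C (i, j - 1) = ch C ((i, j), 0) - ch C ((i + 1, j), 2) := by
  obtain ⟨m, hm⟩ := exists_low (C := C)
  have hlow : ∀ i j, i ≤ m → wind C (i, j) = 0 := by
    intro i j hi
    refine Finset.sum_eq_zero fun e he => ?_
    have := hm e he
    have h1 : ¬ e.1.1 ≤ i := by omega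
    simp [wt, h1]
  have hch : ∀ e : DE, e.1.1 ≤ m → ch C e = 0 := by
    intro e he
    unfold ch
    rw [if_neg]
    intro h
    have := hm e h
    omega
  have key : ∀ n : ℕ, ∀ j, wind C (m - 1 + n, j) - wind C (m - 1 + n, j - 1) =
      ch C ((m - 1 + n, j), 0) - ch C ((m - 1 + n + 1, j), 2) := by
    intro n
    induction n with
    | zero =>
      intro j
      rw [hlow _ _ (by push_cast; omega), hlow _ _ (by push_cast; omega),
        hch _ (by push_cast; omega), hch _ (by push_cast; omega)]
    | succ n ih =>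
      intro j
      have h1 := wind_vert C (m - 1 + (n + 1 : ℕ)) j
      have h2 := wind_vert C (m - 1 + (n + 1 : ℕ)) (j - 1)
      have h3 := ih j
      have h4 := hC (m - 1 + (n + 1 : ℕ), j)
      simp only [Fin.sum_univ_four, dir] at h4
      have e1 : m - 1 + ((n + 1 : ℕ) : ℤ) - 1 = m - 1 + n := by push_cast; ring
      have e2 : j - 1 + 1 = j := by ring
      rw [e1] at h1 h2
      rw [e2] at h2
      simp only [Matrix.cons_val_zero, Matrix.cons_val_one, Matrix.cons_val, Prod.mk_sub_mk,
        sub_zero, sub_neg_eq_add, e1] at h4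
      have e3 : m - 1 + (n : ℤ) + 1 = m - 1 + ((n + 1 : ℕ) : ℤ) := by push_cast; ring
      rw [e3] at h3
      linarith
  rcases le_total i (m - 1) with hi | hi
  · rw [hlow _ _ (by omega), hlow _ _ (by omega), hch _ (show i ≤ m by omega),
      hch _ (show i + 1 ≤ m by omega)]
  · obtain ⟨n, hn⟩ := Int.eq_ofNat_of_zero_le (show 0 ≤ i - (m - 1) by omega)
    have : i = m - 1 + n := by omega
    rw [this]
    exact key n j

variable {C} in
/-- The winding numbers on the two sides of an edge. -/
theorem wind_edge (hC : Closed C) (v : ℤ × ℤ) (r : Fin 4) :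
    wind C (face v r) - wind C (face v (r - 1)) = ch C (v, r) - ch C (hd (v, r), r + 2) := by
  obtain ⟨i, j⟩ := v
  fin_cases r
  · have := wind_horiz hC i j
    rw [show j - 1 = j + -1 from rfl] at this
    simpa [face, hd, dir] using this
  · have := wind_vert C i j
    rw [show (i - 1 : ℤ) = i + -1 from rfl] at this
    simp [face, hd, dir]
    linarith
  · have := wind_horiz hC (i - 1) j
    rw [show (i - 1 : ℤ) = i + -1 from rfl, show j - 1 = j + -1 from rfl,
      show i + -1 + 1 = i by ring] at this
    simp [face, hd, dir]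
    linarith
  · have := wind_vert C i (j - 1)
    rw [show (i - 1 : ℤ) = i + -1 from rfl, show j - 1 = j + -1 from rfl,
      show j + -1 + 1 = j by ring] at this
    simp [face, hd, dir]
    linarith

end wind

/-! ### Orbits of boundary edges are closed -/

/-- A set of boundary edges which is stable under `nxt` is closed. -/
theorem closed_of_stable {C : Finset DE} (hB : ∀ e ∈ C, IsB S e) (hs : ∀ e ∈ C, nxt S e ∈ C) :
    Closed C := by
  classical
  have hinj : Set.InjOn (nxt S) C := fun e he e' he' h => nxt_inj (hB e he) (hB e' he') h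
  have himg : C.image (nxt S) = C := by
    apply Finset.eq_of_subset_of_card_le
    · intro x hx
      obtain ⟨e, he, rfl⟩ := Finset.mem_image.1 hx
      exact hs e he
    · rw [Finset.card_image_of_injOn hinj]
  intro v
  have h1 : ∑ r : Fin 4, ch C (v, r) = ∑ e ∈ C, if e.1 = v then (1 : ℤ) else 0 := by
    have : ∀ e ∈ C, (if e.1 = v then (1 : ℤ) else 0) = ∑ r : Fin 4, if e = (v, r) then 1 else 0 := by
      intro e _
      obtain ⟨u, s⟩ := e
      by_cases h : u = v
      · subst h
        simp
      · simp [h]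
    rw [Finset.sum_congr rfl this, Finset.sum_comm]
    refine Finset.sum_congr rfl fun r _ => ?_
    rw [Finset.sum_ite_eq', ch]
  have h2 : ∑ r : Fin 4, ch C (v - dir r, r) = ∑ e ∈ C, if hd e = v then (1 : ℤ) else 0 := by
    have : ∀ e ∈ C, (if hd e = v then (1 : ℤ) else 0) =
        ∑ r : Fin 4, if e = (v - dir r, r) then 1 else 0 := by
      intro e _
      obtain ⟨u, s⟩ := e
      by_cases h : u + dir s = v
      · subst h
        simp only [hd, if_true]
        rw [Finset.sum_eq_single s]
        · simp
        · intro r _ hr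
          rw [if_neg]
          intro h
          exact hr (Prod.ext_iff.1 h).2.symm
        · simp
      · simp only [hd, h, if_false]
        symm
        refine Finset.sum_eq_zero fun r _ => ?_
        rw [if_neg]
        intro h'
        apply h
        obtain ⟨h1, h2⟩ := Prod.ext_iff.1 h'
        simp only at h1 h2
        rw [h1, h2]
        simp
    rw [Finset.sum_congr rfl this, Finset.sum_comm]
    refine Finset.sum_congr rfl fun r _ => ?_
    rw [Finset.sum_ite_eq', ch]
  have h3 : ∑ e ∈ C.image (nxt S), (if e.1 = v then (1 : ℤ) else 0) =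
      ∑ e ∈ C, if hd e = v then (1 : ℤ) else 0 := by
    rw [Finset.sum_image hinj]
    refine Finset.sum_congr rfl fun e _ => ?_
    rw [nxt_fst]
  rw [h1, h2, ← h3, himg]

/-- Connectedness of a set of faces through edges. -/
def Conn (A : Set (ℤ × ℤ)) : Prop :=
  ∀ F ∈ A, ∀ F' ∈ A, Relation.ReflTransGen (fun a b => b ∈ A ∧ ∃ r, b = a + dir r) F F'

/-- No pinch points. -/
def NoPinch (S : Finset (ℤ × ℤ)) : Prop :=
  ∀ v r, ¬ (face v r ∈ S ∧ face v (r + 1) ∉ S ∧ face v (r + 2) ∈ S ∧ face v (r + 3) ∉ S)

/-- The neighbours of a face are seen through its edges. -/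
theorem exists_edge (F : ℤ × ℤ) (s : Fin 4) : ∃ v r, face v r = F ∧ face v (r - 1) = F + dir s := by
  obtain ⟨i, j⟩ := F
  fin_cases s
  · exact ⟨(i + 1, j), 1, by simp [face], by simp [face, dir]⟩
  · exact ⟨(i + 1, j + 1), 2, by simp [face], by simp [face, dir]⟩
  · exact ⟨(i, j + 1), 3, by simp [face], by simp [face, dir]⟩
  · exact ⟨(i, j), 0, by simp [face], by simp [face, dir]⟩

theorem rev_face (v : ℤ × ℤ) (r : Fin 4) :
    face (hd (v, r)) (r + 2) = face v (r - 1) ∧ face (hd (v, r)) (r + 2 - 1) = face v r := by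
  refine ⟨face_head' v r, ?_⟩
  have : r + 2 - 1 = r + 1 := by revert r; decide
  rw [this]
  exact face_head v r

/-- **One cycle.** -/
theorem one_cycle (hS : Conn S) (hT : Conn {F | F ∉ S}) {C : Finset DE} (hne : C.Nonempty)
    (hB : ∀ e ∈ C, IsB S e) (hs : ∀ e ∈ C, nxt S e ∈ C) (e : DE) (he : IsB S e) : e ∈ C := by
  have hC := closed_of_stable hB hs
  -- the winding number is constant on `S` and on the complement
  have hconst : ∀ A : Set (ℤ × ℤ), (∀ F F', F ∈ A → F' ∈ A → ((F ∈ S) ↔ (F' ∈ S))) → Conn A →
      ∀ F ∈ A, ∀ F' ∈ A, wind C F = wind C F' := by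
    intro A hA hcon F hF F' hF'
    have := hcon F hF F' hF'
    induction this with
    | refl => rfl
    | tail h1 h2 ih =>
      rename_i b c
      obtain ⟨hc, s, rfl⟩ := h2
      have hb : b ∈ A := by
        rcases Relation.ReflTransGen.cases_tail h1 with h | ⟨d, -, h⟩
        · rw [← h] at hF; exact hF
        · exact h.1
      rw [ih hb]
      obtain ⟨v, r, h3, h4⟩ := exists_edge b s
      have h5 := wind_edge hC v r
      have h6 : ch C (v, r) = 0 := by
        unfold ch
        rw [if_neg]
        intro h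
        have := hB _ h
        unfold IsB at this
        simp only [h3, h4] at this
        exact this.2 ((hA _ _ hb hc).1 this.1)
      have h7 : ch C (hd (v, r), r + 2) = 0 := by
        unfold ch
        rw [if_neg]
        intro h
        have := hB _ h
        unfold IsB at this
        simp only [rev_face, h3, h4] at this
        exact this.2 ((hA _ _ hb hc).2 this.1)
      rw [h6, h7, h3, h4] at h5
      linarith
  have hcS := hconst S (fun F F' h h' => iff_of_true h h') hS
  have hcT := hconst {F | F ∉ S} (fun F F' h h' => iff_of_false h h') hT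
  have hrev : ∀ e : DE, IsB S e → ch C (hd e, e.2 + 2) = 0 := by
    intro e he
    unfold ch
    rw [if_neg]
    intro h
    have := hB _ h
    unfold IsB at this
    have h2 := rev_face e.1 e.2
    exact this.2 (h2.2 ▸ he.1)
  obtain ⟨e0, he0⟩ := hne
  have h0 := hB e0 he0
  have h1 := wind_edge hC e0.1 e0.2
  have h2 := wind_edge hC e.1 e.2
  have h3 : ch C (e0.1, e0.2) = 1 := by simp [ch, he0]
  rw [h3, hrev e0 h0] at h1
  rw [hrev e he] at h2
  have h4 := hcS _ h0.1 _ he.1
  have h5 := hcT _ h0.2 _ he.2
  have h6 : ch C (e.1, e.2) = 1 := by linarith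
  by_contra hc
  simp [ch, hc] at h6

theorem eq_of_tail (hP : NoPinch S) (h : IsB S e) (h' : IsB S e') (ht : e.1 = e'.1) : e = e' := by
  obtain ⟨v, r⟩ := e
  obtain ⟨v', r'⟩ := e'
  simp only at ht
  subst ht
  have hr : r = r' := by
    have hP' := hP v
    unfold IsB at h h'
    simp only at h h'
    by_contra hne
    have h1 : r' = r + 1 ∨ r' = r + 2 ∨ r' = r + 3 := by
      clear h h' hP hP'
      revert r r'; decide
    rcases h1 with rfl | rfl | rfl
    · rw [add_sub_cancel_right] at h'
      exact h'.2 h.1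
    · refine hP' r ⟨h.1, ?_, h'.1, ?_⟩
      · have := h'.2
        rwa [show r + 2 - 1 = r + 1 by clear * -; revert r; decide] at this
      · have := h.2
        rwa [show r - 1 = r + 3 by clear * -; revert r; decide] at this
    · have := h'.1
      rw [show r + 3 = r - 1 by clear * -; revert r; decide] at this
      exact h.2 this
  rw [hr]

theorem finite_isB (S : Finset (ℤ × ℤ)) : {e | IsB S e}.Finite := by
  classical
  apply Set.Finite.subset (Finset.finite_toSet
    ((S ×ˢ (Finset.univ : Finset (Fin 4))).image fun q => (q.1 - face (0, 0) q.2, q.2)))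
  intro e he
  simp only [Finset.coe_image, Set.mem_image, Finset.mem_coe, Finset.mem_product, Finset.mem_univ,
    and_true]
  refine ⟨(face e.1 e.2, e.2), he.1, ?_⟩
  obtain ⟨v, r⟩ := e
  obtain ⟨a, b⟩ := v
  fin_cases r <;> simp [face]

theorem exists_isB (hne : S.Nonempty) : ∃ e, IsB S e := by
  obtain ⟨F, hF, hmax⟩ := S.exists_max_image (fun F => F.1) hne
  refine ⟨((F.1 + 1, F.2), 1), ?_, ?_⟩
  · show face (F.1 + 1, F.2) 1 ∈ S
    simpa [face] using hF
  · show face (F.1 + 1, F.2) (1 - 1) ∉ S
    intro h
    have := hmax _ h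
    simp [face] at this

theorem iterate_isB (h : IsB S e) (k : ℕ) : IsB S ((nxt S)^[k] e) := by
  induction k with
  | zero => exact h
  | succ k ih =>
    rw [Function.iterate_succ_apply']
    exact nxt_isB ih

theorem periodic_of_isB (h : IsB S e) : 0 < Function.minimalPeriod (nxt S) e := by
  apply Function.minimalPeriod_pos_of_mem_periodicPts
  have hinf : ¬ Function.Injective fun k : ℕ => (nxt S)^[k] e := by
    intro hinj
    have : (Set.range fun k : ℕ => (nxt S)^[k] e).Finite :=
      (finite_isB S).subset (by rintro _ ⟨k, rfl⟩; exact iterate_isB h k)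
    exact Set.infinite_range_of_injective hinj this
  rw [Function.Injective] at hinf
  push Not at hinf
  obtain ⟨a, b, hab, hne⟩ := hinf
  wlog hlt : a < b generalizing a b
  · exact this b a hab.symm hne.symm (by omega)
  have hcancel : ∀ a b : ℕ, a ≤ b → (nxt S)^[a] e = (nxt S)^[b] e → (nxt S)^[b - a] e = e := by
    intro a
    induction a with
    | zero => intro b _ hb; simpa using hb.symm
    | succ a ih =>
      intro b hb hab
      obtain ⟨c, rfl⟩ : ∃ c, b = c + 1 := ⟨b - 1, by omega⟩
      rw [Function.iterate_succ_apply', Function.iterate_succ_apply'] at hab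
      have := nxt_inj (iterate_isB h a) (iterate_isB h c) hab
      have := ih c (by omega) this
      rwa [show c + 1 - (a + 1) = c - a by omega]
  exact ⟨b - a, by omega, hcancel a b hlt.le hab⟩

/-- **A connected set of faces with connected complement and without pinch points is enclosed by a
simple closed polygon.** -/
theorem exists_polygon (hne : S.Nonempty) (hS : Conn S) (hT : Conn {F | F ∉ S})
    (hP : NoPinch S) : ∃ (n : ℕ) (p : ZMod n → ℤ × ℤ), IsPolygon p ∧ Encloses p S := by
  classical
  obtain ⟨e0, he0⟩ := exists_isB hne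
  set n := Function.minimalPeriod (nxt S) e0 with hn
  have hn0 : 0 < n := periodic_of_isB he0
  have : NeZero n := ⟨hn0.ne'⟩
  set p : ZMod n → ℤ × ℤ := fun i => ((nxt S)^[i.val] e0).1 with hp
  have hmod : ∀ k : ℕ, (nxt S)^[k % n] e0 = (nxt S)^[k] e0 :=
    fun k => Function.iterate_mod_minimalPeriod_eq
  have hval : ∀ i : ZMod n, (nxt S)^[(i + 1).val] e0 = nxt S ((nxt S)^[i.val] e0) := by
    intro i
    have h1 : (i + 1).val = (i.val + 1) % n := by
      rw [ZMod.val_add, ZMod.val_one_eq_one_mod, Nat.add_mod_mod]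
    rw [h1, ← Function.iterate_succ_apply' (nxt S), hmod]
  have hstep : ∀ i, p (i + 1) = p i + dir ((nxt S)^[i.val] e0).2 := by
    intro i
    simp only [hp]
    rw [hval, nxt_fst]
    rfl
  have hinj : Function.Injective p := by
    intro i j hij
    have h1 := eq_of_tail hP (iterate_isB he0 i.val) (iterate_isB he0 j.val) hij
    have h2 := (Function.iterate_injOn_Iio_minimalPeriod (f := nxt S) (x := e0))
      (Set.mem_Iio.2 (ZMod.val_lt i)) (Set.mem_Iio.2 (ZMod.val_lt j)) h1
    exact ZMod.val_injective n h2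
  refine ⟨n, p, ⟨?_, hinj, fun i => ⟨_, hstep i⟩⟩, ?_⟩
  · by_contra hlt
    have h2 : n = 1 ∨ n = 2 := by omega
    have hper : (nxt S)^[n] e0 = e0 := Function.iterate_minimalPeriod
    rcases h2 with h2 | h2
    · rw [h2] at hper
      have : hd e0 = e0.1 := by rw [← nxt_fst S, ← Function.iterate_one (nxt S), hper]
      obtain ⟨v, r⟩ := e0
      simp only [hd] at this
      have h3 : dir r = 0 := by simpa using this
      fin_cases r <;> simp [dir] at h3
    · rw [h2] at hper
      have h3 : nxt S (nxt S e0) = e0 := hper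
      have h4 : hd (nxt S e0) = e0.1 := by rw [← nxt_fst S, h3]
      have h5 : (nxt S e0).2 = e0.2 - 1 ∨ (nxt S e0).2 = e0.2 ∨ (nxt S e0).2 = e0.2 + 1 := by
        unfold nxt
        split_ifs <;> simp
      rw [hd, nxt_fst, hd, add_assoc] at h4
      have h6 : dir e0.2 + dir (nxt S e0).2 = 0 := by simpa using h4
      generalize (nxt S e0).2 = s at h5 h6
      generalize e0.2 = r at h5 h6
      have h7 : s = r + 2 := by
        clear * - h6
        fin_cases r <;> fin_cases s <;> simp [dir] at h6 ⊢
      rw [h7] at h5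
      clear * - h5
      revert h5; revert r; decide
  · intro v r
    constructor
    · rintro ⟨i, h1, h2⟩
      rw [hstep, h1] at h2
      have h3 : dir ((nxt S)^[i.val] e0).2 = dir r := by simpa using h2
      have h4 : ((nxt S)^[i.val] e0).2 = r := by
        generalize ((nxt S)^[i.val] e0).2 = s at h3
        fin_cases s <;> fin_cases r <;> simp [dir] at h3 ⊢
      have h5 : (nxt S)^[i.val] e0 = (v, r) := Prod.ext h1 h4
      have h6 := iterate_isB he0 i.val
      rw [h5] at h6
      exact h6
    · intro h
      set C : Finset DE := (Finset.range n).image fun k => (nxt S)^[k] e0 with hC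
      have hmem : ((v, r) : DE) ∈ C := by
        refine one_cycle hS hT ⟨e0, ?_⟩ ?_ ?_ _ h
        · exact Finset.mem_image.2 ⟨0, Finset.mem_range.2 hn0, rfl⟩
        · intro e he
          obtain ⟨k, -, rfl⟩ := Finset.mem_image.1 he
          exact iterate_isB he0 k
        · intro e he
          obtain ⟨k, -, rfl⟩ := Finset.mem_image.1 he
          refine Finset.mem_image.2 ⟨(k + 1) % n, Finset.mem_range.2 (Nat.mod_lt _ hn0), ?_⟩
          rw [hmod, Function.iterate_succ_apply']
      obtain ⟨k, hk, hk2⟩ := Finset.mem_image.1 hmem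
      rw [Finset.mem_range] at hk
      have hkv : ((k : ℕ) : ZMod n).val = k := ZMod.val_cast_of_lt hk
      refine ⟨(k : ZMod n), ?_, ?_⟩
      · simp only [hp, hkv, hk2]
      · rw [hstep]
        simp only [hp, hkv, hk2]

/-! ### Bricks -/

/-- The brick of a face. -/
def br (F : ℤ × ℤ) : ℤ × ℤ := ((F.1 + F.2) / 2, F.2)

/-- Unions of bricks have no pinch points. -/
theorem noPinch_of_bricks (h : ∀ F F', br F = br F' → (F ∈ S ↔ F' ∈ S)) : NoPinch S := by
  have key : ∀ v : ℤ × ℤ, (face v 0 ∈ S ↔ face v 1 ∈ S) ∨ (face v 2 ∈ S ↔ face v 3 ∈ S) := by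
    rintro ⟨a, b⟩
    rcases Int.even_or_odd (a + b) with h2 | h2
    · right
      apply h
      obtain ⟨c, hc⟩ := h2
      simp only [face, br, Matrix.cons_val, Prod.mk_add_mk, Prod.mk.injEq]
      constructor
      · omega
      · trivial
    · left
      apply h
      obtain ⟨c, hc⟩ := h2
      simp only [face, br, Matrix.cons_val_zero, Matrix.cons_val_one, Prod.mk_add_mk, Prod.mk.injEq]
      constructor
      · omega
      · trivial
  intro v r
  rintro ⟨h1, h2, h3, h4⟩
  rcases key v with h5 | h5
  · fin_cases r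
    · exact h2 (h5.1 h1)
    · exact h4 (h5.2 h1)
    · exact h4 (h5.1 h3)
    · exact h2 (h5.2 h3)
  · fin_cases r
    · exact h4 (h5.1 h3)
    · exact h2 (h5.2 h3)
    · exact h2 (h5.1 h1)
    · exact h4 (h5.2 h1)

end Vale.Agent.P167.H450
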