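import Vale.Agent.P167.H450.PosE2
import Vale.Agent.P167.CL.FinDefs

/-!
# P167, block CLOSE [ASM]: `PosE` and the foot, in the frame `Stp`

* `near_pos_ev`: two points of the slit domain which are near `w` have almost the same position;
* `foot_ev`: the corners of the exit square are conformally near the foot;
* `pose_ev`: the structure `PosE`.
The accuracy `ε` is controlled by `τ₀ + ϱ + 17 ℓ` alone, for fixed `κ` and `d`.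
-/

set_option autoImplicit false

open MeasureTheory Filter Topology Set Metric Complex

namespace Vale.Agent.P167.H450.PE

open Vale.Agent.P153.R2.R1
open Vale.Agent.P153.R2.L1 (HH)
open Vale.Agent.P164 (loewnerDomain Zf)
open Vale.Agent.P167.H531 Vale.Agent.P167.H558
open Vale.Agent.P167.E6 Vale.Agent.P167.E2 Vale.Agent.P167.H411
open Vale.Agent.P167.H756
open Vale.Agent.P167.CL Vale.Agent.P167.CL.G1 Vale.Agent.P167.H450.CQ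
open Vale.Agent.P167.H446 (Tm mem_Dsq sqr_fce uX)
open Vale.Agent.P167.H161 (zp)
open Vale.Agent.P167.H327 (xf)

/-- Two points of the slit domain near `w` have almost the same position. -/
theorem near_pos_ev {Φ : (ℝ × ℝ) ≃ₜ (ℝ × ℝ)} {ψ : ℂ → ℂ} {δ : ℕ → ℝ} {N k : ℕ → ℕ}
    {p : ∀ n, ZMod (N n) → ℤ × ℤ} {S : ℕ → Finset (ℤ × ℤ)} {ψn : ℕ → ℂ → ℂ}
    (H : Set6 Φ ψ δ N k p S ψn) {T R X Y κ' ε : ℝ} (hc : Cst T R X Y) (hκ' : κ' ≤ X / 8)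
    (hε : 0 < ε) : ∃ r₀ > 0, ∀ d τ₀ ϱ ℓ : ℝ, 0 < ℓ →
      ∀ᶠ n in atTop, ∀ (v₀ : ℤ × ℤ) (c : CutP) (w : ℂ),
        CutM ℓ (4 * ⌊ℓ / (4 * δ n)⌋₊) (Psi (δ n) ℓ (4 * ⌊ℓ / (4 * δ n)⌋₊) v₀ (ψn n))
          X κ' d ϱ τ₀ c w → ∀ (W : ℝ → ℝ) (t : ℝ), Drv T R W t →
        ∀ z ∈ ψn n '' loewnerDomain W t, ∀ z' : ℂ,
          dist (Tm (δ n) ℓ (4 * ⌊ℓ / (4 * δ n)⌋₊) v₀ z) w ≤ 8 * d →
          dist (Tm (δ n) ℓ (4 * ⌊ℓ / (4 * δ n)⌋₊) v₀ z') w ≤ 8 * d →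
          dist (Tm (δ n) ℓ (4 * ⌊ℓ / (4 * δ n)⌋₊) v₀ z) w +
            dist (Tm (δ n) ℓ (4 * ⌊ℓ / (4 * δ n)⌋₊) v₀ z') w ≤ r₀ →
          ∀ x : ℝ, Pos (ψn n) W t (ε / 2) {x} z' → Pos (ψn n) W t ε {x} z := by
  have hX0 := hc.hX0
  have hX8 : 8 * R ≤ X := by have := hc.hR; have := hc.hX; linarith
  have hX64 : 64 * T ≤ X ^ 2 := by have := hc.hT; have := hc.hX2; linarith
  obtain ⟨⟨η, hη, hsep⟩, -⟩ := CL.sep Φ ψ δ N k p S ψn H (2 * X) (ε / 64) (by positivity)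
  refine ⟨η, hη, fun d τ₀ ϱ ℓ hℓ => ?_⟩
  filter_upwards [hsep, dat_ev H (X := X) (κ := κ') (d := d) (τ₀ := τ₀) (ϱ := ϱ)
    (show κ' < X by linarith) hℓ] with n hsepn hdat
  intro v₀ c w hM W t hDr z hz z' hzw hz'w hzz x hx
  have D := hdat v₀ c w hM
  set N' : ℕ := 4 * ⌊ℓ / (4 * δ n)⌋₊ with hN'
  have hNp : 0 < N' := by have := D.hN; omega
  have hδ := D.hδ
  obtain ⟨a, ha, rfl⟩ := hz
  obtain ⟨b, hb, rfl, y, hy, hyd⟩ := hx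
  have ha0 : 0 < a.im := Vale.Agent.P164.im_pos_of_dom hDr.nn ha
  have hb0 : 0 < b.im := Vale.Agent.P164.im_pos_of_dom hDr.nn hb
  have haX : dist a X ≤ κ' := hM.nearX a ha0.le hzw
  have hbX : dist b X ≤ κ' := hM.nearX b hb0.le hz'w
  have hd1 : dist (ψn n a) (ψn n b) ≤ η := by
    have h3 := H446.le_dist_Tm (v₀ := v₀) hδ hℓ hNp (ψn n a) (ψn n b)
    have h4 := D.a1
    have h5 := dist_triangle_right (Tm (δ n) ℓ N' v₀ (ψn n a)) (Tm (δ n) ℓ N' v₀ (ψn n b)) w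
    have h6 : dist (ψn n a) (ψn n b) ≤ ℓ / (N' * δ n) * dist (ψn n a) (ψn n b) :=
      le_mul_of_one_le_left dist_nonneg h4
    linarith
  have han : ‖a‖ ≤ 2 * X := by
    have h3 : ‖a‖ ≤ dist a X + ‖(X : ℂ)‖ := by
      rw [dist_eq_norm]
      have := norm_add_le (a - X) (X : ℂ)
      rwa [sub_add_cancel] at this
    rw [Complex.norm_real, Real.norm_of_nonneg hX0.le] at h3
    linarith
  have h7 := hsepn a b ha0.le hb0.le han hd1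
  rw [dist_eq_norm] at haX hbX h7
  obtain ⟨-, -, h8⟩ := lip_X hX0 hX8 hX64 hDr ha0 hb0 (haX.trans hκ') (hbX.trans hκ')
  refine ⟨a, ha, rfl, y, hy, ?_⟩
  have h9 := dist_triangle (mb 1 Complex.I (Zf W a t)) (mb 1 Complex.I (Zf W b t))
    (mb 1 Complex.I (y : ℂ))
  linarith

/-! ### The exit -/

section leg

variable {n : ℕ} {p : ZMod n → ℤ × ℤ} {k : ℕ} {S : Finset (ℤ × ℤ)} {δ ℓ : ℝ} {N : ℕ}
  {ψ : ℂ → ℂ} {X κ d ϱ τ₀ : ℝ} {v₀ : ℤ × ℤ} {c : CutP} {w : ℂ}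

open Vale.Agent.P167.CL.LT

/-- The exit square is at distance at least `τ₀ + ϱ - 3 (ℓ / N)` of `w`, along the leg. -/
theorem al_exit_ge (H : LT.Dat p k S δ ℓ N ψ X κ d ϱ τ₀ v₀ c w) {u : ℤ × ℤ} (hu : u ∈ Uset) {E : ℕ}
    (hE : ExitE c N E) :
    τ₀ + ϱ - 3 * (ℓ / N) ≤ al c w (fc ℓ N v₀ ((c.leg N v₀ u).lv (E + 1))) := by
  obtain ⟨hu2, hu0, hu1⟩ := uset hu
  have u0 : (0 : ℝ) ≤ u.1 := by exact_mod_cast hu0
  have u1 : (u.1 : ℝ) ≤ 1 := by exact_mod_cast hu1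
  have h0 := H.ηp
  have h1 := H.ηℓ
  have h2 := H.N2η
  have h3 := H.Nη
  have hℓ := H.M.cut.hℓ
  have h5 : ℓ / N * (u.1 : ℝ) ≤ ℓ / N := by nlinarith
  have h6 : 0 ≤ ℓ / N * (u.1 : ℝ) := by positivity
  rw [al_lv, H.A_eq hu]
  have hEr : (((E + 1 : ℕ) : ℝ)) = ((E : ℤ) + 1 : ℤ) := by push_cast; rfl
  unfold ExitE at hE
  rw [hEr, hE]
  cases hh : c.hor
  · simp only [Bool.false_eq_true, if_false]
    cases hp : c.pos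
    · have hsg : c.sg = -1 := by simp [CutP.sg, hp]
      have e1 := (H.M.cut.evn hh hp).1
      rw [hsg]
      have e : ((c.e * (N : ℤ) - (N : ℤ) / 2 + 1 : ℤ) : ℝ) * (ℓ / N) = ℓ * c.e - ℓ / 2 + ℓ / N := by
        push_cast
        linear_combination (c.e : ℝ) * h3 - h2
      simp only
      rw [e]
      push_cast
      linarith
    · have hsg : c.sg = 1 := by simp [CutP.sg, hp]
      have e1 := (H.M.cut.evp hh hp).1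
      rw [hsg]
      have e : (((c.e + 1) * (N : ℤ) + (N : ℤ) / 2 : ℤ) : ℝ) * (ℓ / N) =
          ℓ * (c.e + 1) + ℓ / 2 := by
        push_cast
        linear_combination ((c.e : ℝ) + 1) * h3 + h2
      simp only
      rw [e]
      push_cast
      linarith
  · simp only [if_true]
    have e1 := (H.M.cut.eh hh).1
    cases hp : c.pos
    · have hsg : c.sg = -1 := by simp [CutP.sg, hp]
      rw [hsg] at e1 ⊢
      have e : (((2 * c.e + 1) * (N : ℤ) + 1 : ℤ) : ℝ) * (ℓ / N) = ℓ * (2 * c.e + 1) + ℓ / N := by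
        push_cast
        linear_combination (2 * (c.e : ℝ) + 1) * h3
      simp only
      rw [e]
      push_cast at e1 ⊢
      linarith
    · have hsg : c.sg = 1 := by simp [CutP.sg, hp]
      rw [hsg] at e1 ⊢
      have e : (((2 * c.e + 1) * (N : ℤ) : ℤ) : ℝ) * (ℓ / N) = ℓ * (2 * c.e + 1) := by
        push_cast
        linear_combination (2 * (c.e : ℝ) + 1) * h3
      simp only
      rw [e]
      push_cast at e1 ⊢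
      linarith

end leg

section exit

variable {s : Stg} {T R X Y Rd cd κ μ d τ₀ ρ εn ℓ ϱ : ℝ} {c : CutP} {w : ℂ}
  {F₀ : ℤ × ℤ} {W : ℝ → ℝ} {t : ℝ} {ip ia ib : ZMod s.mP}
  {n : ℕ} {p : ZMod n → ℤ × ℤ} {k : ℕ} {S : Finset (ℤ × ℤ)} {δ : ℝ} {N : ℕ} {ψ : ℂ → ℂ}
  {X' κ' : ℝ} {v₀ : ℤ × ℤ}

/-- The corners of the exit square are in the slit domain, near `w`. -/
theorem exit_mem (H : StgOf s T R X Y Rd cd κ μ d τ₀ ρ εn ℓ ϱ (Psi δ ℓ N v₀ ψ) c w F₀ W t ip ia ib)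
    (D : LT.Dat p k S δ ℓ N ψ X' κ' d ϱ τ₀ v₀ c w) {u : ℤ × ℤ} (hu : u ∈ Uset) {E L : ℕ}
    (hE : ExitE c N E) (hEL : E < L)
    (hL : dist (fc ℓ N v₀ ((c.leg N v₀ u).lv L)) w ≤ 64 * (ℓ / N)) {y : ℤ × ℤ}
    (hy : Crn ((c.leg N v₀ u).lv (E + 1)) y) :
    zp δ y ∈ ψ '' loewnerDomain W t ∧ dist (Tm δ ℓ N v₀ (zp δ y)) w ≤ τ₀ + ϱ + 9 * ℓ := by
  have hδ := D.hδ
  have hℓ := D.M.cut.hℓ
  have hN : 0 < N := by have := D.hN; omega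
  have hη := D.ηℓ
  have hη0 := D.ηp
  have hϱ := D.M.cut.hϱ
  have hτ := D.M.cut.hτ
  have hdd := D.M.cut.hd
  have h1 := mem_Dsq_zp hδ hy
  have h2 := dist_fc (v₀ := v₀) hδ hℓ hN h1 (a := (c.leg N v₀ u).lv (E + 1)) (by simp) (by simp)
  have h3 := dist_lv D hu hE hL (i := E + 1) (by omega) (by omega)
  have h4 := al_exit_ge D hu hE
  have h5 := D.tr_lv hu (E + 1)
  have h6 := dist_pw_le (c := c) (w := w) (z := fc ℓ N v₀ ((c.leg N v₀ u).lv (E + 1)))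
  set f := fc ℓ N v₀ ((c.leg N v₀ u).lv (E + 1)) with hf
  have h7 : al c w f ≤ τ₀ + ϱ + 8 * ℓ := by
    have h8 := al_sub_le (c := c) (w := w) (z := f) (u := w)
    have e : al c w w = 0 := by simp [al]
    rw [e, sub_zero, abs_le] at h8
    linarith [h8.2]
  have h9 := dist_triangle (Tm δ ℓ N v₀ (zp δ y)) f w
  refine ⟨?_, by linarith⟩
  have hs := H.ok
  have hmem : Tm δ ℓ N v₀ (zp δ y) ∈ s.D := by
    refine H.cut.cc.clr (al c w f) (by linarith) (by linarith) (mem_ball.2 ?_)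
    have h10 := dist_triangle (Tm δ ℓ N v₀ (zp δ y)) f (pw c w (al c w f))
    show dist (Tm δ ℓ N v₀ (zp δ y)) (pw c w (al c w f)) < _
    linarith
  have h11 := H446.mem_D_iff (v₀ := v₀) (ψ := ψ) (z := zp δ y) hs hδ hN
    (by rw [H.eψ, H.eℓ])
  rw [H.eℓ, H.eW, H.et] at h11
  exact h11.1 hmem

end exit

/-- **[FOOT]** the corners of the exit square are conformally near the foot. -/
theorem foot_ev {Φ : (ℝ × ℝ) ≃ₜ (ℝ × ℝ)} {ψ : ℂ → ℂ} {δ : ℕ → ℝ} {N k : ℕ → ℕ}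
    {p : ∀ n, ZMod (N n) → ℤ × ℤ} {S : ℕ → Finset (ℤ × ℤ)} {ψn : ℕ → ℂ → ℂ}
    (H : Set6 Φ ψ δ N k p S ψn) {T R X Y Rd cd κ ε : ℝ} (hRd : 0 < Rd) (hcd : 0 < cd)
    (hc : Cst T R X Y) (hκ : κ ≤ X / 8) (hε : 0 < ε) :
    ∃ r₀ > 0, ∀ d τ₀ ϱ ℓ : ℝ, 0 < ℓ → τ₀ + ϱ + 17 * ℓ ≤ r₀ → ∀ᶠ n in atTop,
      ∀ {A : Finset (Sym2 (ℤ × ℤ))} {j : ℕ} {W : ℝ → ℝ} {t c₀ ρ εn : ℝ} {v₀ : ℤ × ℤ} {c : CutP}
        {w : ℂ} {jf L E : ℤ × ℤ → ℕ} {s : Stg} {F₀ : ℤ × ℤ} {ip ia ib : ZMod s.mP}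
        {iE iaE : ZMod s.mE},
      Stp (p n) (k n) (S n) A j (δ n) ℓ (4 * ⌊ℓ / (4 * δ n)⌋₊) (ψn n) W t T R X Y Rd cd κ d ϱ τ₀ c₀
        ρ εn v₀ c w jf L E s F₀ ip ia ib iE iaE →
      (∀ u ∈ Uset, ∀ i : ℕ, jf u ≤ i → i < k n → Unr (p n) (k n) A j i) → ∀ u ∈ Uset,
        ∀ y, Crn ((c.leg (4 * ⌊ℓ / (4 * δ n)⌋₊) v₀ u).lv (E u + 1)) y →
          Pos (ψn n) W t ε {uX W t (xf (ψn n) (p n) (δ n) (jf u))} (zp (δ n) y) := by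
  obtain ⟨r₀, hr₀, hnp⟩ := near_pos_ev H hc hκ hε
  obtain ⟨δ₀, hδ₀, hpF⟩ := H327.posF (T := T) (R := R) (Y := Y) (ε := ε / 2) hRd hcd hc.hY0 hc.hY
    hc.hY2 (by positivity)
  refine ⟨r₀, hr₀, fun d τ₀ ϱ ℓ hℓ hr => ?_⟩
  filter_upwards [hnp d τ₀ ϱ ℓ hℓ, dat_ev H (X := X) (κ := κ) (d := d) (τ₀ := τ₀) (ϱ := ϱ)
    (show κ < X by have := hc.hX0; linarith) hℓ, delta_ev H hδ₀] with n hn hdat hδn
  intro A j W t c₀ ρ εn v₀ c w jf L E s F₀ ip ia ib iE iaE Q hun u hu y hy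
  have D := hdat v₀ c w Q.lat.toCutM
  have hdd := D.M.cut.hd
  have hϱ := D.M.cut.hϱ
  have hτ := D.M.cut.hτ
  obtain ⟨h1, h2⟩ := exit_mem Q.stg D hu (Q.lat.hE u hu) (Q.lat.hEL u hu) (Q.lat.endw u hu) hy
  have h3 := foot_near D (Q.lat.last u hu) (Q.lat.endw u hu)
  have h4 := (hpF Q.dat Q.isU Q.W0 hδn.2 (jf u) (Q.lat.jf_lt u hu) (hun u hu)).2.foot
  exact hn v₀ c w Q.lat.toCutM W t Q.dat.drv _ h1 _ (by linarith) (by linarith) (by linarith) _ h4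

/-- The faces of the squares of the box. -/
theorem fce_hbox {ρ ℓ : ℝ} {N : ℕ} {q Rb : ℤ} {b v : ℤ × ℤ} (hℓ : 0 < ℓ) (hN : 0 < N)
    (hq : 8 ≤ q) (h : (Rb : ℝ) ≤ ρ * N / ℓ) (h2 : 2 * ρ ≤ ℓ * q) (hv : v ∈ BR.hbox b Rb) :
    0 ≤ (fce N b v).2 ∧ (fce N b v).2 + 1 < q ∧ -q + 1 ≤ (fce N b v).1 ∧
      (fce N b v).1 + 1 < q := by
  have hN' : (0 : ℤ) < N := by exact_mod_cast hN
  have h3 : 2 * Rb ≤ q * N := by
    rw [le_div_iff₀ hℓ] at h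
    have h4 : (2 * Rb : ℝ) * ℓ ≤ (q * N) * ℓ := by nlinarith [(Nat.cast_nonneg N : (0 : ℝ) ≤ N)]
    have h5 := le_of_mul_le_mul_right h4 hℓ
    exact_mod_cast h5
  rw [BR.hbox, Finset.mem_product, Finset.mem_Icc, Finset.mem_Icc] at hv
  obtain ⟨⟨a1, a2⟩, a3, a4⟩ := hv
  have h6 : 4 * (N : ℤ) ≤ q * N - 4 * N := by nlinarith
  refine ⟨?_, ?_, ?_, ?_⟩
  · exact Int.ediv_nonneg (by linarith) hN'.le
  · rw [← lt_sub_iff_add_lt]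
    exact Int.ediv_lt_of_lt_mul hN' (by nlinarith)
  · exact (Int.le_ediv_iff_mul_le hN').2 (by nlinarith)
  · rw [← lt_sub_iff_add_lt]
    exact Int.ediv_lt_of_lt_mul hN' (by nlinarith)

/-- **[POSE]** the frozen squares outside of `PE` are conformally near the foot. -/
theorem pose_ev {Φ : (ℝ × ℝ) ≃ₜ (ℝ × ℝ)} {ψ : ℂ → ℂ} {δ : ℕ → ℝ} {N k : ℕ → ℕ}
    {p : ∀ n, ZMod (N n) → ℤ × ℤ} {S : ℕ → Finset (ℤ × ℤ)} {ψn : ℕ → ℂ → ℂ}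
    (H : Set6 Φ ψ δ N k p S ψn) {T R X Y Rd cd κ ε : ℝ} (hRd : 0 < Rd) (hcd : 0 < cd)
    (hc : Cst T R X Y) (hκ : κ ≤ X / 8) (hε : 0 < ε) :
    ∃ r₀ > 0, ∀ d τ₀ ϱ ℓ : ℝ, 0 < ℓ → τ₀ + ϱ + 17 * ℓ ≤ r₀ → ∀ᶠ n in atTop,
      ∀ {A : Finset (Sym2 (ℤ × ℤ))} {j : ℕ} {W : ℝ → ℝ} {t c₀ ρ εn : ℝ} {v₀ : ℤ × ℤ} {c : CutP}
        {w : ℂ} {jf L E : ℤ × ℤ → ℕ} {s : Stg} {F₀ : ℤ × ℤ} {ip ia ib : ZMod s.mP}
        {iE iaE : ZMod s.mE},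
      Stp (p n) (k n) (S n) A j (δ n) ℓ (4 * ⌊ℓ / (4 * δ n)⌋₊) (ψn n) W t T R X Y Rd cd κ d ϱ τ₀ c₀
        ρ εn v₀ c w jf L E s F₀ ip ia ib iE iaE →
      SmE εn X → 2 * ρ ≤ ℓ * c.q →
      (∀ u ∈ Uset, ∀ i : ℕ, jf u ≤ i → i < k n → Unr (p n) (k n) A j i) → ∀ u ∈ Uset,
        ∀ Rb : ℤ, (Rb : ℝ) ≤ ρ * (4 * ⌊ℓ / (4 * δ n)⌋₊ : ℕ) / ℓ →
          PosE (δ n) (ψn n) W t
            (kcs s.KB c (4 * ⌊ℓ / (4 * δ n)⌋₊) v₀ u (L u) (H192.dq (p n) (k n) (S n)))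
            (BR.hbox (v₀ + u) Rb) (sE s.SE (4 * ⌊ℓ / (4 * δ n)⌋₊) (v₀ + u)) ε
            (uX W t (xf (ψn n) (p n) (δ n) (jf u))) := by
  obtain ⟨r₀, hr₀, hnp⟩ := near_pos_ev H hc hκ hε
  obtain ⟨δ₀, hδ₀, hpF⟩ := H327.posF (T := T) (R := R) (Y := Y) (ε := ε / 2) hRd hcd hc.hY0 hc.hY
    hc.hY2 (by positivity)
  refine ⟨r₀, hr₀, fun d τ₀ ϱ ℓ hℓ hr => ?_⟩
  filter_upwards [hnp d τ₀ ϱ ℓ hℓ, dat_ev H (X := X) (κ := κ) (d := d) (τ₀ := τ₀) (ϱ := ϱ)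
    (show κ < X by have := hc.hX0; linarith) hℓ, delta_ev H hδ₀] with n hn hdat hδn
  intro A j W t c₀ ρ εn v₀ c w jf L E s F₀ ip ia ib iE iaE Q hSm hρq hun u hu Rb hRb
  have D := hdat v₀ c w Q.lat.toCutM
  have hdd := D.M.cut.hd
  have hϱ := D.M.cut.hϱ
  have hτ := D.M.cut.hτ
  have hNp : 0 < 4 * ⌊ℓ / (4 * δ n)⌋₊ := by have := D.hN; omega
  refine ⟨fun v hv z hz hzD hv' => ?_⟩
  obtain ⟨v', hv', hz'⟩ := hv'
  have hv2 : v ∈ frz (c.leg (4 * ⌊ℓ / (4 * δ n)⌋₊) v₀ u) (L u)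
      (sE s.KB (4 * ⌊ℓ / (4 * δ n)⌋₊) (v₀ + u)) ∪ BR.hbox (v₀ + u) Rb := by
    rw [Finset.mem_union] at hv ⊢
    exact hv.imp (fun h => (Finset.mem_inter.1 h).1) id
  have h1 := sq_near Q.stg hc hSm D hu (Q.lat.hE u hu) (Q.lat.hEL u hu).le (Q.lat.endw u hu)
    (fun v hv => fce_hbox hℓ hNp (by have := D.M.cut.hq; omega) hRb hρq hv) hv2 hz hv' hz'
  have h3 := foot_near D (Q.lat.last u hu) (Q.lat.endw u hu)
  have h4 := (hpF Q.dat Q.isU Q.W0 hδn.2 (jf u) (Q.lat.jf_lt u hu) (hun u hu)).2.foot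
  exact hn v₀ c w Q.lat.toCutM W t Q.dat.drv z hzD _ (by linarith) (by linarith) (by linarith) _ h4

end Vale.Agent.P167.H450.PE
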