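import Vale.Agent.P167.H531.AsmDefs
import Vale.Agent.P167.H531.Arm1

/-!
# P167, block CONT-ASM: [LABV], the visited faces are conformally near the origin
-/

set_option autoImplicit false

open MeasureTheory Set Metric Filter Topology

namespace Vale.Agent.P167.H450

open Vale.Agent.P167 Vale.Agent.P167.E6 Vale.Agent.P167.E2
open Vale.Agent.P167.H531
open Vale.Agent.P167.H634 (cf)
open Vale.Agent.P167.H756 (HConf Drv)
open Vale.Agent.P167.H947 (flow)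
open Vale.Agent.P164 (loewnerDomain Zf)
open Vale.Agent.P153.R2.R1 (mb)
open Vale.Agent.P153.R2.L1 (HH)
open Vale.Agent.P153.R2.STEP (gf_isHydro)
open Vale.Agent.P164 (gf)

/-! ### The hull -/

section hull

variable {T R u₀ : ℝ} {W : ℝ → ℝ} {t : ℝ}

theorem mem_dom_of (H : Drv T R W t) (hu : 0 < u₀) (hR : 64 * R ≤ u₀) (hT : 1024 * T ≤ u₀ ^ 2)
    {z : ℂ} (hz : 0 < z.im) (hn : u₀ / 8 ≤ ‖z‖) : z ∈ loewnerDomain W t := by
  have hR0 := H.R_nonneg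
  refine H.dom hz (by linarith) ?_
  have h1 : (u₀ / 8) ^ 2 ≤ ‖z‖ ^ 2 := by gcongr
  have h2 : (u₀ / 8) ^ 2 = u₀ ^ 2 / 64 := by ring
  linarith

/-- The points of the domain near the origin stay near the origin. -/
theorem zf_small (H : Drv T R W t) (hu : 0 < u₀) (hR : 64 * R ≤ u₀) (hT : 1024 * T ≤ u₀ ^ 2)
    {z : ℂ} (hz : z ∈ loewnerDomain W t) (hn : ‖z‖ ≤ u₀ / 8) : ‖Zf W z t‖ ≤ u₀ / 4 := by
  have hR0 := H.R_nonneg
  have hyd := gf_isHydro H.cont H.nn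
  have hK : HH \ loewnerDomain W t ⊆ ball ((0 : ℝ) : ℂ) (u₀ / 8) := by
    rintro w ⟨hw, hw'⟩
    by_contra hc
    rw [Complex.ofReal_zero, mem_ball_zero_iff, not_lt] at hc
    exact hw' (mem_dom_of H hu hR hT hw hc)
  have hM : ∀ w ∈ HH, ‖w - ((0 : ℝ) : ℂ)‖ = u₀ / 8 → ‖gf W w t - ((0 : ℝ) : ℂ)‖ ≤
      5 * u₀ / 32 := by
    intro w hw hwn
    rw [Complex.ofReal_zero, sub_zero] at hwn ⊢
    have hwd := mem_dom_of H hu hR hT hw hwn.ge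
    have h1 := (H.far (z := w) (by rw [hwn]; positivity) (by rw [hwn]; linarith)
      (by rw [hwn]; nlinarith)).2.2.1
    rw [H947.flow_gf H.nn H.cont.continuousOn hwd, hwn] at h1
    calc ‖gf W w t‖ = ‖(gf W w t - w) + w‖ := by rw [sub_add_cancel]
      _ ≤ ‖gf W w t - w‖ + ‖w‖ := norm_add_le _ _
      _ ≤ u₀ / 8 / 4 + u₀ / 8 := by rw [hwn]; linarith
      _ = 5 * u₀ / 32 := by ring
  have h2 := hyd.inner (x₀ := 0) (by positivity) hK hM z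
    (by rw [Vale.Agent.P153.R2.STEP.dom_compl H.nn]; exact hz)
    (by rw [Complex.ofReal_zero, sub_zero]; exact hn)
  rw [Complex.ofReal_zero, sub_zero] at h2
  have h3 := H.bdd t ⟨H.nn, le_rfl⟩
  have e : Zf W z t = gf W z t - (W t : ℂ) := by
    show Zf W z t = (Zf W z t + (W t : ℂ)) - (W t : ℂ)
    ring
  rw [e]
  refine (norm_sub_le _ _).trans ?_
  rw [Complex.norm_real, Real.norm_eq_abs]
  linarith

end hull

/-- Points of the half-plane which are close in the chart. -/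
theorem chart_small {u₀ : ℝ} (hu : 0 < u₀) : ∃ κ > 0, ∀ ζ ζ' : ℂ, 0 < ζ.im → 0 < ζ'.im →
    ‖ζ'‖ ≤ u₀ / 4 → dist (mb 1 Complex.I ζ) (mb 1 Complex.I ζ') ≤ κ → ‖ζ‖ ≤ u₀ / 2 := by
  refine ⟨u₀ / 4 / ((u₀ / 2 + 1) * (u₀ / 4 + 1)), by positivity, ?_⟩
  intro ζ ζ' hζ hζ' hn hd
  by_contra hc
  push Not at hc
  have h0 := H756.add_I_ne hζ.le
  have h0' := H756.add_I_ne hζ'.le
  have e : mb 1 Complex.I ζ - mb 1 Complex.I ζ' =
      2 * Complex.I * (ζ - ζ') / ((ζ + Complex.I) * (ζ' + Complex.I)) := by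
    rw [mb, mb, Complex.conj_I, sub_neg_eq_add, sub_neg_eq_add, one_mul, one_mul]
    field_simp
    ring
  rw [dist_eq_norm, e, norm_div, norm_mul, norm_mul, norm_mul, Complex.norm_I, mul_one] at hd
  have h2 : ‖(2 : ℂ)‖ = 2 := by norm_num
  rw [h2] at hd
  have hp : 0 < ‖ζ + Complex.I‖ := norm_pos_iff.2 h0
  have hp' : 0 < ‖ζ' + Complex.I‖ := norm_pos_iff.2 h0'
  have h3 : ‖ζ + Complex.I‖ ≤ ‖ζ‖ + 1 := by
    refine (norm_add_le _ _).trans ?_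
    rw [Complex.norm_I]
  have h4 : ‖ζ' + Complex.I‖ ≤ u₀ / 4 + 1 := by
    refine (norm_add_le _ _).trans ?_
    rw [Complex.norm_I]
    linarith
  have h5 : ‖ζ‖ / 2 ≤ ‖ζ - ζ'‖ := by
    have := norm_sub_norm_le ζ ζ'
    linarith
  rw [div_le_div_iff₀ (by positivity) (by positivity)] at hd
  -- `2 |ζ - ζ'| (u/2+1)(u/4+1) ≤ (u/4) |ζ+i| |ζ'+i|`
  have h6 : u₀ / 4 * (‖ζ + Complex.I‖ * ‖ζ' + Complex.I‖) ≤
      u₀ / 4 * ((‖ζ‖ + 1) * (u₀ / 4 + 1)) := by gcongr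
  have h7 : ‖ζ‖ * ((u₀ / 2 + 1) * (u₀ / 4 + 1)) ≤
      2 * ‖ζ - ζ'‖ * ((u₀ / 2 + 1) * (u₀ / 4 + 1)) := by
    gcongr
    linarith
  have h8 : ‖ζ‖ * (u₀ / 2 + 1) ≤ u₀ / 4 * (‖ζ‖ + 1) := by
    have h9 : 0 < u₀ / 4 + 1 := by positivity
    have h10 : ‖ζ‖ * (u₀ / 2 + 1) * (u₀ / 4 + 1) ≤ u₀ / 4 * (‖ζ‖ + 1) * (u₀ / 4 + 1) := by
      linarith
    exact le_of_mul_le_mul_right h10 h9
  nlinarith

/-! ### The corner points -/

theorem cpt_half (c : Medial) : cpt (1 / 2) c = pt (fc c) + (1 + Complex.I) / 2 := by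
  obtain ⟨v, r⟩ := c
  revert r
  refine forall4 ?_ ?_ ?_ ?_ <;> apply Complex.ext <;>
    simp only [cpt, fc, face0, face1, face2, face3, sq0, sq1, sq2, sq3, pt, Complex.add_re,
      Complex.add_im, Complex.mul_re, Complex.mul_im, Complex.ofReal_re, Complex.ofReal_im,
      Complex.div_ofNat_re, Complex.div_ofNat_im, Complex.one_re, Complex.one_im, Complex.I_re,
      Complex.I_im] <;> push_cast <;> ring

/-- The points between the corner and the centre are in the face. -/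
theorem cpt_face {θ : ℝ} (h0 : 0 ≤ θ) (h1 : θ ≤ 1 / 2) (c : Medial) :
    ((fc c).1 : ℝ) ≤ (cpt θ c).re ∧ (cpt θ c).re ≤ (fc c).1 + 1 ∧
      ((fc c).2 : ℝ) ≤ (cpt θ c).im ∧ (cpt θ c).im ≤ (fc c).2 + 1 := by
  obtain ⟨v, r⟩ := c
  revert r
  refine forall4 ?_ ?_ ?_ ?_ <;> rw [cpt_re, cpt_im] <;>
    simp only [fc, face0, face1, face2, face3, sq0, sq1, sq2, sq3] <;> push_cast <;>
    refine ⟨by linarith, by linarith, by linarith, by linarith⟩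

/-- The segment from the path to the centre of a visited face. -/
theorem seg_face {n : ℕ} {p : ZMod n → ℤ × ℤ} {k : ℕ} {S : Finset (ℤ × ℤ)}
    {A : Finset (Sym2 (ℤ × ℤ))} {δ : ℝ} (hδ : 0 < δ) {j : ℕ} (hj0 : 0 < j) (hj : j - 1 ≤ len p k A)
    {i : ℕ} (hi : i ≤ j - 1) (hf : fc (run p k A i) ∈ S) :
    ∃ C : Set ℂ, IsPreconnected C ∧ C ⊆ Om δ S \ pl p k δ A '' Icc 0 (j : ℝ) ∧
      cf δ (fc (run p k A i)) ∈ C ∧ (∀ x ∈ C, ∀ y ∈ C, dist x y ≤ δ) ∧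
      ∃ σ ∈ pl p k δ A '' Icc 0 (j : ℝ), σ ∈ Om δ S ∧ σ ∈ closure C := by
  set c := run p k A i with hc
  set γ : ℝ → ℂ := fun θ => (δ : ℂ) * cpt θ c with hγ
  have hγc : Continuous γ := by
    simp only [hγ, cpt]
    fun_prop
  set Pa : Set ℂ := pl p k δ A '' Icc 0 (j : ℝ) with hPa
  have hPc : IsClosed Pa := (isCompact_Icc.image (continuous_pl δ)).isClosed
  have hOm : ∀ θ ∈ Icc (1 / 4 : ℝ) (1 / 2), γ θ ∈ Om δ S := by
    intro θ hθ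
    refine (mem_Om hδ).2 ⟨fc c, hf, ?_⟩
    obtain ⟨h1, h2, h3, h4⟩ := cpt_face (by linarith [hθ.1]) hθ.2 c
    refine ⟨by linarith, by linarith, by linarith, by linarith⟩
  have hstart : γ (1 / 4) ∈ Pa := by
    refine ⟨((i + 1 : ℕ) : ℝ), ⟨by positivity, ?_⟩, ?_⟩
    · exact_mod_cast (by omega : i + 1 ≤ j)
    · unfold pl
      rw [lin_nat, xv_mid (by omega)]
  have hend : γ (1 / 2) ∉ Pa := by
    rintro ⟨s, hs, he⟩
    have h1 : lin (xv p k A) s = pt (fc c) + (1 + Complex.I) / 2 := by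
      rw [← cpt_half]
      exact mul_left_cancel₀ (by exact_mod_cast hδ.ne') he
    refine free_site (τ := j - 1) hj (z := pt (fc c) + (1 + Complex.I) / 2)
      (a := (fc c).1 - (fc c).2) (b := (fc c).1 + (fc c).2 + 1) ?_ ?_ hs.1 ?_ h1
    · simp [pt]
    · simp [pt]; ring
    · have : ((j - 1 : ℕ) : ℝ) + 1 = j := by
        rw [Nat.cast_sub hj0]; push_cast; ring
      rw [this]; exact hs.2
  -- the last point on the path
  set Θ : Set ℝ := Icc (1 / 4 : ℝ) (1 / 2) ∩ γ ⁻¹' Pa with hΘ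
  have hΘc : IsCompact Θ := isCompact_Icc.inter_right (hPc.preimage hγc)
  have hΘn : Θ.Nonempty := ⟨1 / 4, ⟨le_rfl, by norm_num⟩, hstart⟩
  obtain ⟨θ₀, ⟨⟨h1, h2⟩, h3⟩, hmax⟩ := hΘc.exists_isGreatest hΘn
  have h4 : θ₀ < 1 / 2 := by
    refine lt_of_le_of_ne h2 fun h => hend ?_
    rw [← h]; exact h3
  refine ⟨γ '' Ioc θ₀ (1 / 2), (isPreconnected_Ioc).image _ hγc.continuousOn, ?_,
    ⟨1 / 2, ⟨h4, le_rfl⟩, ?_⟩, ?_, γ θ₀, h3, hOm _ ⟨h1, h2⟩, ?_⟩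
  · rintro _ ⟨θ, hθ, rfl⟩
    have hθ' : θ ∈ Icc (1 / 4 : ℝ) (1 / 2) := ⟨h1.trans hθ.1.le, hθ.2⟩
    exact ⟨hOm θ hθ', fun hc => absurd (hmax ⟨hθ', hc⟩) (not_le.2 hθ.1)⟩
  · show (δ : ℂ) * cpt (1 / 2) c = _
    rw [cpt_half]
    rfl
  · rintro _ ⟨θ, hθ, rfl⟩ _ ⟨θ', hθ', rfl⟩
    show dist ((δ : ℂ) * cpt θ c) ((δ : ℂ) * cpt θ' c) ≤ δ
    rw [dist_eq_norm, ← mul_sub, norm_mul, Complex.norm_real, Real.norm_of_nonneg hδ.le]
    have h5 : cpt θ c - cpt θ' c = ((θ - θ' : ℝ) : ℂ) * E2.sq c.2 := by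
      unfold cpt; push_cast; ring
    have h6 : ‖E2.sq c.2‖ ≤ 2 := by
      refine (Complex.norm_le_abs_re_add_abs_im _).trans ?_
      rcases sq_re c.2 with h | h <;> rcases sq_im c.2 with h' | h' <;> rw [h, h'] <;> norm_num
    have h7 : |θ - θ'| ≤ 1 / 4 := by
      rw [abs_le]; constructor <;> linarith [hθ.1, hθ.2, hθ'.1, hθ'.2]
    rw [h5, norm_mul, Complex.norm_real, Real.norm_eq_abs]
    calc δ * (|θ - θ'| * ‖E2.sq c.2‖) ≤ δ * (1 / 4 * 2) := by gcongr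
      _ ≤ δ := by linarith
  · have h5 : θ₀ ∈ closure (Ioc θ₀ (1 / 2)) := by
      rw [closure_Ioc h4.ne]
      exact ⟨le_rfl, h4.le⟩
    exact image_closure_subset_closure_image hγc ⟨θ₀, h5, rfl⟩

/-- **[LABV]** -/
theorem s_labv : S_labv := by
  intro T R Rd cd Y u₀ hT hR hRd hcd hY0 hY hY2 hu hRu hTu
  obtain ⟨κ, hκ, hchart⟩ := chart_small hu
  obtain ⟨η, hη, hsm⟩ := H756.small_dom (T := T) (R := R) hRd hcd hY0 hY hY2 hκ
  refine ⟨η, hη, ?_⟩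
  intro n p k S A δ j ψ W t hj0 hδη hD i hi hf
  obtain ⟨C, hCc, hCs, hCf, hCd, σ, hσp, hσO, hσC⟩ := seg_face hD.hδ hj0 hD.hj hi hf
  rw [← hD.dom] at hCs
  obtain ⟨w, hw, hwe⟩ := hCs hCf
  refine ⟨w, hw, hwe, ?_⟩
  -- a point of `C` with small preimage
  obtain ⟨η', hη', hηe⟩ : ∃ z ∈ HH, ψ z = σ := by
    have : σ ∈ ψ '' HH := by rw [hD.dom0]; exact hσO
    exact this
  have hηn : η' ∉ loewnerDomain W t := by
    intro hc
    have : σ ∈ ψ '' loewnerDomain W t := ⟨η', hc, hηe⟩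
    rw [hD.dom] at this
    exact this.2 hσp
  have hηs : ‖η'‖ < u₀ / 8 := by
    by_contra hc
    push Not at hc
    exact hηn (mem_dom_of hD.drv hu hRu hTu hη' hc)
  set U : Set ℂ := HH ∩ ball 0 (u₀ / 8) with hU
  have hUo : IsOpen (ψ '' U) := H756.isOpen_img hD.conf.diff hD.conf.inj
    ((isOpen_lt continuous_const Complex.continuous_im).inter isOpen_ball) inter_subset_left
  have hσU : σ ∈ ψ '' U := ⟨η', ⟨hη', by rwa [mem_ball_zero_iff]⟩, hηe⟩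
  obtain ⟨z', ⟨w', ⟨hw'H, hw'b⟩, hw'e⟩, hz'C⟩ := mem_closure_iff_nhds.1 hσC _ (hUo.mem_nhds hσU)
  obtain ⟨w'', hw''d, hw''e⟩ := hCs hz'C
  have hLH : loewnerDomain W t ⊆ HH := fun z hz => by
    have h1 : z ∈ HH \ (HH \ loewnerDomain W t) := by
      rw [Vale.Agent.P153.R2.STEP.dom_compl hD.drv.nn]; exact hz
    exact h1.1
  have e1 : w'' = w' := hD.conf.inj (hLH hw''d) hw'H (by rw [hw''e, hw'e])
  subst e1
  rw [mem_ball_zero_iff] at hw'b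
  have h1 := zf_small hD.drv hu hRu hTu hw''d hw'b.le
  have h2 := hsm ψ hD.conf W t hD.drv C hCs hCc (fun x hx y hy => (hCd x hx y hy).trans hδη)
    w hw w'' hw''d (by rw [hwe]; exact hCf) (by rw [hw''e]; exact hz'C)
  exact hchart _ _ (Vale.Agent.P164.Zf_im_pos hD.drv.nn hw)
    (Vale.Agent.P164.Zf_im_pos hD.drv.nn hw''d) h1 h2

end Vale.Agent.P167.H450
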