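import Vale.Agent.P167.H450.OutZ
import Vale.Agent.P167.SG.Cls3

/-!
# The mark for the domains of a Loewner chain

`mk_of`: the data `Mk` of the mark exist for all domains of the class.
-/

set_option autoImplicit false

namespace Vale.Agent.P167.H450.Out

open Set Metric Filter Topology
open Vale.Agent.P153.R2.R1 (Conf dinv JCurve mb cc)
open Vale.Agent.P153.R2.L1 (HH)
open Vale.Agent.P164 (loewnerDomain gf Zf)
open Vale.Agent.P167.H756 (Cls FD FD_mb FD_img HConf Drv cls_FD)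
open Vale.Agent.P167.SG Vale.Agent.P167.H450

/-- The threshold of the real part. -/
noncomputable def xre (X : ℝ) : ℝ := ((2 * X) ^ 2 - 1) / ((2 * X) ^ 2 + 1)

theorem xre_lt (X : ℝ) : xre X < 1 := by
  unfold xre
  rw [div_lt_one (by positivity)]
  linarith

theorem xre_nonneg {X : ℝ} (h : 1 ≤ X) : 0 ≤ xre X := by
  unfold xre
  apply div_nonneg
  · nlinarith
  · positivity

/-- Safe positions are not near the pushed-in arc, except near `+ 1`. -/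
theorem safe_nr2 {σ ν s x3 : ℝ} {w : ℂ} (hσ : |σ| = 1) (hν : 0 ≤ ν) (hν1 : ν ≤ 1 / 16)
    (hs : 10 * ν < s) (hx : 4 * ν ≤ 1 - x3) (hν0 : 0 < ν) (h1 : s - 2 * ν ≤ ‖w + 1‖)
    (h2 : -(2 * ν) ≤ σ * w.im) (h : Nr2 σ ν w) : x3 < w.re := by
  obtain ⟨ω, o1, o2, o3⟩ := h
  have hσ2 : σ ^ 2 = 1 := by rw [← sq_abs, hσ]; norm_num
  have i1 : |w.im - ω.im| ≤ 2 * ν := by
    refine le_trans ?_ o3
    rw [dist_eq_norm, ← Complex.sub_im]; exact Complex.abs_im_le_norm _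
  have i2 : |w.re - ω.re| ≤ 2 * ν := by
    refine le_trans ?_ o3
    rw [dist_eq_norm, ← Complex.sub_re]; exact Complex.abs_re_le_norm _
  have i3 : σ * (w.im - ω.im) ≤ 2 * ν := by
    refine le_trans (le_abs_self _) ?_
    rw [abs_mul, hσ, one_mul]; exact i1
  have i4 : -(4 * ν) ≤ σ * ω.im := by linarith
  have i5 : ω.im ^ 2 ≤ (4 * ν) ^ 2 := by
    have : (σ * ω.im) ^ 2 = ω.im ^ 2 := by rw [mul_pow, hσ2, one_mul]
    rw [← this]
    apply sq_le_sq'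
    · linarith
    · linarith
  have i6 : ω.re ^ 2 + ω.im ^ 2 = 1 := by
    have : ‖ω‖ ^ 2 = ω.re ^ 2 + ω.im ^ 2 := by
      rw [← Complex.normSq_eq_norm_sq, Complex.normSq_apply]; ring
    rw [← this, o1]; norm_num
  have i7 : ‖w + 1‖ ≤ 2 * ν + ‖ω + 1‖ := by
    have : w + 1 = (w - ω) + (ω + 1) := by ring
    rw [this]
    refine (norm_add_le _ _).trans ?_
    rw [← dist_eq_norm]
    linarith
  have i8 : ‖ω + 1‖ ^ 2 = (ω.re + 1) ^ 2 + ω.im ^ 2 := by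
    rw [← Complex.normSq_eq_norm_sq, Complex.normSq_apply]
    simp only [Complex.add_re, Complex.add_im, Complex.one_re, Complex.one_im]
    ring
  rw [abs_le] at i2
  have hre : 0 ≤ ω.re := by
    by_contra hcon
    push Not at hcon
    have j1 : 6 * ν < ‖ω + 1‖ := by linarith
    have j2 : (6 * ν) ^ 2 < ‖ω + 1‖ ^ 2 := by
      apply pow_lt_pow_left₀ j1 (by positivity) (by norm_num)
    have j3 : -1 ≤ ω.re := by nlinarith
    have j4 : ω.re ≤ -(1 - 16 * ν ^ 2) := by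
      nlinarith
    nlinarith
  have k1 : 1 - 16 * ν ^ 2 ≤ ω.re := by nlinarith
  have k2 : 16 * ν ^ 2 ≤ ν := by nlinarith
  linarith

/-- A ball of the domain with positions in the core is in `U`. -/
theorem ball_U {ι : Type*} {F : ℂ → ℂ} {σ ε ε' xc e ν r ℓ m : ℝ} {κ : ι → Set ℂ}
    (H : Sit F σ ε ε' xc e ν r ℓ κ) (hem : e ≤ m) (hεm : ε ≤ m) (hm : 0 < m) (hm1 : m < 1)
    {x₀ : ℂ} {η : ℝ} (hb : ball x₀ η ⊆ F '' ball 0 1)
    (hp : ∀ w ∈ ball x₀ η, ‖dinv F w‖ < 1 - m) : ball x₀ η ⊆ Ug F σ ε ε' xc κ := fun w hw =>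
  H.mem_of_pos (hb hw) (core_mem H.obs hem hεm hm hm1 (hp w hw))

/-- The distance from a point to a box which does not contain it. -/
theorem bf_dist {xb r r' : ℝ} {x y : ℂ} (hx : x ∈ Bf xb r) (hy : y ∉ Bf xb r') :
    r' - r ≤ dist x y := by
  by_contra hcon
  push Not at hcon
  apply hy
  have h1 := bf_near hx (le_refl (dist x y))
  exact bf_mono (by linarith) h1

/-- The constants of the mark. -/
structure MC1 (Rd X3 X4 h₁ b₁ a₀ b₀ cθ sθ X5 x5 : ℝ) : Prop where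
  ha : 0 < a₀
  hab : a₀ < b₀
  hb1 : b₀ ≤ b₁
  hb2 : b₀ ≤ 1 / 2
  hb3 : b₀ ≤ sθ / 2
  hlog : 2 * Real.pi * (Real.pi * (Rd + 1) ^ 2) < h₁ ^ 2 * Real.log (b₀ / a₀)
  hc4 : xre X4 < cθ
  hc0 : 0 < cθ
  hc1 : cθ < 1
  hsθ0 : 0 < sθ
  hsθ2 : sθ ^ 2 = 1 - cθ ^ 2
  hX53 : X3 ≤ X5
  hx5e : x5 = (X5 / 2 - 1) / (X5 / 2 + 1)
  hx5a : 1 - x5 < (a₀ / 8) ^ 2 / 2
  hx5b : cθ < x5

theorem exists_mc1 {Rd X3 X4 h₁ b₁ : ℝ} (hRd : 0 < Rd) (hX4 : 1 ≤ X4) (hh₁ : 0 < h₁)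
    (hb₁ : 0 < b₁) : ∃ a₀ b₀ cθ sθ X5 x5 : ℝ, MC1 Rd X3 X4 h₁ b₁ a₀ b₀ cθ sθ X5 x5 := by
  have hx41 : xre X4 < 1 := xre_lt X4
  have hx40 : 0 ≤ xre X4 := xre_nonneg hX4
  obtain ⟨cθ, hcθ⟩ : ∃ c : ℝ, c = (1 + xre X4) / 2 := ⟨_, rfl⟩
  have hcθ0 : 0 < cθ := by rw [hcθ]; linarith
  have hcθ1 : cθ < 1 := by rw [hcθ]; linarith
  have hcθ4 : xre X4 < cθ := by rw [hcθ]; linarith
  have hsq : 0 < 1 - cθ ^ 2 := by nlinarith
  obtain ⟨sθ, hsθ0, hsθ2⟩ : ∃ s : ℝ, 0 < s ∧ s ^ 2 = 1 - cθ ^ 2 :=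
    ⟨√(1 - cθ ^ 2), Real.sqrt_pos.2 hsq, Real.sq_sqrt hsq.le⟩
  obtain ⟨b₀, hb₀0, hb₀1, hb₀2, hb₀3⟩ : ∃ b₀ : ℝ, 0 < b₀ ∧ b₀ ≤ b₁ ∧ b₀ ≤ 1 / 2 ∧ b₀ ≤ sθ / 2 :=
    ⟨min (min b₁ (1 / 2)) (sθ / 2), by positivity, (min_le_left _ _).trans (min_le_left _ _),
      (min_le_left _ _).trans (min_le_right _ _), min_le_right _ _⟩
  obtain ⟨A, hA⟩ : ∃ A : ℝ, A = Real.pi * (Rd + 1) ^ 2 := ⟨_, rfl⟩
  have hA0 : 0 < A := by rw [hA]; positivity
  obtain ⟨a₀, ha₀⟩ : ∃ a : ℝ, a = b₀ * Real.exp (-(2 * Real.pi * A / h₁ ^ 2 + 1)) := ⟨_, rfl⟩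
  have ha₀0 : 0 < a₀ := by rw [ha₀]; positivity
  have hexp1 : Real.exp (-(2 * Real.pi * A / h₁ ^ 2 + 1)) < 1 := by
    rw [Real.exp_lt_one_iff]
    have : 0 < 2 * Real.pi * A / h₁ ^ 2 := by positivity
    linarith
  have hab : a₀ < b₀ := by
    rw [ha₀]
    exact mul_lt_of_lt_one_right hb₀0 hexp1
  have hlog : 2 * Real.pi * A < h₁ ^ 2 * Real.log (b₀ / a₀) := by
    have e1 : b₀ / a₀ = Real.exp (2 * Real.pi * A / h₁ ^ 2 + 1) := by
      rw [ha₀, Real.exp_neg]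
      field_simp
    rw [e1, Real.log_exp]
    have : h₁ ^ 2 * (2 * Real.pi * A / h₁ ^ 2 + 1) = 2 * Real.pi * A + h₁ ^ 2 := by
      field_simp
    rw [this]
    have : 0 < h₁ ^ 2 := by positivity
    linarith
  obtain ⟨δ', hδ'⟩ : ∃ d : ℝ, d = a₀ / 8 := ⟨_, rfl⟩
  have hδ'0 : 0 < δ' := by rw [hδ']; positivity
  obtain ⟨X5, hX53, hX5a⟩ : ∃ X5 : ℝ, X3 ≤ X5 ∧ 16 / δ' ^ 2 + 4 / (1 - cθ) ≤ X5 :=
    ⟨max X3 (16 / δ' ^ 2 + 4 / (1 - cθ)), le_max_left _ _, le_max_right _ _⟩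
  have h1c : 0 < 1 - cθ := by linarith
  have hp1 : 0 < 16 / δ' ^ 2 := by positivity
  have hp2 : 0 < 4 / (1 - cθ) := by positivity
  have hX50 : 0 < X5 := by linarith
  have hx5e : 1 - (X5 / 2 - 1) / (X5 / 2 + 1) = 2 / (X5 / 2 + 1) := by
    field_simp
    ring
  refine ⟨a₀, b₀, cθ, sθ, X5, (X5 / 2 - 1) / (X5 / 2 + 1),
    { ha := ha₀0
      hab := hab
      hb1 := hb₀1
      hb2 := hb₀2
      hb3 := hb₀3
      hlog := by rw [← hA]; exact hlog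
      hc4 := hcθ4
      hc0 := hcθ0
      hc1 := hcθ1
      hsθ0 := hsθ0
      hsθ2 := hsθ2
      hX53 := hX53
      hx5e := rfl
      hx5a := ?_
      hx5b := ?_ }⟩
  · rw [← hδ', hx5e, div_lt_iff₀ (by positivity)]
    have h1 : δ' ^ 2 * (16 / δ' ^ 2) = 16 := by field_simp
    have h2 : δ' ^ 2 * (16 / δ' ^ 2) ≤ δ' ^ 2 * X5 :=
      mul_le_mul_of_nonneg_left (by linarith) (sq_nonneg δ')
    nlinarith [sq_nonneg δ']
  · have h3 : 1 - (X5 / 2 - 1) / (X5 / 2 + 1) < 1 - cθ := by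
      rw [hx5e, div_lt_iff₀ (by positivity)]
      have h1 : (1 - cθ) * (4 / (1 - cθ)) = 4 := by field_simp
      have h2 : (1 - cθ) * (4 / (1 - cθ)) ≤ (1 - cθ) * X5 :=
        mul_le_mul_of_nonneg_left (by linarith) h1c.le
      nlinarith
    linarith

/-- Compactness of segments. -/
theorem isCompact_seg (x y : ℂ) : IsCompact (segment ℝ x y) := by
  rw [segment_eq_image]
  exact isCompact_Icc.image (by fun_prop)

/-- The norm of `q`. -/
theorem norm_q {cθ sθ m σ : ℝ} (hs : sθ ^ 2 = 1 - cθ ^ 2) (hσ : |σ| = 1) (hm : 2 * m ≤ 1) :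
    ‖(⟨(1 - 2 * m) * cθ, σ * -((1 - 2 * m) * sθ)⟩ : ℂ)‖ = 1 - 2 * m := by
  have hσ2 : σ ^ 2 = 1 := by rw [← sq_abs, hσ]; norm_num
  have h1 : ‖(⟨(1 - 2 * m) * cθ, σ * -((1 - 2 * m) * sθ)⟩ : ℂ)‖ ^ 2 = (1 - 2 * m) ^ 2 := by
    rw [← Complex.normSq_eq_norm_sq, Complex.normSq_apply]
    simp only
    have : (1 - 2 * m) * cθ * ((1 - 2 * m) * cθ) +
        σ * -((1 - 2 * m) * sθ) * (σ * -((1 - 2 * m) * sθ)) =
        (1 - 2 * m) ^ 2 * (cθ ^ 2 + σ ^ 2 * sθ ^ 2) := by ring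
    rw [this, hσ2, hs]
    ring
  have h2 : 0 ≤ 1 - 2 * m := by linarith
  exact (sq_eq_sq₀ (norm_nonneg _) h2).1 h1

/-- The vertical segment from a point to the line. -/
theorem vseg {p z : ℂ} (hp : 0 < p.im) (hz : z ∈ segment ℝ p (p.re : ℂ)) :
    z.re = p.re ∧ 0 ≤ z.im ∧ z.im ≤ p.im ∧ (z = (p.re : ℂ) ∨ 0 < z.im) := by
  obtain ⟨a, b, ha, hb, hab', rfl⟩ := hz
  have e1 : (a • p + b • (p.re : ℂ)).re = p.re := by
    simp only [Complex.add_re, Complex.real_smul, Complex.re_ofReal_mul, Complex.ofReal_re]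
    rw [← add_mul, hab', one_mul]
  have e2 : (a • p + b • (p.re : ℂ)).im = a * p.im := by
    simp
  refine ⟨e1, by rw [e2]; positivity, by rw [e2]; nlinarith, ?_⟩
  rcases ha.eq_or_lt with h | h
  · left
    have : b = 1 := by linarith
    rw [← h, this, zero_smul, one_smul, zero_add]
  · right
    rw [e2]; positivity

/-- The segment from a point of the box to its centre. -/
theorem kseg {p z : ℂ} {xb r : ℝ} (hp : 0 < p.im) (hB : p ∈ Bf xb r)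
    (hz : z ∈ segment ℝ p (xb : ℂ)) : z ∈ Bf xb r ∧ (z = (xb : ℂ) ∨ 0 < z.im) := by
  obtain ⟨a, b, ha, hb, hab', rfl⟩ := hz
  obtain ⟨c1, c2⟩ := hB
  have e1 : (a • p + b • (xb : ℂ)).re - xb = a * (p.re - xb) := by
    have hb' : b = 1 - a := by linarith
    simp only [Complex.add_re, Complex.real_smul, Complex.re_ofReal_mul, Complex.ofReal_re]
    rw [hb']; ring
  have e2 : (a • p + b • (xb : ℂ)).im = a * p.im := by
    simp
  have ha1 : a ≤ 1 := by linarith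
  refine ⟨⟨?_, ?_⟩, ?_⟩
  · rw [e1, abs_mul, abs_of_nonneg ha]
    exact lt_of_le_of_lt (mul_le_of_le_one_left (abs_nonneg _) ha1) c1
  · rw [e2, abs_mul, abs_of_nonneg ha]
    exact lt_of_le_of_lt (mul_le_of_le_one_left (abs_nonneg _) ha1) c2
  · rcases ha.eq_or_lt with h | h
    · left
      have : b = 1 := by linarith
      rw [← h, this, zero_smul, one_smul, zero_add]
    · right
      rw [e2]; positivity

/-- The height of the point `F q`. -/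
theorem height {F : ℂ → ℂ} {rc rf xb cθ cK ηV ηh η₅ δ : ℝ} {q : ℂ}
    (hconf : Conf F (F '' ball 0 1)) (hc0 : 0 < cθ) (hc1 : cθ < 1) (hηh : 0 < ηh) (hηh1 : ηh ≤ ηV)
    (hηh2 : ηh ≤ η₅ / 4) (hηh3 : ηh ≤ rf / 32) (hrc1 : 2 * rc ≤ rf)
    (hδ : 8 * δ ≤ ηh)
    (hcore : ∀ (F : ℂ → ℂ) (D : Set ℂ), Conf F D →
      ∀ (C : Set ℂ) (z₀ : ℂ), IsPreconnected C → z₀ ∈ C → (∀ z ∈ C, ball z (ηh / 2) ⊆ D) →
      (∀ z ∈ C, dist z z₀ ≤ 4 * rf) → ∀ z ∈ C, cK * (1 - ‖dinv F z₀‖) ≤ 1 - ‖dinv F z‖)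
    (hcB : F (cθ : ℂ) ∈ Bf xb (rc / 2)) (hcball : ball (F (cθ : ℂ)) η₅ ⊆ F '' ball 0 1)
    (hqb : q ∈ ball (0 : ℂ) 1) (hqB : F q ∈ Bf xb (rc / 2))
    (hlow' : ∀ w ∈ F '' ball 0 1, w ∈ Bf xb rf → -δ < w.im)
    (hD' : ∀ w ∈ Bf xb rf, δ < w.im → w ∈ F '' ball 0 1)
    (hm : 1 - ‖q‖ < cK * (1 - cθ)) : (F q).im < ηV := by
  have hcb : (cθ : ℂ) ∈ ball (0 : ℂ) 1 := by
    rw [mem_ball_zero_iff, Complex.norm_real, Real.norm_of_nonneg hc0.le]; exact hc1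
  by_contra hcon
  push Not at hcon
  have hchi : ηh ≤ (F (cθ : ℂ)).im := by
    by_contra hcon2
    push Not at hcon2
    obtain ⟨w, hw⟩ : ∃ w : ℂ, w = ⟨(F (cθ : ℂ)).re, (F (cθ : ℂ)).im - 2 * ηh⟩ := ⟨_, rfl⟩
    have hwi : w.im = (F (cθ : ℂ)).im - 2 * ηh := by rw [hw]
    have hwd : dist w (F (cθ : ℂ)) = 2 * ηh := by
      rw [dist_eq_norm]
      have : w - F (cθ : ℂ) = ((-(2 * ηh) : ℝ) : ℂ) * Complex.I := by
        apply Complex.ext <;> simp [hw]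
      rw [this, norm_mul, Complex.norm_I, mul_one, Complex.norm_real, norm_neg,
        Real.norm_of_nonneg (by positivity)]
    have hwD : w ∈ F '' ball 0 1 := hcball (mem_ball.2 (by rw [hwd]; linarith))
    have hwd' : dist (F (cθ : ℂ)) w ≤ 2 * ηh := by rw [dist_comm]; exact hwd.le
    have hwB : w ∈ Bf xb rf := bf_mono (by linarith) (bf_near hcB hwd')
    have := hlow' w hwD hwB
    linarith
  have hseg : ∀ z ∈ segment ℝ (F (cθ : ℂ)) (F q), ηh ≤ z.im ∧ z ∈ Bf xb (rc / 2) := by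
    intro z hz
    have h1 := seg_im hz
    have h2 := seg_re hz
    have h3 : ηh ≤ z.im := le_trans (le_min hchi (hηh1.trans hcon)) h1.1
    refine ⟨h3, ?_⟩
    obtain ⟨c1, c2⟩ := hcB
    obtain ⟨c3, c4⟩ := hqB
    rw [abs_lt] at c1 c2 c3 c4
    refine ⟨?_, ?_⟩
    · rw [abs_lt]
      constructor
      · have := lt_min (show xb - rc / 2 < (F (cθ : ℂ)).re by linarith)
          (show xb - rc / 2 < (F q).re by linarith)
        linarith
      · have := max_lt (show (F (cθ : ℂ)).re < xb + rc / 2 by linarith)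
          (show (F q).re < xb + rc / 2 by linarith)
        linarith
    · rw [abs_lt]
      constructor
      · linarith
      · have := max_lt (show (F (cθ : ℂ)).im < rc / 2 by linarith)
          (show (F q).im < rc / 2 by linarith)
        linarith
  have hc := hcore F (F '' ball 0 1) hconf (segment ℝ (F (cθ : ℂ)) (F q))
    (F (cθ : ℂ)) (convex_segment _ _).isPreconnected (left_mem_segment ℝ _ _) (by
      intro z hz w hw
      obtain ⟨h1, h2⟩ := hseg z hz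
      rw [mem_ball, dist_comm] at hw
      have h3 : |z.im - w.im| ≤ dist z w := by
        rw [dist_eq_norm, ← Complex.sub_im]; exact Complex.abs_im_le_norm _
      rw [abs_le] at h3
      exact hD' w (bf_mono (by linarith) (bf_near h2 hw.le)) (by linarith)) (by
      intro z hz
      have h1 := (hseg z hz).2
      obtain ⟨c1, c2⟩ := hcB
      obtain ⟨c3, c4⟩ := h1
      rw [abs_lt] at c1 c2 c3 c4
      rw [dist_eq_norm]
      refine (Complex.norm_le_abs_re_add_abs_im _).trans ?_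
      rw [Complex.sub_re, Complex.sub_im]
      have e1 : |z.re - (F (cθ : ℂ)).re| ≤ rc := by
        rw [abs_le]; constructor <;> linarith
      have e2 : |z.im - (F (cθ : ℂ)).im| ≤ rc := by
        rw [abs_le]; constructor <;> linarith
      linarith) (F q) (right_mem_segment ℝ _ _)
  rw [hconf.dinv_apply hcb, hconf.dinv_apply hqb, Complex.norm_real,
    Real.norm_of_nonneg hc0.le] at hc
  linarith

end Vale.Agent.P167.H450.Out
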