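import Vale.Agent.P167.H450.Cro

/-!
# Moving a boundary point along a short arc

`mark_move`: a connected set of a Jordan domain which accumulates at the boundary point `Φ te` can be
enlarged inside of the domain and inside of a ball which contains the boundary arc from `Φ te` to
`Φ ta`, so that it accumulates at `Φ ta`.
-/

set_option autoImplicit false

namespace Vale.Agent.P167.H450.Out

open Set Metric Filter Topology
open Vale.Agent.P153.R2.R1
open Vale.Agent.P153.R2.DET (HC)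
open Vale.Agent.P167.H327

theorem mark_move {D : Set ℂ} (hG : Good D) (hne : D.Nonempty) {Φ : ℝ → ℂ} {L : ℝ}
    (hF : JCurve Φ L) (hfr : frontier D = range Φ) {te ta : ℝ} (hL : |te - ta| < L) {c : ℂ} {ρ : ℝ}
    (harc : ∀ t ∈ uIcc te ta, Φ t ∈ ball c ρ) {C : Set ℂ} (hC : IsPreconnected C) (hCD : C ⊆ D)
    (hCe : Φ te ∈ closure C) :
    ∃ C' : Set ℂ, C ⊆ C' ∧ IsPreconnected C' ∧ C' ⊆ D ∧ Φ ta ∈ closure C' ∧ C' ⊆ C ∪ ball c ρ := by
  set tb : ℝ := (te + ta - L) / 2 with htb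
  rw [abs_lt] at hL
  have ie : te ∈ Ioo tb (tb + L) := ⟨by rw [htb]; linarith, by rw [htb]; linarith⟩
  have ia : ta ∈ Ioo tb (tb + L) := ⟨by rw [htb]; linarith, by rw [htb]; linarith⟩
  have hfrm : ∀ t, Φ t ∈ frontier D := fun t => by rw [hfr]; exact ⟨t, rfl⟩
  obtain ⟨ψ, hU, -⟩ := hG.exists_isU hne (hfrm te) (hfrm tb) (curve_ne hF ie)
  have hn := hG.nocut
  have hD := hG.isOpen
  have hsub : uIcc te ta ⊆ Ioo tb (tb + L) := by
    intro t ht
    rw [mem_uIcc] at ht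
    rcases ht with ht | ht
    · exact ⟨lt_of_lt_of_le ie.1 ht.1, lt_of_le_of_lt ht.2 ia.2⟩
    · exact ⟨lt_of_lt_of_le ia.1 ht.1, lt_of_le_of_lt ht.2 ie.2⟩
  set xe := hpar ψ Φ te with hxe
  set xa := hpar ψ Φ ta with hxa
  -- the real interval
  have hint : ∀ x ∈ uIcc xe xa, ψ (x : ℂ) ∈ ball c ρ := by
    intro x hx
    have h1 := intermediate_value_uIcc ((hpar_cont hU hn hD hF hfr).mono hsub) hx
    obtain ⟨t, ht, rfl⟩ := h1
    rw [(hpar_spec hU hn hD hF hfr (hsub ht)).1]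
    exact harc t ht
  set I : Set ℂ := (fun x : ℝ => (x : ℂ)) '' uIcc xe xa with hI
  have hIc : IsCompact I := isCompact_uIcc.image (by fun_prop)
  have hIconv : Convex ℝ I := by
    have : I = Complex.ofRealCLM '' uIcc xe xa := rfl
    rw [this]
    exact (convex_uIcc xe xa).linear_image (Complex.ofRealCLM : ℝ →ₗ[ℝ] ℂ)
  -- a neighbourhood
  obtain ⟨O, hO, hOe⟩ : ∃ O : Set ℂ, IsOpen O ∧ HC ∩ ψ ⁻¹' ball c ρ = HC ∩ O := by
    obtain ⟨O, hO, hOe⟩ := (_root_.continuousOn_iff'.1 hU.cont) (ball c ρ) isOpen_ball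
    exact ⟨O, hO, by
      have : HC = {z : ℂ | 0 ≤ z.im} := rfl
      rw [this, inter_comm, hOe, inter_comm]⟩
  have hIO : I ⊆ O := by
    rintro _ ⟨x, hx, rfl⟩
    have : ((x : ℂ)) ∈ HC ∩ ψ ⁻¹' ball c ρ := ⟨real_HC x, hint x hx⟩
    rw [hOe] at this
    exact this.2
  obtain ⟨η, hη, hthick⟩ := hIc.exists_thickening_subset_open hO hIO
  set W : Set ℂ := {z | 0 < z.im} ∩ thickening η I with hW
  have hWconv : Convex ℝ W := (convex_halfSpace_im_gt 0).inter (hIconv.thickening η)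
  have hWO : ∀ z ∈ W, ψ z ∈ ball c ρ := by
    intro z hz
    have h1 : z ∈ HC ∩ O := ⟨pos_HC hz.1, hthick hz.2⟩
    rw [← hOe] at h1
    exact h1.2
  have hWD : ψ '' W ⊆ D := by
    rintro _ ⟨z, hz, rfl⟩
    rw [← hU.img]
    exact ⟨z, hz.1, rfl⟩
  have hcontW : ContinuousOn ψ W := hU.cont.mono fun z hz => le_of_lt (α := ℝ) hz.1
  have hpW : IsPreconnected (ψ '' W) := hWconv.isPreconnected.image _ hcontW
  -- `C` meets the image
  obtain ⟨z, hzC, hzW⟩ : ∃ z ∈ C, z ∈ ψ '' W := by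
    have h1 : Φ te ∈ ψ '' HC := ⟨_, real_HC _, (hpar_spec hU hn hD hF hfr ie).1⟩
    have h2 := ph_cont (uni_of hU hn) _ h1
    rw [ContinuousWithinAt, (hpar_spec hU hn hD hF hfr ie).2] at h2
    have hxI : ((xe : ℝ) : ℂ) ∈ I := ⟨xe, left_mem_uIcc, rfl⟩
    have h3 : ∀ᶠ z in 𝓝[ψ '' HC] (Φ te), ph ψ z ∈ thickening η I :=
      h2.eventually ((isOpen_thickening).mem_nhds (self_subset_thickening hη I hxI))
    have hCsub : C ⊆ ψ '' HC := by
      intro z hz
      obtain ⟨h4, h5⟩ := ph_mem hU hn (hCD hz)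
      exact ⟨_, pos_HC h4, h5⟩
    have h4 : ∀ᶠ z in 𝓝[C] (Φ te), ph ψ z ∈ thickening η I := nhdsWithin_mono _ hCsub h3
    have : (𝓝[C] (Φ te)).NeBot := mem_closure_iff_nhdsWithin_neBot.1 hCe
    obtain ⟨z, hz1, hz2⟩ := (h4.and self_mem_nhdsWithin).exists
    obtain ⟨h5, h6⟩ := ph_mem hU hn (hCD hz2)
    exact ⟨z, hz2, ph ψ z, ⟨h5, hz1⟩, h6⟩
  refine ⟨C ∪ ψ '' W, subset_union_left, IsPreconnected.union z hzC hzW hC hpW,
    union_subset hCD hWD, ?_, ?_⟩
  · refine closure_mono subset_union_right ?_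
    rw [← (hpar_spec hU hn hD hF hfr ia).1]
    have hxI : ((xa : ℝ) : ℂ) ∈ I := ⟨xa, right_mem_uIcc, rfl⟩
    have h1 : ((xa : ℝ) : ℂ) ∈ closure W := by
      rw [Metric.mem_closure_iff]
      intro ε hε
      refine ⟨⟨xa, min ε η / 2⟩, ⟨?_, ?_⟩, ?_⟩
      · show 0 < min ε η / 2
        have := lt_min hε hη
        linarith
      · rw [mem_thickening_iff]
        refine ⟨_, hxI, ?_⟩
        rw [dist_eq_norm]
        have e1 : (⟨xa, min ε η / 2⟩ : ℂ) - (xa : ℂ) = ((min ε η / 2 : ℝ) : ℂ) * Complex.I := by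
          apply Complex.ext <;> simp
        have h0 := lt_min hε hη
        rw [e1, norm_mul, Complex.norm_I, mul_one, Complex.norm_real,
          Real.norm_of_nonneg (by linarith)]
        have := min_le_right ε η
        linarith
      · rw [dist_comm, dist_eq_norm]
        have e1 : (⟨xa, min ε η / 2⟩ : ℂ) - (xa : ℂ) = ((min ε η / 2 : ℝ) : ℂ) * Complex.I := by
          apply Complex.ext <;> simp
        have h0 := lt_min hε hη
        rw [e1, norm_mul, Complex.norm_I, mul_one, Complex.norm_real,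
          Real.norm_of_nonneg (by linarith)]
        have := min_le_left ε η
        linarith
    have h2 : ContinuousWithinAt ψ W ((xa : ℝ) : ℂ) :=
      (hU.cont _ (real_HC xa)).mono fun z hz => le_of_lt (α := ℝ) hz.1
    exact h2.mem_closure_image h1
  · rintro x (hx | ⟨z, hz, rfl⟩)
    · exact Or.inl hx
    · exact Or.inr (hWO z hz)

end Vale.Agent.P167.H450.Out
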