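import Vale.Agent.P167.H450.OutB

/-!
# Flat sides with teeth

`flat_Pm2`: if `U` contains the part `im ≥ ℓ b + ℓ / 2` of the box and no point of the part `im ≤ ℓ b`,
and the lower part of the box is joined to infinity far from `U`, then the outer polygon is the upper
half of the box.
-/

namespace Vale.Agent.P167.H450.Out

open Set Metric Vale.Agent.P167.E6 Vale.Agent.P167.H450
variable {ℓ r R ρ : ℝ} {D U X : Set ℂ} {F F₀ : ℤ × ℤ} {z k : ℂ}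

/-- The lower part of the box is outside. -/
theorem flat_low (hℓ : 0 < ℓ) {xb : ℝ} {b : ℤ}
    (hdn : ∀ z : ℂ, |z.re - xb| < ρ → ℓ * b - ρ < z.im → z.im ≤ ℓ * b → z ∉ U)
    (hX : IsPreconnected X) (hfar : ∀ x ∈ X, ∀ u ∈ U, 3 * ℓ < dist x u) {x₁ : ℂ} (hx₁ : x₁ ∈ X)
    (hout : ∀ u ∈ U, u.re + 3 * ℓ < x₁.re) (hk : k ∈ X) (hk1 : |k.re - xb| < ρ - 3 * ℓ)
    (hk2 : ℓ * b - (ρ - 3 * ℓ) < k.im) (hk3 : k.im < ℓ * b) (hz1 : |z.re - xb| < ρ - 3 * ℓ)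
    (hz2 : |z.im - ℓ * b| < ρ - 3 * ℓ) (hz : z ∈ Pm ℓ U) : ℓ * b < z.im := by
  by_contra hcon
  push Not at hcon
  -- the box
  set B : Set ℂ := {w | |w.re - xb| < ρ - 3 * ℓ ∧ ℓ * b - (ρ - 3 * ℓ) < w.im ∧ w.im < ℓ * b} with hB
  have hBc : Convex ℝ B := by
    have e : B = {w : ℂ | w.re < xb + (ρ - 3 * ℓ)} ∩ {w | xb - (ρ - 3 * ℓ) < w.re} ∩
        {w | ℓ * b - (ρ - 3 * ℓ) < w.im} ∩ {w | w.im < ℓ * b} := by
      ext w
      simp only [hB, mem_ofPred_eq, mem_inter_iff, abs_lt]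
      constructor
      · rintro ⟨⟨h1, h2⟩, h3, h4⟩
        exact ⟨⟨⟨by linarith, by linarith⟩, h3⟩, h4⟩
      · rintro ⟨⟨⟨h1, h2⟩, h3⟩, h4⟩
        exact ⟨⟨by linarith, by linarith⟩, h3, h4⟩
    rw [e]
    exact (((convex_halfSpace_re_lt _).inter (convex_halfSpace_re_gt _)).inter
      (convex_halfSpace_im_gt _)).inter (convex_halfSpace_im_lt _)
  have hBX : IsPreconnected (B ∪ X) :=
    IsPreconnected.union k ⟨hk1, hk2, hk3⟩ hk hBc.isPreconnected hX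
  have hfar' : ∀ G ∈ MF ℓ (B ∪ X), G ∉ MF ℓ U := by
    rintro G ⟨x, hx, hxB | hxX⟩ ⟨u, hu, huU⟩
    · obtain ⟨h1, h2, h3⟩ := hxB
      have hd := dist_le_of_bk hx hu
      rw [dist_eq_norm] at hd
      have hre := (Complex.abs_re_le_norm (x - u)).trans hd
      have him := (Complex.abs_im_le_norm (x - u)).trans hd
      simp only [Complex.sub_re, Complex.sub_im] at hre him
      rw [abs_le] at hre him
      rw [abs_lt] at h1
      have h4 : ℓ * ((br G).2 : ℝ) < ℓ * b := lt_of_le_of_lt hx.2.2.1 h3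
      have h5 : ((br G).2 : ℝ) < b := lt_of_mul_lt_mul_left h4 hℓ.le
      have h6 : (br G).2 + 1 ≤ b := by
        have : (br G).2 < b := by exact_mod_cast h5
        omega
      have h7 : ((br G).2 : ℝ) + 1 ≤ b := by exact_mod_cast h6
      have h8 : u.im ≤ ℓ * b := hu.2.2.2.trans (mul_le_mul_of_nonneg_left h7 hℓ.le)
      refine hdn u ?_ ?_ h8 huU
      · rw [abs_lt]
        constructor <;> linarith
      · linarith
    · have h2 := hfar x hxX u huU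
      have h3 := dist_le_of_bk hx hu
      linarith
  -- a face below
  obtain ⟨F, hF, hFb⟩ : ∃ F, z ∈ sqr ℓ F ∧ F.2 < b := by
    obtain ⟨F, hF⟩ := exists_sqr hℓ z
    by_cases h : F.2 < b
    · exact ⟨F, hF, h⟩
    · push Not at h
      have h1 : ℓ * (b : ℝ) ≤ ℓ * F.2 := mul_le_mul_of_nonneg_left (by exact_mod_cast h) hℓ.le
      have h2 : z.im = ℓ * b := le_antisymm hcon (h1.trans hF.2.2.1)
      refine ⟨(F.1, b - 1), ⟨hF.1, hF.2.1, ?_, ?_⟩, by simp⟩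
      · push_cast
        rw [h2]; nlinarith
      · push_cast
        rw [h2]; nlinarith
  have hFM : F ∈ MF ℓ (B ∪ X) := by
    rw [abs_lt] at hz2
    have hFb' : (F.2 : ℝ) + 1 ≤ b := by exact_mod_cast hFb
    by_cases h : z.im < ℓ * b
    · exact mf_of_mem hℓ (Or.inl ⟨hz1, by linarith [hz2.1], h⟩) hF
    · have h2 : z.im = ℓ * b := le_antisymm hcon (not_lt.1 h)
      have h3 := hF.2.2.2
      have h4 : ℓ * ((F.2 : ℝ) + 1) ≤ ℓ * b := mul_le_mul_of_nonneg_left hFb' hℓ.le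
      have h5 : ℓ * ((F.2 : ℝ) + 1) = ℓ * b := le_antisymm h4 (h2 ▸ h3)
      set s : ℝ := min ℓ ((ρ - 3 * ℓ) / 2) with hs
      have hρ : 0 < ρ - 3 * ℓ := lt_of_le_of_lt (abs_nonneg _) hz1
      have hs0 : 0 < s := lt_min hℓ (by linarith)
      have hs1 : s ≤ ℓ := min_le_left _ _
      have hs2 : s ≤ (ρ - 3 * ℓ) / 2 := min_le_right _ _
      refine mf_of_mem hℓ (z := ⟨z.re, z.im - s⟩) (Or.inl ⟨hz1, ?_, ?_⟩) ⟨hF.1, hF.2.1, ?_, ?_⟩
      · show ℓ * b - (ρ - 3 * ℓ) < z.im - s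
        linarith
      · show z.im - s < ℓ * b
        linarith
      · show ℓ * F.2 ≤ z.im - s
        linarith
      · show z.im - s ≤ ℓ * (F.2 + 1)
        linarith
  have h1 : F ∈ Ofc (MF ℓ U) := ofc_of_gate hℓ hBX hfar' (Or.inr hx₁) hout hFM
  have h2 : z ∈ (Pm ℓ U)ᶜ := by
    rw [compl_Pm hℓ]
    exact ⟨F, h1, hF⟩
  exact h2 hz

/-- **Flat sides, with teeth.** -/
theorem flat_Pm2 (hℓ : 0 < ℓ) {xb : ℝ} {b : ℤ}
    (hup : ∀ z : ℂ, |z.re - xb| < ρ → ℓ * b + ℓ / 2 ≤ z.im → z.im < ℓ * b + ρ → z ∈ U)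
    (hdn : ∀ z : ℂ, |z.re - xb| < ρ → ℓ * b - ρ < z.im → z.im ≤ ℓ * b → z ∉ U)
    (hX : IsPreconnected X) (hfar : ∀ x ∈ X, ∀ u ∈ U, 3 * ℓ < dist x u) {x₁ : ℂ} (hx₁ : x₁ ∈ X)
    (hout : ∀ u ∈ U, u.re + 3 * ℓ < x₁.re) (hk : k ∈ X) (hk1 : |k.re - xb| < ρ - 3 * ℓ)
    (hk2 : ℓ * b - (ρ - 3 * ℓ) < k.im) (hk3 : k.im < ℓ * b) (hz1 : |z.re - xb| < ρ - 3 * ℓ)
    (hz2 : |z.im - ℓ * b| < ρ - 3 * ℓ) : z ∈ Pm ℓ U ↔ ℓ * b < z.im := by
  refine ⟨fun hz => flat_low hℓ hdn hX hfar hx₁ hout hk hk1 hk2 hk3 hz1 hz2 hz, fun h => ?_⟩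
  rw [abs_lt] at hz2
  by_cases h2 : ℓ * b + ℓ / 2 ≤ z.im
  · exact sub_Pm hℓ (hup z (by linarith) h2 (by linarith [hz2.2]))
  · push Not at h2
    have hρ : 0 < ρ - 3 * ℓ := lt_of_le_of_lt (abs_nonneg _) hz1
    show z ∈ interior (reg ℓ (Fil (MF ℓ U)))
    rw [mem_interior_iff hℓ]
    rintro G ⟨g1, g2, g3, g4⟩
    have a1 : (G.2 : ℝ) < b + 1 := by
      have : ℓ * (G.2 : ℝ) < ℓ * (b + 1) := by nlinarith
      exact lt_of_mul_lt_mul_left this hℓ.le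
    have a2 : (b : ℝ) < G.2 + 1 := by
      have : ℓ * (b : ℝ) < ℓ * (G.2 + 1) := by linarith
      exact lt_of_mul_lt_mul_left this hℓ.le
    have a3 : G.2 = b := by
      have b1 : G.2 < b + 1 := by exact_mod_cast a1
      have b2 : b < G.2 + 1 := by exact_mod_cast a2
      omega
    refine sub_fil (mf_of_mem hℓ (z := ⟨z.re, ℓ * b + ℓ / 2⟩) (hup _ (by simpa using by linarith) le_rfl
      (by simp only; linarith)) ⟨g1, g2, ?_, ?_⟩)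
    · show ℓ * (G.2 : ℝ) ≤ ℓ * b + ℓ / 2
      rw [a3]; linarith
    · show ℓ * b + ℓ / 2 ≤ ℓ * ((G.2 : ℝ) + 1)
      rw [a3]; nlinarith

end Vale.Agent.P167.H450.Out
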