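import Vale.Agent.P167.H450.Brick2

/-!
# The filled union of the bricks which meet a set
-/

namespace Vale.Agent.P167.H450.Out

open Set Metric Vale.Agent.P167.E6 Vale.Agent.P167.H450

variable {ℓ : ℝ} {U : Set ℂ} {A : Set (ℤ × ℤ)} {F F' G : ℤ × ℤ}

/-- The faces whose brick meets `U`. -/
def MF (ℓ : ℝ) (U : Set ℂ) : Set (ℤ × ℤ) := {F | (bk ℓ (br F) ∩ U).Nonempty}

/-- The outer component of the complement. -/
def Ofc (A : Set (ℤ × ℤ)) : Set (ℤ × ℤ) :=
  {F | ∃ G : ℤ × ℤ, (∀ E ∈ A, E.1 < G.1) ∧ Relation.ReflTransGen (Adj Aᶜ) G F}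

/-- The filled set. -/
def Fil (A : Set (ℤ × ℤ)) : Set (ℤ × ℤ) := (Ofc A)ᶜ

theorem ofc_sub : Ofc A ⊆ Aᶜ := by
  rintro F ⟨G, hG, h⟩
  rcases Relation.ReflTransGen.cases_tail h with h' | ⟨d, -, h'⟩
  · rw [h']; exact fun hA => lt_irrefl _ (hG _ hA)
  · exact h'.1

theorem sub_fil : A ⊆ Fil A := fun _ h h' => ofc_sub h' h

theorem ofc_adj (h : F ∈ Ofc A) (hF' : F' ∉ A) (hr : ∃ r, F' = F + dir r) : F' ∈ Ofc A := by
  obtain ⟨G, hG, h⟩ := h
  exact ⟨G, hG, h.tail ⟨hF', hr⟩⟩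

theorem ofc_trans (h : F ∈ Ofc A) (h' : Relation.ReflTransGen (Adj Aᶜ) F F') : F' ∈ Ofc A := by
  obtain ⟨G, hG, h⟩ := h
  exact ⟨G, hG, h.trans h'⟩

theorem ofc_right (h : ∀ E ∈ A, E.1 < F.1) : F ∈ Ofc A := ⟨F, h, Relation.ReflTransGen.refl⟩

/-- Horizontal and vertical walks. -/
theorem walk_right {B : Set (ℤ × ℤ)} (a b : ℤ) (n : ℕ) (h : ∀ k : ℕ, k ≤ n → (a + k, b) ∈ B) :
    Relation.ReflTransGen (Adj B) (a, b) (a + n, b) := by
  induction n with
  | zero => simpa using Relation.ReflTransGen.refl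
  | succ n ih =>
    refine (ih fun k hk => h k (by omega)).tail ⟨h (n + 1) le_rfl, 0, ?_⟩
    simp [dir]; ring

theorem walk_left {B : Set (ℤ × ℤ)} (a b : ℤ) (n : ℕ) (h : ∀ k : ℕ, k ≤ n → (a + k, b) ∈ B) :
    Relation.ReflTransGen (Adj B) (a + n, b) (a, b) := by
  induction n with
  | zero => simpa using Relation.ReflTransGen.refl
  | succ n ih =>
    refine Relation.ReflTransGen.head ⟨h n (by omega), 2, ?_⟩ (ih fun k hk => h k (by omega))
    simp [dir]; ring

theorem walk_up {B : Set (ℤ × ℤ)} (a b : ℤ) (n : ℕ) (h : ∀ k : ℕ, k ≤ n → (a, b + k) ∈ B) :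
    Relation.ReflTransGen (Adj B) (a, b) (a, b + n) := by
  induction n with
  | zero => simpa using Relation.ReflTransGen.refl
  | succ n ih =>
    refine (ih fun k hk => h k (by omega)).tail ⟨h (n + 1) le_rfl, 1, ?_⟩
    simp [dir]; ring

theorem walk_down {B : Set (ℤ × ℤ)} (a b : ℤ) (n : ℕ) (h : ∀ k : ℕ, k ≤ n → (a, b + k) ∈ B) :
    Relation.ReflTransGen (Adj B) (a, b + n) (a, b) := by
  induction n with
  | zero => simpa using Relation.ReflTransGen.refl
  | succ n ih =>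
    refine Relation.ReflTransGen.head ⟨h n (by omega), 3, ?_⟩ (ih fun k hk => h k (by omega))
    simp [dir]; ring

theorem walk_row {B : Set (ℤ × ℤ)} {a a' b : ℤ} (h : ∀ c, min a a' ≤ c → c ≤ max a a' → (c, b) ∈ B) :
    Relation.ReflTransGen (Adj B) (a, b) (a', b) := by
  rcases le_total a a' with hle | hle
  · have := walk_right a b (a' - a).toNat (B := B) fun k hk => h _ (by omega) (by omega)
    have e : a + ((a' - a).toNat : ℤ) = a' := by omega
    rwa [e] at this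
  · have := walk_left a' b (a - a').toNat (B := B) fun k hk => h _ (by omega) (by omega)
    have e : a' + ((a - a').toNat : ℤ) = a := by omega
    rwa [e] at this

theorem walk_col {B : Set (ℤ × ℤ)} {a b b' : ℤ} (h : ∀ c, min b b' ≤ c → c ≤ max b b' → (a, c) ∈ B) :
    Relation.ReflTransGen (Adj B) (a, b) (a, b') := by
  rcases le_total b b' with hle | hle
  · have := walk_up a b (b' - b).toNat (B := B) fun k hk => h _ (by omega) (by omega)
    have e : b + ((b' - b).toNat : ℤ) = b' := by omega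
    rwa [e] at this
  · have := walk_down a b' (b - b').toNat (B := B) fun k hk => h _ (by omega) (by omega)
    have e : b' + ((b - b').toNat : ℤ) = b := by omega
    rwa [e] at this

theorem rtg_symm {B : Set (ℤ × ℤ)} (h : Relation.ReflTransGen (Adj B) F F') (hF : F ∈ B) :
    Relation.ReflTransGen (Adj B) F' F := by
  induction h with
  | refl => exact Relation.ReflTransGen.refl
  | @tail b c hab hbc ih =>
    have hb : b ∈ B := by
      rcases Relation.ReflTransGen.cases_tail hab with h' | ⟨d, -, h'⟩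
      · rw [h']; exact hF
      · exact h'.1
    exact Relation.ReflTransGen.head ⟨hb, adj_symm hbc.2⟩ ih

/-- Walks inside `Aᶜ` which start in the outer component stay there. -/
theorem rtg_ofc (h : Relation.ReflTransGen (Adj Aᶜ) F F') (hF : F ∈ Ofc A) :
    Relation.ReflTransGen (Adj (Ofc A)) F F' := by
  induction h with
  | refl => exact Relation.ReflTransGen.refl
  | @tail b c hab hbc ih => exact ih.tail ⟨ofc_trans hF (hab.tail hbc), hbc.2⟩

theorem conn_ofc : Conn (Ofc A) := by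
  intro F hF F' hF'
  obtain ⟨G, hG, h⟩ := hF
  obtain ⟨G', hG', h'⟩ := hF'
  have hGO : G ∈ Ofc A := ofc_right hG
  have hGO' : G' ∈ Ofc A := ofc_right hG'
  have h1 : Relation.ReflTransGen (Adj (Ofc A)) G F := rtg_ofc h hGO
  have h2 : Relation.ReflTransGen (Adj (Ofc A)) G' F' := rtg_ofc h' hGO'
  have h3 : Relation.ReflTransGen (Adj (Ofc A)) G G' := by
    have s1 : Relation.ReflTransGen (Adj (Ofc A)) (G.1, G.2) (G'.1, G.2) := by
      apply walk_row
      intro c hc _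
      apply ofc_right
      intro E hE
      have := hG E hE
      have := hG' E hE
      simp only
      omega
    have s2 : Relation.ReflTransGen (Adj (Ofc A)) (G'.1, G.2) (G'.1, G'.2) := by
      apply walk_col
      intro c _ _
      exact ofc_right fun E hE => hG' E hE
    exact s1.trans s2
  exact ((rtg_symm h1 hGO).trans h3).trans h2

/-- Faces outside of a box around `A` are in the outer component. -/
theorem ofc_far {M : ℤ} (hM : ∀ E ∈ A, |E.1| ≤ M ∧ |E.2| ≤ M) (hF : M < |F.1| ∨ M < |F.2|) :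
    F ∈ Ofc A := by
  have hb : ∀ E ∈ A, -M ≤ E.1 ∧ E.1 ≤ M ∧ -M ≤ E.2 ∧ E.2 ≤ M := by
    intro E hE
    obtain ⟨h1, h2⟩ := hM E hE
    rw [abs_le] at h1 h2
    omega
  -- rows off the box
  have row : ∀ a b : ℤ, (M < b ∨ b < -M) → (a, b) ∈ Ofc A := by
    intro a b hb'
    refine ⟨(max a (M + 1), b), ?_, ?_⟩
    · intro E hE
      have := hb E hE
      simp only
      omega
    · apply walk_row
      intro c _ _ hc
      have := hb _ hc
      simp only at this
      omega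
  obtain ⟨a, b⟩ := F
  simp only at hF
  by_cases h2 : M < b ∨ b < -M
  · exact row a b h2
  · have h3 : M < a ∨ a < -M := by
      rcases hF with h | h
      · rw [lt_abs] at h; omega
      · rw [lt_abs] at h; omega
    have h4 : (a, M + 1) ∈ Ofc A := row a (M + 1) (Or.inl (by omega))
    refine ofc_trans h4 ?_
    apply walk_col
    intro c _ _ hc
    have := hb _ hc
    simp only at this
    omega

theorem exists_box (h : A.Finite) : ∃ M : ℤ, ∀ E ∈ A, |E.1| ≤ M ∧ |E.2| ≤ M := by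
  obtain ⟨M1, h1⟩ := (h.image fun E : ℤ × ℤ => |E.1|).bddAbove
  obtain ⟨M2, h2⟩ := (h.image fun E : ℤ × ℤ => |E.2|).bddAbove
  refine ⟨max M1 M2, fun E hE => ⟨?_, ?_⟩⟩
  · exact (h1 ⟨E, hE, rfl⟩).trans (le_max_left _ _)
  · exact (h2 ⟨E, hE, rfl⟩).trans (le_max_right _ _)

theorem finite_fil (h : A.Finite) : (Fil A).Finite := by
  obtain ⟨M, hM⟩ := exists_box h
  apply Set.Finite.subset ((Set.finite_Icc (-M) M).prod (Set.finite_Icc (-M) M))
  intro F hF
  by_contra hcon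
  apply hF
  apply ofc_far hM
  by_contra h'
  push Not at h'
  rw [abs_le, abs_le] at h'
  exact hcon ⟨h'.1, h'.2⟩

theorem bricky_compl (h : Bricky A) : Bricky Aᶜ := fun F F' hb => not_congr (h F F' hb)

theorem bricky_ofc (h : Bricky A) : Bricky (Ofc A) := by
  have key : ∀ F F', br F = br F' → F ∈ Ofc A → F' ∈ Ofc A := by
    intro F F' hb hF
    rcases brick_adj hb with rfl | hr
    · exact hF
    · exact ofc_adj hF (fun h' => ofc_sub hF ((h _ _ hb).2 h')) hr
  intro F F' hb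
  exact ⟨key F F' hb, key F' F hb.symm⟩

theorem bricky_fil (h : Bricky A) : Bricky (Fil A) := bricky_compl (bricky_ofc h)

/-- Every face of the filled set is joined to a face of `A`. -/
theorem fil_to (h : A.Finite) (hF : F ∈ Fil A) :
    ∃ G ∈ A, Relation.ReflTransGen (Adj (Fil A)) F G := by
  obtain ⟨M, hM⟩ := exists_box h
  have key : ∀ n : ℕ, ∀ F ∈ Fil A, M - F.1 < n → ∃ G ∈ A,
      Relation.ReflTransGen (Adj (Fil A)) F G := by
    intro n
    induction n with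
    | zero =>
      intro F hF hn
      exfalso
      apply hF
      apply ofc_right
      intro E hE
      have := (abs_le.1 (hM E hE).1).2
      push_cast at hn
      omega
    | succ n ih =>
      intro F hF hn
      by_cases hA : F ∈ A
      · exact ⟨F, hA, Relation.ReflTransGen.refl⟩
      · have hF1 : F + dir 0 ∈ Fil A := by
          intro h'
          exact hF (ofc_adj h' hA (adj_symm ⟨0, rfl⟩))
        have e1 : (F + dir 0).1 = F.1 + 1 := by simp [dir]
        obtain ⟨G, hG, hGr⟩ := ih _ hF1 (by rw [e1]; push_cast at hn; omega)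
        exact ⟨G, hG, Relation.ReflTransGen.head ⟨hF1, 0, rfl⟩ hGr⟩
  exact key (M - F.1).toNat.succ F hF (by
    have := Int.self_le_toNat (M - F.1)
    push_cast
    omega)

theorem rtg_mono {B B' : Set (ℤ × ℤ)} (hB : B ⊆ B') (h : Relation.ReflTransGen (Adj B) F F') :
    Relation.ReflTransGen (Adj B') F F' := by
  induction h with
  | refl => exact Relation.ReflTransGen.refl
  | tail _ hbc ih => exact ih.tail ⟨hB hbc.1, hbc.2⟩

theorem conn_fil (h : A.Finite) (hA : Conn A) : Conn (Fil A) := by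
  intro F hF F' hF'
  obtain ⟨G, hG, h1⟩ := fil_to h hF
  obtain ⟨G', hG', h2⟩ := fil_to h hF'
  exact (h1.trans (rtg_mono sub_fil (hA G hG G' hG'))).trans (rtg_symm h2 hF')

/-! ### The bricks which meet `U` -/

theorem bricky_mf (ℓ : ℝ) (U : Set ℂ) : Bricky (MF ℓ U) := by
  intro F F' h
  show (bk ℓ (br F) ∩ U).Nonempty ↔ (bk ℓ (br F') ∩ U).Nonempty
  rw [h]

theorem mf_of_mem (hℓ : 0 < ℓ) {z : ℂ} (hz : z ∈ U) (hF : z ∈ sqr ℓ F) : F ∈ MF ℓ U :=
  ⟨z, sqr_subset_bk hℓ hF, hz⟩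

theorem conn_mf (hℓ : 0 < ℓ) (hU : IsPreconnected U) : Conn (MF ℓ U) := by
  intro F hF F' hF'
  by_contra hcon
  set T1 : Set (ℤ × ℤ) := {G | Relation.ReflTransGen (Adj (MF ℓ U)) F G} with hT1
  have hT1A : T1 ⊆ MF ℓ U := by
    intro G hG
    rcases Relation.ReflTransGen.cases_tail hG with h | ⟨d, -, h⟩
    · rw [← h] at hF; exact hF
    · exact h.1
  -- every face of `MF` is connected to a face which contains a point of `U`
  have hpt : ∀ G ∈ MF ℓ U, ∃ u ∈ U, ∃ G' ∈ MF ℓ U, u ∈ sqr ℓ G' ∧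
      Relation.ReflTransGen (Adj (MF ℓ U)) G G' ∧ Relation.ReflTransGen (Adj (MF ℓ U)) G' G := by
    intro G hG
    obtain ⟨u, hu, huU⟩ := hG
    obtain ⟨G', hG', huG⟩ := bk_subset hu
    have hm : G' ∈ MF ℓ U := ⟨u, by rw [hG']; exact hu, huU⟩
    refine ⟨u, huU, G', hm, huG, ?_⟩
    rcases brick_adj hG'.symm with rfl | hr
    · exact ⟨Relation.ReflTransGen.refl, Relation.ReflTransGen.refl⟩
    · exact ⟨Relation.ReflTransGen.single ⟨hm, hr⟩,
        Relation.ReflTransGen.single ⟨⟨u, hu, huU⟩, adj_symm hr⟩⟩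
  have hcov : U ⊆ reg ℓ T1 ∪ reg ℓ (MF ℓ U \ T1) := by
    intro z hz
    obtain ⟨G, hG⟩ := exists_sqr hℓ z
    by_cases h : G ∈ T1
    · exact Or.inl ⟨G, h, hG⟩
    · exact Or.inr ⟨G, ⟨mf_of_mem hℓ hz hG, h⟩, hG⟩
  obtain ⟨u, huU, G, hG, huG, h1, -⟩ := hpt F hF
  obtain ⟨u', huU', G', hG', huG', h2, h2'⟩ := hpt F' hF'
  have hGT : G ∈ T1 := h1
  have hGT' : G' ∉ T1 := fun h => hcon (Relation.ReflTransGen.trans h h2')
  obtain ⟨z, hz, ⟨E, hE, hzE⟩, E', ⟨hE', hEn⟩, hzE'⟩ := isPreconnected_closed_iff.1 hU _ _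
    (isClosed_reg hℓ _) (isClosed_reg hℓ _) hcov ⟨u, huU, G, hGT, huG⟩
    ⟨u', huU', G', ⟨hG', hGT'⟩, huG'⟩
  exact hEn (Relation.ReflTransGen.trans hE
    (conn_mix hℓ hE' hzE hzE' (mf_of_mem hℓ hz (mem_mix hzE hzE'))))

theorem finite_mf (hℓ : 0 < ℓ) (hU : Bornology.IsBounded U) : (MF ℓ U).Finite := by
  obtain ⟨R, hR⟩ := hU.subset_closedBall 0
  obtain ⟨n, hn⟩ := exists_nat_gt ((R + 3 * ℓ) / ℓ + 1)
  apply Set.Finite.subset ((Set.finite_Icc (-(n : ℤ)) n).prod (Set.finite_Icc (-(n : ℤ)) n))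
  intro F hF
  obtain ⟨u, hu, huU⟩ := hF
  have h0 := hR huU
  have h1 := dist_le_of_bk (obk_subset_bk (center_mem hℓ F)) hu
  rw [mem_closedBall] at h0
  have h2 := dist_triangle (⟨ℓ * (F.1 + 1 / 2), ℓ * (F.2 + 1 / 2)⟩ : ℂ) u 0
  rw [dist_zero_right] at h2
  have a1 := (Complex.abs_re_le_norm (⟨ℓ * (F.1 + 1 / 2), ℓ * (F.2 + 1 / 2)⟩ : ℂ))
  have a2 := (Complex.abs_im_le_norm (⟨ℓ * (F.1 + 1 / 2), ℓ * (F.2 + 1 / 2)⟩ : ℂ))
  simp only at a1 a2
  have key : ∀ a : ℤ, |ℓ * ((a : ℝ) + 1 / 2)| ≤ R + 3 * ℓ → -(n : ℤ) ≤ a ∧ a ≤ n := by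
    intro a ha
    rw [abs_mul, abs_of_pos hℓ] at ha
    have h3 : |(a : ℝ) + 1 / 2| ≤ (R + 3 * ℓ) / ℓ := by
      rw [le_div_iff₀ hℓ, mul_comm]; exact ha
    rw [abs_le] at h3
    have h4 : -(n : ℝ) ≤ a := by linarith [h3.1]
    have h5 : (a : ℝ) ≤ n := by linarith [h3.2]
    exact ⟨by exact_mod_cast h4, by exact_mod_cast h5⟩
  exact ⟨key _ (by linarith), key _ (by linarith)⟩

end Vale.Agent.P167.H450.Out
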