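import Vale.Agent.P153.R2.R1.Jan

/-!
# Transfer of a logarithm along a chain of joined points

`logOn_transfer` : if `(z - w) / (z - q)` has a continuous logarithm on `Z` and every point of `X` is
near a point of `V ⊆ Z`, where near points of `V` are joined in `Z` inside small balls which do not
contain `w` and `q`, then `(z - w) / (z - q)` has a continuous logarithm on `X`.
-/

namespace Vale.Agent.P167.H450.Out

open Set Metric
open Vale.Agent.P153.R2.R1

/-- The local logarithm. -/
noncomputable def lc (w q v z : ℂ) : ℂ :=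
  Complex.log ((z - w) / (v - w)) - Complex.log ((z - q) / (v - q))

theorem slit_of {w v z : ℂ} (h : dist z v < dist v w) : (z - w) / (v - w) ∈ Complex.slitPlane := by
  have h0 : 0 < dist v w := lt_of_le_of_lt dist_nonneg h
  have hne : v - w ≠ 0 := sub_ne_zero.2 (dist_pos.1 h0)
  have e : (z - w) / (v - w) = 1 + (z - v) / (v - w) := by
    field_simp
    ring
  rw [e]
  apply Complex.mem_slitPlane_of_norm_lt_one
  rw [norm_div, div_lt_one (norm_pos_iff.2 hne), ← dist_eq_norm, ← dist_eq_norm]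
  exact h

variable {w q v v' z : ℂ} {ρ s : ℝ}

theorem lc_cont (hw : ρ ≤ dist v w) (hq : ρ ≤ dist v q) : ContinuousOn (lc w q v) (ball v ρ) := by
  have h1 : ∀ x ∈ ball v ρ, (x - w) / (v - w) ∈ Complex.slitPlane :=
    fun x hx => slit_of (lt_of_lt_of_le (mem_ball.1 hx) hw)
  have h2 : ∀ x ∈ ball v ρ, (x - q) / (v - q) ∈ Complex.slitPlane :=
    fun x hx => slit_of (lt_of_lt_of_le (mem_ball.1 hx) hq)
  refine ContinuousOn.sub (ContinuousOn.clog ?_ h1) (ContinuousOn.clog ?_ h2)
  · exact (continuousOn_id.sub continuousOn_const).div_const _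
  · exact (continuousOn_id.sub continuousOn_const).div_const _

theorem lc_self (hw : v ≠ w) (hq : v ≠ q) : lc w q v v = 0 := by
  unfold lc
  rw [div_self (sub_ne_zero.2 hw), div_self (sub_ne_zero.2 hq), Complex.log_one, sub_zero]

theorem exp_lc (hw : ρ ≤ dist v w) (hq : ρ ≤ dist v q) (hz : z ∈ ball v ρ) :
    Complex.exp (lc w q v z) * ((v - w) / (v - q)) = (z - w) / (z - q) := by
  have h1 := slit_of (lt_of_lt_of_le (mem_ball.1 hz) hw)
  have h2 := slit_of (lt_of_lt_of_le (mem_ball.1 hz) hq)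
  have h0 : 0 < ρ := lt_of_le_of_lt dist_nonneg (mem_ball.1 hz)
  have hvw : v - w ≠ 0 := sub_ne_zero.2 (dist_pos.1 (lt_of_lt_of_le h0 hw))
  have hvq : v - q ≠ 0 := sub_ne_zero.2 (dist_pos.1 (lt_of_lt_of_le h0 hq))
  have hzq : z - q ≠ 0 := by
    intro h
    apply Complex.slitPlane_ne_zero h2
    rw [h, zero_div]
  unfold lc
  rw [Complex.exp_sub, Complex.exp_log (Complex.slitPlane_ne_zero h1),
    Complex.exp_log (Complex.slitPlane_ne_zero h2)]
  field_simp

/-- **Transfer of a logarithm.** -/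
theorem logOn_transfer {X Z V : Set ℂ} (hs : 0 < s) (H : LogOn Z w q) (hVZ : V ⊆ Z)
    (hX : ∀ z ∈ X, ∃ v ∈ V, dist z v ≤ s) (hw : ∀ v ∈ V, ρ ≤ dist v w)
    (hq : ∀ v ∈ V, ρ ≤ dist v q) (h4 : 4 * s < ρ)
    (hC : ∀ v ∈ V, ∀ v' ∈ V, dist v v' ≤ 4 * s → ∃ C : Set ℂ, IsPreconnected C ∧ C ⊆ Z ∧
      C ⊆ ball v ρ ∧ v ∈ C ∧ v' ∈ C) : LogOn X w q := by
  obtain ⟨H, hH, hHe⟩ := H
  have hρ : 0 < ρ := by linarith
  have hne : ∀ v ∈ V, v ≠ w ∧ v ≠ q := fun v hv =>
    ⟨dist_pos.1 (lt_of_lt_of_le hρ (hw v hv)), dist_pos.1 (lt_of_lt_of_le hρ (hq v hv))⟩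
  have hexp : ∀ v ∈ V, ∀ x ∈ ball v ρ, Complex.exp (H v + lc w q v x) = (x - w) / (x - q) := by
    intro v hv x hx
    rw [Complex.exp_add, hHe v (hVZ hv), mul_comm]
    exact exp_lc (hw v hv) (hq v hv) hx
  -- consistency
  have key : ∀ v ∈ V, ∀ v' ∈ V, ∀ z, dist z v ≤ 2 * s → dist z v' ≤ 2 * s →
      H v' + lc w q v' z = H v + lc w q v z := by
    intro v hv v' hv' z hz hz'
    have hd : dist v v' ≤ 4 * s := by
      have := dist_triangle_left v v' z
      linarith
    obtain ⟨C, hCp, hCZ, hCb, hvC, hvC'⟩ := hC v hv v' hv' hd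
    have hvb : v' ∈ ball v ρ := hCb hvC'
    have e1 : H v' = H v + lc w q v v' := by
      have := log_diff_const hCp (F := H) (G := fun x => H v + lc w q v x) (hH.mono hCZ)
        (continuousOn_const.add ((lc_cont (hw v hv) (hq v hv)).mono hCb))
        (fun x hx => by rw [hHe x (hCZ hx), hexp v hv x (hCb hx)]) hvC hvC'
      simp only [lc_self (hne v hv).1 (hne v hv).2, add_zero, sub_self] at this
      exact (sub_eq_zero.1 this.symm)
    have hsegb : segment ℝ v' z ⊆ ball v ρ := by
      apply (convex_ball v ρ).segment_subset hvb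
      rw [mem_ball]; linarith
    have hsegb' : segment ℝ v' z ⊆ ball v' ρ := by
      apply (convex_ball v' ρ).segment_subset (mem_ball_self hρ)
      rw [mem_ball]; linarith
    have := log_diff_const (convex_segment v' z).isPreconnected
      (F := fun x => H v' + lc w q v' x) (G := fun x => H v + lc w q v x)
      (continuousOn_const.add ((lc_cont (hw v' hv') (hq v' hv')).mono hsegb'))
      (continuousOn_const.add ((lc_cont (hw v hv) (hq v hv)).mono hsegb))
      (fun x hx => by rw [hexp v' hv' x (hsegb' hx), hexp v hv x (hsegb hx)])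
      (left_mem_segment ℝ v' z) (right_mem_segment ℝ v' z)
    simp only [lc_self (hne v' hv').1 (hne v' hv').2, add_zero] at this
    rw [← e1, sub_self] at this
    exact (sub_eq_zero.1 this.symm)
  classical
  choose! c hcV hcd using hX
  refine ⟨fun z => H (c z) + lc w q (c z) z, ?_, ?_⟩
  · intro z hz
    have hc := (lc_cont (hw _ (hcV z hz)) (hq _ (hcV z hz)))
    have hzb : z ∈ ball (c z) ρ := by
      rw [mem_ball]
      have := hcd z hz
      linarith
    have h1 : ContinuousAt (fun x => H (c z) + lc w q (c z) x) z :=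
      continuousAt_const.add (hc.continuousAt (isOpen_ball.mem_nhds hzb))
    refine (h1.continuousWithinAt (s := X)).congr_of_eventuallyEq ?_ rfl
    have : ∀ᶠ y in nhdsWithin z X, y ∈ ball z s := nhdsWithin_le_nhds (ball_mem_nhds z hs)
    filter_upwards [this, self_mem_nhdsWithin] with y hy hyX
    apply key (c z) (hcV z hz) (c y) (hcV y hyX)
    · rw [mem_ball] at hy
      have := dist_triangle y z (c z)
      have := hcd z hz
      linarith
    · have := hcd y hyX
      linarith
  · intro z hz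
    apply hexp _ (hcV z hz)
    rw [mem_ball]
    have := hcd z hz
    linarith

end Vale.Agent.P167.H450.Out
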