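import Vale.Agent.P167.H450.OutFill
import Vale.Agent.P167.H450.OutLog
import Vale.Agent.P167.H756.ThmA

/-!
# Polygons which contain the rough domain up to thin walls

`U` is an open connected part of the domain `D`, `Pm ℓ U` is the interior of the filled union of the
bricks which meet `U`. If any two points of `U` at distance at most `12 ℓ` are joined in `D` near
them (size `r`), then the points of `Pm ℓ U` at distance at least `r + 16 ℓ` from its boundary are in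
`D` (`OD.deep`).
-/

namespace Vale.Agent.P167.H450.Out

open Set Metric Vale.Agent.P167.E6 Vale.Agent.P167.H450
open Vale.Agent.P153.R2.R1

variable {ℓ r : ℝ} {D U : Set ℂ} {F F' : ℤ × ℤ} {y z w : ℂ}

/-- The outer polygon. -/
def Pm (ℓ : ℝ) (U : Set ℂ) : Set ℂ := interior (reg ℓ (Fil (MF ℓ U)))

/-- The data. -/
structure OD (ℓ r : ℝ) (D U : Set ℂ) : Prop where
  hℓ : 0 < ℓ
  hr : 0 ≤ r
  bdd : Bornology.IsBounded D
  opnD : IsOpen D
  pc : IsPreconnected Dᶜ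
  opnU : IsOpen U
  conn : IsPreconnected U
  ne : U.Nonempty
  sub : U ⊆ D
  nc : ∀ u ∈ U, ∀ u' ∈ U, dist u u' ≤ 12 * ℓ → ∃ C : Set ℂ, IsPreconnected C ∧ C ⊆ D ∧
    C ⊆ ball u r ∧ u ∈ C ∧ u' ∈ C

theorem isPreconnected_reg (hℓ : 0 < ℓ) {B : Set (ℤ × ℤ)} (hB : Conn B) :
    IsPreconnected (reg ℓ B) := by
  have step : ∀ {G G' : ℤ × ℤ}, (∃ r, G' = G + dir r) → (sqr ℓ G ∩ sqr ℓ G').Nonempty := by
    rintro ⟨a, b⟩ G' ⟨r, rfl⟩
    fin_cases r
    · refine ⟨⟨ℓ * (a + 1), ℓ * b⟩, ?_, ?_⟩ <;>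
        refine ⟨?_, ?_, ?_, ?_⟩ <;> simp [dir] <;> nlinarith
    · refine ⟨⟨ℓ * a, ℓ * (b + 1)⟩, ?_, ?_⟩ <;>
        refine ⟨?_, ?_, ?_, ?_⟩ <;> simp [dir] <;> nlinarith
    · refine ⟨⟨ℓ * a, ℓ * b⟩, ?_, ?_⟩ <;>
        refine ⟨?_, ?_, ?_, ?_⟩ <;> simp [dir] <;> nlinarith
    · refine ⟨⟨ℓ * a, ℓ * b⟩, ?_, ?_⟩ <;>
        refine ⟨?_, ?_, ?_, ?_⟩ <;> simp [dir] <;> nlinarith
  apply isPreconnected_of_forall_pair
  rintro x ⟨F, hF, hx⟩ y ⟨F', hF', hy⟩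
  have h := hB F hF F' hF'
  have key : ∀ G, Relation.ReflTransGen (Adj B) F G → ∃ C : Set ℂ, IsPreconnected C ∧
      C ⊆ reg ℓ B ∧ sqr ℓ F ⊆ C ∧ sqr ℓ G ⊆ C := by
    intro G hG
    induction hG with
    | refl => exact ⟨sqr ℓ F, isPreconnected_sqr ℓ F, fun z hz => ⟨F, hF, hz⟩, le_rfl, le_rfl⟩
    | @tail b c hab hbc ih =>
      obtain ⟨C, h1, h2, h3, h4⟩ := ih
      obtain ⟨z, hz, hz'⟩ := step hbc.2
      refine ⟨C ∪ sqr ℓ c, ?_, ?_, h3.trans subset_union_left, subset_union_right⟩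
      · exact IsPreconnected.union z (h4 hz) hz' h1 (isPreconnected_sqr ℓ c)
      · rintro u (hu | hu)
        · exact h2 hu
        · exact ⟨c, hbc.1, hu⟩
  obtain ⟨C, h1, h2, h3, h4⟩ := key F' h
  exact ⟨C, h2, h3 hx, h4 hy, h1⟩

theorem isOpen_Pm : IsOpen (Pm ℓ U) := isOpen_interior

theorem compl_Pm (hℓ : 0 < ℓ) : (Pm ℓ U)ᶜ = reg ℓ (Ofc (MF ℓ U)) := by
  ext z
  show z ∉ interior (reg ℓ (Fil (MF ℓ U))) ↔ _
  rw [mem_interior_iff hℓ]
  push Not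
  constructor
  · rintro ⟨F, hz, hF⟩
    exact ⟨F, by simpa [Fil] using hF, hz⟩
  · rintro ⟨F, hF, hz⟩
    exact ⟨F, hz, by simpa [Fil] using hF⟩

theorem sub_Pm (hℓ : 0 < ℓ) : U ⊆ Pm ℓ U := by
  intro z hz
  apply mem_interior_reg hℓ
  intro F hF
  exact sub_fil (mf_of_mem hℓ hz hF)

/-- A boundary point is in a brick which meets `U` and in a brick which does not. -/
theorem frontier_Pm (hℓ : 0 < ℓ) (hy : y ∈ frontier (Pm ℓ U)) :
    (∃ F ∈ MF ℓ U, y ∈ sqr ℓ F) ∧ ∃ G ∈ Ofc (MF ℓ U), y ∈ sqr ℓ G := by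
  have h1 : y ∉ Pm ℓ U := fun h => (disjoint_frontier_iff_isOpen.2 isOpen_Pm).le_bot ⟨hy, h⟩
  have h2 : y ∈ reg ℓ (Ofc (MF ℓ U)) := by rw [← compl_Pm hℓ]; exact h1
  refine ⟨?_, h2⟩
  obtain ⟨G, hG, hyG⟩ := h2
  have h3 : y ∈ reg ℓ (Fil (MF ℓ U)) :=
    closure_minimal interior_subset (isClosed_reg hℓ _) (frontier_subset_closure hy)
  obtain ⟨F, hF, hyF⟩ := h3
  by_contra hcon
  push Not at hcon
  have hn : ∀ E, y ∈ sqr ℓ E → E ∉ MF ℓ U := fun E hE hE' => hcon E hE' hE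
  exact hF (ofc_trans hG (conn_mix hℓ (hn F hyF) hyG hyF (hn _ (mem_mix hyG hyF))))

/-- A compact joining set. -/
theorem compact_join {O : Set ℂ} (hO : IsOpen O) {C : Set ℂ} (hC : IsPreconnected C) (hCO : C ⊆ O)
    {a b : ℂ} (ha : a ∈ C) (hb : b ∈ C) : ∃ K : Set ℂ, IsCompact K ∧ IsPreconnected K ∧ K ⊆ O ∧
      a ∈ K ∧ b ∈ K := by
  have h1 : b ∈ connectedComponentIn O a := hC.subset_connectedComponentIn ha hCO hb
  have h0 : a ∈ connectedComponentIn O a := mem_connectedComponentIn (hCO ha)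
  have h2 : IsPathConnected (connectedComponentIn O a) :=
    (hO.connectedComponentIn.isConnected_iff_isPathConnected).1
      ⟨⟨a, h0⟩, isPreconnected_connectedComponentIn⟩
  obtain ⟨γ, hγ⟩ := h2.joinedIn a h0 b h1
  refine ⟨range γ, isCompact_range γ.continuous, isPreconnected_range γ.continuous, ?_,
    ⟨0, γ.source⟩, ⟨1, γ.target⟩⟩
  rintro _ ⟨t, rfl⟩
  exact connectedComponentIn_subset _ _ (hγ t)

theorem isBounded_sqr (hℓ : 0 < ℓ) (F : ℤ × ℤ) : Bornology.IsBounded (sqr ℓ F) := by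
  rw [isBounded_iff]
  refine ⟨3 * ℓ, fun x hx y hy => ?_⟩
  exact dist_le_of_bk (sqr_subset_bk hℓ hx) (sqr_subset_bk hℓ hy)

namespace OD

variable (H : OD ℓ r D U)
include H

theorem bddU : Bornology.IsBounded U := H.bdd.subset H.sub

theorem fin : (MF ℓ U).Finite := finite_mf H.hℓ H.bddU

theorem finFil : (Fil (MF ℓ U)).Finite := finite_fil H.fin

theorem isBounded_Pm : Bornology.IsBounded (Pm ℓ U) := by
  apply Bornology.IsBounded.subset _ (interior_subset (s := reg ℓ (Fil (MF ℓ U))))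
  have e : reg ℓ (Fil (MF ℓ U)) = ⋃ F ∈ Fil (MF ℓ U), sqr ℓ F := by
    ext z
    simp [reg]
  rw [e]
  exact (Bornology.isBounded_biUnion H.finFil).2 fun F _ => isBounded_sqr H.hℓ F

/-- **The polygon.** -/
theorem exists_polygon : ∃ (S : Finset (ℤ × ℤ)) (n : ℕ) (p : ZMod n → ℤ × ℤ),
    (S : Set (ℤ × ℤ)) = Fil (MF ℓ U) ∧ IsPolygon p ∧ Encloses p S := by
  have hS : (H.finFil.toFinset : Set (ℤ × ℤ)) = Fil (MF ℓ U) := by simp
  refine ⟨H.finFil.toFinset, ?_⟩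
  have hne : H.finFil.toFinset.Nonempty := by
    obtain ⟨u, hu⟩ := H.ne
    obtain ⟨F, hF⟩ := exists_sqr H.hℓ u
    refine ⟨F, ?_⟩
    simp only [Finite.mem_toFinset]
    exact sub_fil (mf_of_mem H.hℓ hu hF)
  have h1 : Conn (H.finFil.toFinset : Set (ℤ × ℤ)) := by
    rw [hS]; exact conn_fil H.fin (conn_mf H.hℓ H.conn)
  have h2 : Conn {F | F ∉ H.finFil.toFinset} := by
    have e : {F | F ∉ H.finFil.toFinset} = Ofc (MF ℓ U) := by
      ext F
      simp [Fil]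
    rw [e]; exact conn_ofc
  have h3 : NoPinch H.finFil.toFinset := by
    apply noPinch_of_bricks
    intro F F' hb
    simp only [Finite.mem_toFinset]
    exact bricky_fil (bricky_mf ℓ U) F F' hb
  obtain ⟨n, p, hp, hE⟩ := H450.exists_polygon hne h1 h2 h3
  exact ⟨n, p, hS, hp, hE⟩

theorem pc_Pm : IsPreconnected (Pm ℓ U)ᶜ := by
  rw [compl_Pm H.hℓ]
  exact isPreconnected_reg H.hℓ conn_ofc

/-- **Deep points of the outer polygon are in the domain.** -/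
theorem deep (hw : w ∈ Pm ℓ U) (hd : ∀ y ∈ frontier (Pm ℓ U), r + 16 * ℓ ≤ dist w y) : w ∈ D := by
  by_contra hwD
  have hℓ := H.hℓ
  have hr := H.hr
  set X : Set ℂ := frontier (Pm ℓ U) with hX
  set ρ : ℝ := r + 13 * ℓ with hρ
  -- a point far away
  obtain ⟨R1, hR1⟩ := H.bdd.subset_closedBall 0
  obtain ⟨R2, hR2⟩ := H.isBounded_Pm.subset_closedBall 0
  set R3 : ℝ := |R1| + |R2| + ρ + 1 with hR3
  have a1 := le_abs_self R1
  have a2 := le_abs_self R2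
  have b1 := abs_nonneg R1
  have b2 := abs_nonneg R2
  have hR30 : 0 < R3 := by linarith
  have hqn : ‖(R3 : ℂ)‖ = R3 := by rw [Complex.norm_real, Real.norm_eq_abs, abs_of_pos hR30]
  have hqD : (R3 : ℂ) ∉ D := by
    intro h
    have := hR1 h
    rw [mem_closedBall_zero_iff, hqn] at this
    linarith
  have hXb : X ⊆ closedBall 0 R2 :=
    (frontier_subset_closure).trans (closure_minimal hR2 isClosed_closedBall)
  have hXc : IsCompact X :=
    (isCompact_closedBall (0 : ℂ) R2).of_isClosed_subset isClosed_frontier hXb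
  have hqP : (R3 : ℂ) ∉ Pm ℓ U := by
    intro h
    have := hR2 h
    rw [mem_closedBall_zero_iff, hqn] at this
    linarith
  have hqX : (R3 : ℂ) ∉ X := by
    intro h
    have := hXb h
    rw [mem_closedBall_zero_iff, hqn] at this
    linarith
  have hwX : w ∉ X := fun h => (disjoint_frontier_iff_isOpen.2 isOpen_Pm).le_bot ⟨h, hw⟩
  -- the centres
  have hch : ∀ F : ℤ × ℤ, ∃ u : ℂ, F ∈ MF ℓ U → u ∈ bk ℓ (br F) ∧ u ∈ U := by
    intro F
    by_cases hF : F ∈ MF ℓ U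
    · obtain ⟨u, hu, hu'⟩ := hF
      exact ⟨u, fun _ => ⟨hu, hu'⟩⟩
    · exact ⟨0, fun h => absurd h hF⟩
  choose c hc using hch
  set V : Set ℂ := c '' {F | F ∈ MF ℓ U ∧ ∃ y ∈ X, y ∈ sqr ℓ F} with hV
  have hVf : V.Finite := (H.fin.subset fun F hF => hF.1).image c
  have hVU : V ⊆ U := by
    rintro _ ⟨F, hF, rfl⟩
    exact (hc F hF.1).2
  have hVX : ∀ v ∈ V, ∃ y ∈ X, dist v y ≤ 3 * ℓ := by
    rintro _ ⟨F, ⟨hF, y, hy, hyF⟩, rfl⟩
    exact ⟨y, hy, dist_le_of_bk (hc F hF).1 (sqr_subset_bk hℓ hyF)⟩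
  -- the joining sets
  have hjoin : ∀ a : ℂ × ℂ, ∃ K : Set ℂ, IsCompact K ∧ K ⊆ D ∧ (a.1 ∈ V → a.2 ∈ V →
      dist a.1 a.2 ≤ 12 * ℓ → IsPreconnected K ∧ K ⊆ ball a.1 r ∧ a.1 ∈ K ∧ a.2 ∈ K) := by
    intro a
    by_cases h : a.1 ∈ V ∧ a.2 ∈ V ∧ dist a.1 a.2 ≤ 12 * ℓ
    · obtain ⟨C, h1, h2, h3, h4, h5⟩ := H.nc _ (hVU h.1) _ (hVU h.2.1) h.2.2
      obtain ⟨K, k1, k2, k3, k4, k5⟩ := compact_join (H.opnD.inter isOpen_ball) h1
        (subset_inter h2 h3) h4 h5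
      exact ⟨K, k1, k3.trans inter_subset_left, fun _ _ _ =>
        ⟨k2, k3.trans inter_subset_right, k4, k5⟩⟩
    · refine ⟨∅, isCompact_empty, empty_subset _, fun h1 h2 h3 => absurd ⟨h1, h2, h3⟩ h⟩
  choose J hJc hJD hJ using hjoin
  set Z : Set ℂ := V ∪ ⋃ a ∈ V ×ˢ V, J a with hZ
  have hZc : IsCompact Z :=
    hVf.isCompact.union ((hVf.prod hVf).isCompact_biUnion fun a _ => hJc a)
  have hZD : Z ⊆ D := by
    rintro x (hx | hx)
    · exact H.sub (hVU hx)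
    · simp only [mem_iUnion] at hx
      obtain ⟨a, -, hx⟩ := hx
      exact hJD a hx
  have hlog : LogOn Z w (R3 : ℂ) := logOn_of_preconnected hZc.isClosed H.pc
    (by rw [Set.disjoint_left]; exact fun x hx hx' => hx (hZD hx')) hwD hqD
  have hlogX : LogOn X w (R3 : ℂ) := by
    refine logOn_transfer (s := 3 * ℓ) (ρ := ρ) (V := V) (by linarith) hlog subset_union_left
      ?_ ?_ ?_ (by rw [hρ]; linarith) ?_
    · intro y hy
      obtain ⟨⟨F, hF, hyF⟩, -⟩ := frontier_Pm hℓ hy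
      exact ⟨c F, ⟨F, ⟨hF, y, hy, hyF⟩, rfl⟩, dist_le_of_bk (sqr_subset_bk hℓ hyF) (hc F hF).1⟩
    · intro v hv
      obtain ⟨y, hy, hvy⟩ := hVX v hv
      have h1 := hd y hy
      have h2 := dist_triangle w v y
      rw [dist_comm w v] at h2
      rw [hρ]; linarith
    · intro v hv
      have h1 := hR1 (H.sub (hVU hv))
      rw [mem_closedBall_zero_iff] at h1
      have h2 := norm_sub_norm_le (R3 : ℂ) v
      rw [hqn] at h2
      rw [dist_comm, dist_eq_norm]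
      linarith
    · intro v hv v' hv' hvv
      obtain ⟨h1, h2, h3, h4⟩ := hJ (v, v') hv hv' (by linarith)
      refine ⟨J (v, v'), h1, ?_, h2.trans (ball_subset_ball (by rw [hρ]; linarith)), h3, h4⟩
      exact fun x hx => Or.inr (mem_biUnion (⟨hv, hv'⟩ : ((v, v') : ℂ × ℂ) ∈ V ×ˢ V) hx)
  have hcomp := mem_component_of_log hXc hwX hqX hlogX
  have hsub : connectedComponentIn Xᶜ w ⊆ Pm ℓ U :=
    subset_of_frontier isOpen_Pm isPreconnected_connectedComponentIn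
      ⟨w, mem_connectedComponentIn hwX, hw⟩ (by
        rw [Set.disjoint_left]
        exact fun x hx hx' => connectedComponentIn_subset _ _ hx hx')
  exact hqP (hsub hcomp)

end OD

end Vale.Agent.P167.H450.Out
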