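import Vale.Agent.P167.H450.OutP

/-!
# The common inner domain

`Qt ℓ R U F₀` is the inner brick polygon of the outer polygon `Pm ℓ U` at depth `R`. It is an inner
polygon both of `Pm ℓ U` and of the rough domain `D` (`inner_P`, `collar_P`, `inner_D`, `collar_D`).
-/

namespace Vale.Agent.P167.H450.Out

open Set Metric Topology Filter Vale.Agent.P167.E6 Vale.Agent.P167.H450
open Vale.Agent.P167.H756 (Inner Collar)

variable {ℓ r R h : ℝ} {D U P Q : Set ℂ} {F₀ : ℤ × ℤ} {x y z z₀ : ℂ}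

/-- The inner polygon of the outer polygon. -/
def Qt (ℓ R : ℝ) (U : Set ℂ) (F₀ : ℤ × ℤ) : Set ℂ :=
  interior (reg ℓ (Cmp (GF ℓ R (Pm ℓ U) (Pm ℓ U)) F₀))

theorem collar_iff : Collar D P h ↔
    ∀ y ∈ frontier P, ∃ k, k ∉ D ∧ JoinedIn (Pᶜ ∩ closedBall y h) y k := by
  constructor
  · intro H y hy
    obtain ⟨γ, h1, h2, h3, h4⟩ := H y hy
    refine ⟨γ 1, h3, JoinedIn.ofLine h1 h2 rfl ?_⟩
    rintro _ ⟨t, ht, rfl⟩
    exact ⟨(h4 t ht).1, mem_closedBall.2 (h4 t ht).2⟩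
  · intro H y hy
    obtain ⟨k, hk, γ, hγ⟩ := H y hy
    refine ⟨γ.extend, γ.continuous_extend.continuousOn, γ.extend_zero, ?_, ?_⟩
    · rw [γ.extend_one]; exact hk
    · intro t ht
      rw [Path.extend_apply γ ht]
      exact ⟨(hγ _).1, mem_closedBall.1 (hγ _).2⟩

/-- The exit of a path from an open set. -/
theorem exists_exit_path (hP : IsOpen P) {S : Set ℂ} {a b : ℂ} (ha : a ∈ closure P) (hb : b ∉ P)
    (h : JoinedIn S a b) : ∃ e ∈ frontier P, JoinedIn S a e := by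
  obtain ⟨γ, hγ⟩ := h
  have hK : IsCompact (Icc (0 : ℝ) 1 ∩ γ.extend ⁻¹' Pᶜ) :=
    isCompact_Icc.inter_right (hP.isClosed_compl.preimage γ.continuous_extend)
  obtain ⟨τ, ⟨hτ, hτP⟩, hleast⟩ := hK.exists_isLeast ⟨1, ⟨zero_le_one, le_rfl⟩, by
    show γ.extend 1 ∉ P
    rw [γ.extend_one]; exact hb⟩
  refine ⟨γ.extend τ, ?_, ?_⟩
  · rw [hP.frontier_eq]
    refine ⟨?_, hτP⟩
    rcases hτ.1.lt_or_eq with h0 | h0
    · have h1 : γ.extend τ ∈ closure (γ.extend '' Ico 0 τ) := by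
        have h2 : ContinuousWithinAt γ.extend (Ico 0 τ) τ := γ.continuous_extend.continuousWithinAt
        refine h2.mem_closure_image ?_
        rw [closure_Ico h0.ne]
        exact right_mem_Icc.2 h0.le
      refine closure_mono ?_ h1
      rintro _ ⟨t, ht, rfl⟩
      by_contra hcon
      exact absurd (hleast ⟨⟨ht.1, ht.2.le.trans hτ.2⟩, hcon⟩) (not_le.2 ht.2)
    · rw [← h0, γ.extend_zero]
      exact ha
  · refine JoinedIn.ofLine (f := fun s => γ.extend (τ * s))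
      (γ.continuous_extend.comp (continuous_const.mul continuous_id)).continuousOn ?_ ?_ ?_
    · simp
    · simp
    · rintro _ ⟨s, hs, rfl⟩
      have hs' : τ * s ∈ Icc (0 : ℝ) 1 :=
        ⟨mul_nonneg hτ.1 hs.1, mul_le_one₀ hτ.2 hs.1 hs.2⟩
      simp only
      rw [Path.extend_apply γ hs']
      exact hγ _

/-- The `R`-neighbourhood of a preconnected set is preconnected. -/
theorem preconn_thick {C : Set ℂ} (hC : IsPreconnected C) (hR : 0 < R) :
    IsPreconnected (⋃ z ∈ C, ball z R) := by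
  apply isPreconnected_of_forall_pair
  intro x hx x' hx'
  simp only [mem_iUnion, exists_prop] at hx hx'
  obtain ⟨z, hz, hxz⟩ := hx
  obtain ⟨z', hz', hxz'⟩ := hx'
  refine ⟨ball z R ∪ (C ∪ ball z' R), ?_, Or.inl hxz, Or.inr (Or.inr hxz'), ?_⟩
  · rintro u (hu | hu | hu)
    · exact mem_biUnion hz hu
    · exact mem_biUnion hu (mem_ball_self hR)
    · exact mem_biUnion hz' hu
  · refine IsPreconnected.union z (mem_ball_self hR) (Or.inl hz)
      (convex_ball z R).isPreconnected ?_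
    exact IsPreconnected.union z' hz' (mem_ball_self hR) hC (convex_ball z' R).isPreconnected

namespace OD

variable (H : OD ℓ r D U)
include H

/-- The inner polygon is given by the theorem for smooth domains. -/
theorem data (hR : 0 < R) (hg : F₀ ∈ GF ℓ R (Pm ℓ U) (Pm ℓ U)) :
    Data ℓ R (Pm ℓ U) (Pm ℓ U) F₀ where
  hℓ := H.hℓ
  hρ := hR
  bdd := H.isBounded_Pm
  pc := H.pc_Pm
  hDE := le_rfl
  flat := fun _ h1 h2 => absurd h1 h2
  good := hg

/-- Points near the complement of the outer polygon are not in the inner one. -/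
theorem margin_Q (hR : 0 < R) (hg : F₀ ∈ GF ℓ R (Pm ℓ U) (Pm ℓ U)) (hz : z ∈ Qt ℓ R U F₀) :
    ball z R ⊆ Pm ℓ U := (H.data hR hg).margin (interior_subset hz)

theorem ball_sub (hz : ball z (R + (r + 16 * ℓ)) ⊆ Pm ℓ U) : ball z R ⊆ D := by
  intro w hw
  have hℓ := H.hℓ
  have hr := H.hr
  rw [mem_ball] at hw
  apply H.deep
  · apply hz
    rw [mem_ball]; linarith
  · intro y hy
    by_contra hcon
    push Not at hcon
    have h1 : y ∈ Pm ℓ U := by
      apply hz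
      rw [mem_ball]
      have := dist_triangle y w z
      rw [dist_comm y w] at this
      linarith
    exact (disjoint_frontier_iff_isOpen.2 isOpen_Pm).le_bot ⟨hy, h1⟩

/-- The inner polygon is deep inside the domain. -/
theorem Q_sub {R' : ℝ} (hR' : 0 < R') (hR : R' + (r + 16 * ℓ) ≤ R)
    (hg : F₀ ∈ GF ℓ R (Pm ℓ U) (Pm ℓ U)) (hz : z ∈ Qt ℓ R U F₀) : ball z R' ⊆ D := by
  have hℓ := H.hℓ
  have hr := H.hr
  exact H.ball_sub ((ball_subset_ball hR).trans (H.margin_Q (by linarith) hg hz))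

theorem inner_P (hR : 0 < R) (hg : F₀ ∈ GF ℓ R (Pm ℓ U) (Pm ℓ U)) (hz₀ : z₀ ∈ sqr ℓ F₀) :
    Inner (Pm ℓ U) (Qt ℓ R U F₀) z₀ (R + 3 * ℓ) :=
  fun _ hC hz hb => (H.data hR hg).inner hC hz hz₀ hb

theorem collar_P (hR : 0 < R) (hg : F₀ ∈ GF ℓ R (Pm ℓ U) (Pm ℓ U)) :
    Collar (Pm ℓ U) (Qt ℓ R U F₀) (R + 3 * ℓ) := by
  intro y hy
  obtain ⟨g, h1, h2, h3, h4⟩ := (H.data hR hg).collar hy
  exact ⟨g, h1.continuousOn, h2, h3, h4⟩

theorem inner_D (hR : 0 < R) (hg : F₀ ∈ GF ℓ R (Pm ℓ U) (Pm ℓ U)) (hz₀ : z₀ ∈ sqr ℓ F₀)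
    {h₀ : ℝ} (hin : Inner D U z₀ h₀) : Inner D (Qt ℓ R U F₀) z₀ (h₀ + (R + 3 * ℓ)) := by
  intro C hC hz hb
  have hℓ := H.hℓ
  have hR3 : 0 < R + 3 * ℓ := by linarith
  have h1 : (⋃ z ∈ C, ball z (R + 3 * ℓ)) ⊆ U := by
    apply hin _ (preconn_thick hC hR3) (mem_biUnion hz (mem_ball_self hR3))
    intro x hx
    simp only [mem_iUnion, exists_prop] at hx
    obtain ⟨z, hz, hxz⟩ := hx
    refine Subset.trans (ball_subset_ball' ?_) (hb z hz)
    rw [mem_ball] at hxz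
    linarith
  exact H.inner_P hR hg hz₀ C hC hz fun z hz =>
    (subset_iUnion₂ (s := fun z (_ : z ∈ C) => ball z (R + 3 * ℓ)) z hz).trans
      (h1.trans (sub_Pm hℓ))

/-- A boundary point of the outer polygon is joined to the complement of the domain near it. -/
theorem exit_D {h₀ : ℝ} (hcol : Collar D U h₀) (h0 : 0 ≤ h₀) (hy : y ∈ frontier (Pm ℓ U)) :
    ∃ k, k ∉ D ∧ JoinedIn (closedBall y (3 * ℓ + h₀)) y k := by
  have hℓ := H.hℓ
  obtain ⟨⟨F, hF, hyF⟩, G, hG, hyG⟩ := frontier_Pm hℓ hy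
  obtain ⟨u, hu, huU⟩ := hF
  have hyU : y ∉ U := fun h => ofc_sub hG (mf_of_mem hℓ h hyG)
  have hseg : segment ℝ u y ⊆ closedBall y (3 * ℓ) := by
    apply (convex_closedBall y _).segment_subset
    · exact mem_closedBall.2 (dist_le_of_bk hu (sqr_subset_bk hℓ hyF))
    · exact mem_closedBall_self (by linarith)
  have hj : JoinedIn (segment ℝ u y) u y :=
    ((convex_segment u y).isPathConnected ⟨u, left_mem_segment ℝ u y⟩).joinedIn u
      (left_mem_segment ℝ u y) y (right_mem_segment ℝ u y)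
  obtain ⟨e, he, hje⟩ := exists_exit_path H.opnU (subset_closure huU) hyU hj
  have hes : e ∈ segment ℝ u y := hje.target_mem
  have hye : JoinedIn (segment ℝ u y) y e :=
    ((convex_segment u y).isPathConnected ⟨u, left_mem_segment ℝ u y⟩).joinedIn y
      (right_mem_segment ℝ u y) e hes
  obtain ⟨k, hk, hjk⟩ := collar_iff.1 hcol e he
  refine ⟨k, hk, (hye.mono ?_).trans (hjk.mono ?_)⟩
  · exact hseg.trans (closedBall_subset_closedBall (by linarith))
  · refine inter_subset_right.trans (closedBall_subset_closedBall' ?_)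
    have := mem_closedBall.1 (hseg hes)
    linarith

theorem collar_D (hR : 0 < R) (hg : F₀ ∈ GF ℓ R (Pm ℓ U) (Pm ℓ U)) {h₀ : ℝ} (h0 : 0 ≤ h₀)
    (hcol : Collar D U h₀) (hh : 3 * ℓ + h₀ < R) :
    Collar D (Qt ℓ R U F₀) (R + 3 * ℓ + (3 * ℓ + h₀)) := by
  have hℓ := H.hℓ
  rw [collar_iff]
  intro y hy
  obtain ⟨k₁, hk₁, hj₁⟩ := collar_iff.1 (H.collar_P hR hg) y hy
  have hQP : Qt ℓ R U F₀ ⊆ Pm ℓ U := fun z hz => H.margin_Q hR hg hz (mem_ball_self hR)
  have hyc : y ∈ closure (Pm ℓ U) := closure_mono hQP (frontier_subset_closure hy)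
  obtain ⟨e, he, hje⟩ := exists_exit_path isOpen_Pm hyc hk₁ hj₁
  obtain ⟨k, hk, hjk⟩ := H.exit_D hcol h0 he
  have heP : e ∉ Pm ℓ U := fun h => (disjoint_frontier_iff_isOpen.2 isOpen_Pm).le_bot ⟨he, h⟩
  have hed : dist e y ≤ R + 3 * ℓ := mem_closedBall.1 hje.target_mem.2
  refine ⟨k, hk, (hje.mono ?_).trans (hjk.mono ?_)⟩
  · exact inter_subset_inter_right _ (closedBall_subset_closedBall (by linarith))
  · intro x hx
    refine ⟨fun hxQ => heP ?_, ?_⟩
    · apply H.margin_Q hR hg hxQ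
      rw [mem_ball, dist_comm]
      exact lt_of_le_of_lt (mem_closedBall.1 hx) hh
    · rw [mem_closedBall] at hx ⊢
      have := dist_triangle x e y
      linarith

end OD

end Vale.Agent.P167.H450.Out
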