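import Vale.Agent.P167.H450.OutP

/-!
# Visible points of the outer polygon

`OD.visible`: a connected set which contains a deep point of the outer polygon and leaves the domain
meets one of the small connected sets of the domain which join points of `U` next to the boundary of
the outer polygon.
-/

namespace Vale.Agent.P167.H450.Out

open Set Metric Vale.Agent.P167.E6 Vale.Agent.P167.H450
open Vale.Agent.P153.R2.R1

variable {ℓ r : ℝ} {D U Γ : Set ℂ} {F F' : ℤ × ℤ} {y z w x₀ : ℂ}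

/-- The open brick is dense in the closed brick. -/
theorem exists_obk (hℓ : 0 < ℓ) {b : ℤ × ℤ} {u : ℂ} {O : Set ℂ} (hu : u ∈ bk ℓ b)
    (hO : O ∈ nhds u) : ∃ v ∈ obk ℓ b, v ∈ O := by
  obtain ⟨h1, h2, h3, h4⟩ := hu
  set c : ℂ := ⟨ℓ * (2 * b.1 - b.2 + 1), ℓ * (b.2 + 1 / 2)⟩ with hc
  have hcont : Continuous fun t : ℝ => u + (t : ℂ) * (c - u) := by fun_prop
  have h0 : (fun t : ℝ => u + (t : ℂ) * (c - u)) 0 = u := by simp
  have h5 : ∀ᶠ t : ℝ in nhds 0, u + (t : ℂ) * (c - u) ∈ O := by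
    apply hcont.continuousAt.eventually
    rw [h0]
    exact hO
  obtain ⟨η, hη, hb⟩ := Metric.eventually_nhds_iff.1 h5
  set t : ℝ := min (η / 2) (1 / 2) with ht
  have ht0 : 0 < t := lt_min (by linarith) (by norm_num)
  have ht1 : t ≤ 1 / 2 := min_le_right _ _
  have ht2 : t < η := lt_of_le_of_lt (min_le_left _ _) (by linarith)
  refine ⟨u + (t : ℂ) * (c - u), ?_, hb (by rw [Real.dist_eq, sub_zero, abs_of_pos ht0]; exact ht2)⟩
  have e1 : (u + (t : ℂ) * (c - u)).re = u.re + t * (ℓ * (2 * b.1 - b.2 + 1) - u.re) := by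
    simp [hc]
  have e2 : (u + (t : ℂ) * (c - u)).im = u.im + t * (ℓ * (b.2 + 1 / 2) - u.im) := by
    simp [hc]
  refine ⟨?_, ?_, ?_, ?_⟩
  · rw [e1]; nlinarith [mul_pos ht0 hℓ]
  · rw [e1]; nlinarith [mul_pos ht0 hℓ]
  · rw [e2]; nlinarith [mul_pos ht0 hℓ]
  · rw [e2]; nlinarith [mul_pos ht0 hℓ]

/-- **Visible points.** -/
theorem OD.visible (H : OD ℓ r D U) (hΓ : IsPreconnected Γ) (hx₀ : x₀ ∈ Γ) (hw : x₀ ∈ Pm ℓ U)
    (hd : ∀ y ∈ frontier (Pm ℓ U), r + 16 * ℓ ≤ dist x₀ y) (hΓD : (Γ ∩ Dᶜ).Nonempty) :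
    ∃ z ∈ Γ ∩ D, ∃ F ∈ MF ℓ U, ∃ y ∈ frontier (Pm ℓ U) ∩ sqr ℓ F, ∃ u ∈ obk ℓ (br F) ∩ U,
      ∃ J : Set ℂ, IsPreconnected J ∧ J ⊆ D ∧ J ⊆ ball u r ∧ z ∈ J ∧ u ∈ J := by
  by_contra hno
  have hℓ := H.hℓ
  have hr := H.hr
  set X : Set ℂ := frontier (Pm ℓ U) with hX
  set ρ : ℝ := r + 13 * ℓ with hρ
  -- a point far away
  obtain ⟨R1, hR1⟩ := H.bdd.subset_closedBall 0
  obtain ⟨R2, hR2⟩ := H.isBounded_Pm.subset_closedBall 0
  set R3 : ℝ := |R1| + |R2| + ρ + 1 with hR3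
  have a1 := le_abs_self R1
  have a2 := le_abs_self R2
  have b1 := abs_nonneg R1
  have b2 := abs_nonneg R2
  have hR30 : 0 < R3 := by linarith
  have hqn : ‖(R3 : ℂ)‖ = R3 := by rw [Complex.norm_real, Real.norm_eq_abs, abs_of_pos hR30]
  have hqD : (R3 : ℂ) ∉ D := by
    intro h
    have := hR1 h
    rw [mem_closedBall_zero_iff, hqn] at this
    linarith
  have hXb : X ⊆ closedBall 0 R2 :=
    (frontier_subset_closure).trans (closure_minimal hR2 isClosed_closedBall)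
  have hXc : IsCompact X :=
    (isCompact_closedBall (0 : ℂ) R2).of_isClosed_subset isClosed_frontier hXb
  have hqP : (R3 : ℂ) ∉ Pm ℓ U := by
    intro h
    have := hR2 h
    rw [mem_closedBall_zero_iff, hqn] at this
    linarith
  have hqX : (R3 : ℂ) ∉ X := by
    intro h
    have := hXb h
    rw [mem_closedBall_zero_iff, hqn] at this
    linarith
  have hwX : x₀ ∉ X := fun h => (disjoint_frontier_iff_isOpen.2 isOpen_Pm).le_bot ⟨h, hw⟩
  -- the centres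
  have hch : ∀ F : ℤ × ℤ, ∃ u : ℂ, F ∈ MF ℓ U → u ∈ obk ℓ (br F) ∧ u ∈ U := by
    intro F
    by_cases hF : F ∈ MF ℓ U
    · obtain ⟨u, hu, hu'⟩ := hF
      obtain ⟨v, hv, hv'⟩ := exists_obk hℓ hu (H.opnU.mem_nhds hu')
      exact ⟨v, fun _ => ⟨hv, hv'⟩⟩
    · exact ⟨0, fun h => absurd h hF⟩
  choose c hco using hch
  have hc : ∀ F ∈ MF ℓ U, c F ∈ bk ℓ (br F) ∧ c F ∈ U := fun F hF =>
    ⟨obk_subset_bk (hco F hF).1, (hco F hF).2⟩
  set V : Set ℂ := c '' {F | F ∈ MF ℓ U ∧ ∃ y ∈ X, y ∈ sqr ℓ F} with hV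
  have hVf : V.Finite := (H.fin.subset fun F hF => hF.1).image c
  have hVU : V ⊆ U := by
    rintro _ ⟨F, hF, rfl⟩
    exact (hc F hF.1).2
  have hVX : ∀ v ∈ V, ∃ y ∈ X, dist v y ≤ 3 * ℓ := by
    rintro _ ⟨F, ⟨hF, y, hy, hyF⟩, rfl⟩
    exact ⟨y, hy, dist_le_of_bk (hc F hF).1 (sqr_subset_bk hℓ hyF)⟩
  -- the joining sets
  have hjoin : ∀ a : ℂ × ℂ, ∃ K : Set ℂ, IsCompact K ∧ K ⊆ D ∧ (a.1 ∈ V → a.2 ∈ V →
      dist a.1 a.2 ≤ 12 * ℓ → IsPreconnected K ∧ K ⊆ ball a.1 r ∧ a.1 ∈ K ∧ a.2 ∈ K) ∧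
      (¬ (a.1 ∈ V ∧ a.2 ∈ V ∧ dist a.1 a.2 ≤ 12 * ℓ) → K = ∅) := by
    intro a
    by_cases h : a.1 ∈ V ∧ a.2 ∈ V ∧ dist a.1 a.2 ≤ 12 * ℓ
    · obtain ⟨C, h1, h2, h3, h4, h5⟩ := H.nc _ (hVU h.1) _ (hVU h.2.1) h.2.2
      obtain ⟨K, k1, k2, k3, k4, k5⟩ := compact_join (H.opnD.inter isOpen_ball) h1
        (subset_inter h2 h3) h4 h5
      exact ⟨K, k1, k3.trans inter_subset_left, fun _ _ _ =>
        ⟨k2, k3.trans inter_subset_right, k4, k5⟩, fun hn => absurd h hn⟩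
    · exact ⟨∅, isCompact_empty, empty_subset _, fun h1 h2 h3 => absurd ⟨h1, h2, h3⟩ h,
        fun _ => rfl⟩
  choose J hJc hJD hJ hJe using hjoin
  set Z : Set ℂ := V ∪ ⋃ a ∈ V ×ˢ V, J a with hZ
  have hZc : IsCompact Z :=
    hVf.isCompact.union ((hVf.prod hVf).isCompact_biUnion fun a _ => hJc a)
  have hZD : Z ⊆ D := by
    rintro x (hx | hx)
    · exact H.sub (hVU hx)
    · simp only [mem_iUnion] at hx
      obtain ⟨a, -, hx⟩ := hx
      exact hJD a hx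
  -- `Γ` avoids the joining sets
  have hΓJ : ∀ v ∈ V, ∀ v' ∈ V, dist v v' ≤ 12 * ℓ → Disjoint Γ (J (v, v')) := by
    intro v hv v' hv' hd'
    rw [Set.disjoint_left]
    intro x hxΓ hxJ
    obtain ⟨h1, h2, h3, h4⟩ := hJ (v, v') hv hv' hd'
    obtain ⟨F, ⟨hF, y, hy, hyF⟩, hcF⟩ := hv
    exact hno ⟨x, ⟨hxΓ, hJD _ hxJ⟩, F, hF, y, ⟨hy, hyF⟩, v, by rw [← hcF]; exact hco F hF,
      J (v, v'), h1, hJD _, h2, hxJ, h3⟩
  have hΓZ : Disjoint Γ Z := by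
    rw [Set.disjoint_left]
    rintro x hxΓ (hx | hx)
    · have hxx : dist x x ≤ 12 * ℓ := by rw [dist_self]; linarith
      obtain ⟨-, -, h3, -⟩ := hJ (x, x) hx hx hxx
      exact Set.disjoint_left.1 (hΓJ x hx x hx hxx) hxΓ h3
    · simp only [mem_iUnion] at hx
      obtain ⟨a, ⟨ha1, ha2⟩, hx⟩ := hx
      by_cases h : dist a.1 a.2 ≤ 12 * ℓ
      · exact Set.disjoint_left.1 (hΓJ _ ha1 _ ha2 h) hxΓ hx
      · rw [hJe a fun h' => h h'.2.2] at hx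
        exact hx
  obtain ⟨k, hkΓ, hkD⟩ := hΓD
  have hT : IsPreconnected (Dᶜ ∪ Γ) := IsPreconnected.union k hkD hkΓ H.pc hΓ
  have hlog : LogOn Z x₀ (R3 : ℂ) := logOn_of_preconnected hZc.isClosed hT
    (by
      rw [Set.disjoint_left]
      rintro x (hx | hx) hx'
      · exact hx (hZD hx')
      · exact Set.disjoint_left.1 hΓZ hx hx') (Or.inr hx₀) (Or.inl hqD)
  have hlogX : LogOn X x₀ (R3 : ℂ) := by
    refine logOn_transfer (s := 3 * ℓ) (ρ := ρ) (V := V) (by linarith) hlog subset_union_left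
      ?_ ?_ ?_ (by rw [hρ]; linarith) ?_
    · intro y hy
      obtain ⟨⟨F, hF, hyF⟩, -⟩ := frontier_Pm hℓ hy
      exact ⟨c F, ⟨F, ⟨hF, y, hy, hyF⟩, rfl⟩, dist_le_of_bk (sqr_subset_bk hℓ hyF) (hc F hF).1⟩
    · intro v hv
      obtain ⟨y, hy, hvy⟩ := hVX v hv
      have h1 := hd y hy
      have h2 := dist_triangle x₀ v y
      rw [dist_comm x₀ v] at h2
      rw [hρ]; linarith
    · intro v hv
      have h1 := hR1 (H.sub (hVU hv))
      rw [mem_closedBall_zero_iff] at h1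
      have h2 := norm_sub_norm_le (R3 : ℂ) v
      rw [hqn] at h2
      rw [dist_comm, dist_eq_norm]
      linarith
    · intro v hv v' hv' hvv
      obtain ⟨h1, h2, h3, h4⟩ := hJ (v, v') hv hv' (by linarith)
      refine ⟨J (v, v'), h1, ?_, h2.trans (ball_subset_ball (by rw [hρ]; linarith)), h3, h4⟩
      exact fun x hx => Or.inr (mem_biUnion (⟨hv, hv'⟩ : ((v, v') : ℂ × ℂ) ∈ V ×ˢ V) hx)
  have hcomp := mem_component_of_log hXc hwX hqX hlogX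
  have hsub : connectedComponentIn Xᶜ x₀ ⊆ Pm ℓ U :=
    subset_of_frontier isOpen_Pm isPreconnected_connectedComponentIn
      ⟨x₀, mem_connectedComponentIn hwX, hw⟩ (by
        rw [Set.disjoint_left]
        exact fun x hx hx' => connectedComponentIn_subset _ _ hx hx')
  exact hqP (hsub hcomp)

end Vale.Agent.P167.H450.Out
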