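import Vale.Agent.P167.H450.OutV
import Vale.Agent.P167.SG.Pos
import Vale.Agent.P153.R2.R1.Equi

/-!
# Sets in the disc for the mark

* `exit_compact`: a path from a point of an open set to a point outside, cut at the exit;
* `Hc σ s`: the half of the crosscut `|w + 1| = s` on the side `σ Im ≥ 0`; its image reaches the
  boundary (`half_end`);
* `Ωx s' δ'`: positions near `- 1` or on the side `σ Im < - δ'`; `gd_path`: points of `Gd` with a
  position in `Ωx` (with a margin) are joined inside `Gd ∩ Ωx` to a given point of the lower part.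
-/

set_option autoImplicit false

namespace Vale.Agent.P167.H450.Out

open Set Metric Filter Topology
open Vale.Agent.P153.R2.R1
open Vale.Agent.P167.SG

/-- A path cut at the first exit from an open set. -/
theorem exit_compact {P S : Set ℂ} (hP : IsOpen P) {a b : ℂ} (ha : a ∈ P) (hb : b ∉ P)
    (h : JoinedIn S a b) : ∃ e ∈ frontier P, ∃ K : Set ℂ, IsCompact K ∧ IsPreconnected K ∧ K ⊆ S ∧
      K ⊆ insert e P ∧ a ∈ K ∧ e ∈ K ∧ IsPreconnected (K \ {e}) ∧ e ∈ closure (K \ {e}) := by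
  obtain ⟨γ, hγ⟩ := h
  have hK : IsCompact (Icc (0 : ℝ) 1 ∩ γ.extend ⁻¹' Pᶜ) :=
    isCompact_Icc.inter_right (hP.isClosed_compl.preimage γ.continuous_extend)
  obtain ⟨τ, ⟨hτ, hτP⟩, hleast⟩ := hK.exists_isLeast ⟨1, ⟨zero_le_one, le_rfl⟩, by
    show γ.extend 1 ∉ P
    rw [γ.extend_one]; exact hb⟩
  have hin : ∀ t ∈ Ico 0 τ, γ.extend t ∈ P := by
    intro t ht
    by_contra hcon
    exact absurd (hleast ⟨⟨ht.1, ht.2.le.trans hτ.2⟩, hcon⟩) (not_le.2 ht.2)
  have h0 : 0 < τ := by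
    rcases hτ.1.lt_or_eq with h0 | h0
    · exact h0
    · exfalso
      apply hτP
      rw [← h0, γ.extend_zero]
      exact ha
  have h1 : γ.extend τ ∈ closure (γ.extend '' Ico 0 τ) := by
    have h2 : ContinuousWithinAt γ.extend (Ico 0 τ) τ := γ.continuous_extend.continuousWithinAt
    refine h2.mem_closure_image ?_
    rw [closure_Ico h0.ne]
    exact right_mem_Icc.2 h0.le
  have hdiff : γ.extend '' Icc 0 τ \ {γ.extend τ} = γ.extend '' Ico 0 τ := by
    apply Subset.antisymm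
    · rintro _ ⟨⟨t, ht, rfl⟩, hne⟩
      rcases ht.2.lt_or_eq with h | h
      · exact ⟨t, ⟨ht.1, h⟩, rfl⟩
      · exact absurd (by rw [h]; rfl) hne
    · rintro _ ⟨t, ht, rfl⟩
      refine ⟨⟨t, ⟨ht.1, ht.2.le⟩, rfl⟩, fun h => hτP ?_⟩
      have h' : γ.extend t = γ.extend τ := h
      rw [← h']
      exact hin t ht
  refine ⟨γ.extend τ, ?_, γ.extend '' Icc 0 τ, isCompact_Icc.image γ.continuous_extend,
    isPreconnected_Icc.image _ γ.continuous_extend.continuousOn, ?_, ?_,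
    ⟨0, ⟨le_rfl, hτ.1⟩, γ.extend_zero⟩, ⟨τ, ⟨hτ.1, le_rfl⟩, rfl⟩, ?_, ?_⟩
  · rw [hP.frontier_eq]
    refine ⟨?_, hτP⟩
    refine closure_mono ?_ h1
    rintro _ ⟨t, ht, rfl⟩
    exact hin t ht
  · rintro _ ⟨t, ht, rfl⟩
    rw [Path.extend_apply γ ⟨ht.1, ht.2.trans hτ.2⟩]
    exact hγ _
  · rintro _ ⟨t, ht, rfl⟩
    rcases ht.2.lt_or_eq with h | h
    · exact Or.inr (hin t ⟨ht.1, h⟩)
    · exact Or.inl (by rw [h])
  · rw [hdiff]
    exact isPreconnected_Ico.image _ γ.continuous_extend.continuousOn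
  · rw [hdiff]
    exact h1

/-! ### The half crosscut -/

/-- Half of the crosscut `|w + 1| = s`. -/
noncomputable def Hc (σ s : ℝ) : Set ℂ := (fun θ : ℝ => arc (-1) s (σ * θ)) '' {θ | θ ∈ Th s ∧ 0 ≤ θ}

theorem th_mul {σ s θ : ℝ} (hσ : |σ| = 1) (h : θ ∈ Th s) : σ * θ ∈ Th s := by
  have hσ' : σ = 1 ∨ σ = -1 := by
    rcases abs_cases σ with ⟨h1, -⟩ | ⟨h1, -⟩ <;> [left; right] <;> linarith
  rcases hσ' with rfl | rfl
  · rwa [one_mul]
  · refine ⟨⟨?_, ?_⟩, ?_⟩
    · linarith [h.1.2]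
    · linarith [h.1.1]
    · have := h.2
      rwa [neg_one_mul, Real.cos_neg]

theorem hc_mem {σ s : ℝ} (hσ : |σ| = 1) (hs : 0 < s) {w : ℂ} (hw : w ∈ Hc σ s) :
    w ∈ ball (0 : ℂ) 1 ∧ ‖w + 1‖ = s ∧ 0 ≤ σ * w.im ∧ w ∈ cc (-1) s := by
  obtain ⟨θ, ⟨hθ, hθ0⟩, rfl⟩ := hw
  have h1 := arc_mem (ζ := -1) (by simp) hs (th_mul hσ hθ)
  have h2 := arc_dist (ζ := -1) (by simp) (θ := σ * θ) hs
  refine ⟨h1, ?_, ?_, h1, h2⟩
  · rw [dist_eq_norm, sub_neg_eq_add] at h2
    exact h2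
  · have e : (arc (-1) s (σ * θ)).im = s * Real.sin (σ * θ) := by
      have : arc (-1) s (σ * θ) = -1 + (s * Complex.exp ((σ * θ : ℝ) * Complex.I)) := by
        rw [arc]; ring
      rw [this, Complex.add_im, Complex.im_ofReal_mul, Complex.exp_ofReal_mul_I_im]
      simp
    simp only [e]
    have hσ' : σ = 1 ∨ σ = -1 := by
      rcases abs_cases σ with ⟨h1, -⟩ | ⟨h1, -⟩ <;> [left; right] <;> linarith
    have hsin : 0 ≤ Real.sin θ := Real.sin_nonneg_of_nonneg_of_le_pi hθ0 (by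
      have := hθ.1.2
      linarith [Real.pi_pos])
    rcases hσ' with rfl | rfl
    · rw [one_mul, one_mul]; positivity
    · rw [neg_one_mul, neg_one_mul, Real.sin_neg]
      have : 0 ≤ s * Real.sin θ := by positivity
      linarith

theorem hc_top {σ s : ℝ} (hs1 : s < 1) : (((-1 + s : ℝ) : ℂ)) ∈ Hc σ s := by
  refine ⟨0, ⟨⟨⟨by linarith [Real.pi_pos], by linarith [Real.pi_pos]⟩, ?_⟩, le_rfl⟩, ?_⟩
  · rw [Real.cos_zero]; linarith
  · simp only [mul_zero, arc, Complex.ofReal_zero, zero_mul, Complex.exp_zero, mul_one]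
    push_cast
    ring

theorem hc_conn (σ s : ℝ) : IsPreconnected (Hc σ s) := by
  have h : ({θ | θ ∈ Th s ∧ 0 ≤ θ} : Set ℝ).OrdConnected := by
    have := (ordConnected_Th s).inter (ordConnected_Ici (a := (0 : ℝ)))
    exact this
  refine h.isPreconnected.image _ ?_
  exact ((continuous_arc _ _).comp (continuous_const.mul continuous_id)).continuousOn

theorem half_end {φ : ℂ → ℂ} {D : Set ℂ} (h : Conf φ D) (hb : Bornology.IsBounded D) {σ s : ℝ}
    (hσ : |σ| = 1) (hs : 0 < s) (hs1 : s < 1) :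
    ∃ p ∈ frontier D, p ∈ closure (φ '' Hc σ s) := by
  set α : ℝ := Real.arccos (s / 2) with hα
  have hα0 : 0 < α := Real.arccos_pos.2 (by linarith)
  have hα1 : α < Real.pi / 2 := Real.arccos_lt_pi_div_two.2 (by linarith)
  have hcosα : Real.cos α = s / 2 := Real.cos_arccos (by linarith) (by linarith)
  have hσ' : σ = 1 ∨ σ = -1 := by
    rcases abs_cases σ with ⟨h1, -⟩ | ⟨h1, -⟩ <;> [left; right] <;> linarith
  have hTh : ∀ᶠ θ in 𝓝[<] α, θ ∈ Th s ∧ 0 ≤ θ := by
    filter_upwards [Ioo_mem_nhdsLT hα0] with θ hθ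
    refine ⟨⟨⟨by linarith [hθ.1], by linarith [hθ.2]⟩, ?_⟩, hθ.1.le⟩
    rw [← hcosα]
    exact Real.cos_lt_cos_of_nonneg_of_le_pi hθ.1.le (by linarith [Real.pi_pos]) hθ.2
  set u : ℝ → ℂ := fun θ => arc (-1) s (σ * θ) with hu
  have huc : Continuous u := (continuous_arc _ _).comp (continuous_const.mul continuous_id)
  have hum : ∀ θ, (θ ∈ Th s ∧ 0 ≤ θ) → u θ ∈ ball (0 : ℂ) 1 := fun θ hθ =>
    arc_mem (by simp) hs (th_mul hσ hθ.1)
  set F : Ultrafilter ℝ := Ultrafilter.of (𝓝[<] α) with hF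
  have hFle : (F : Filter ℝ) ≤ 𝓝[<] α := Ultrafilter.of_le _
  have hFle' : (F : Filter ℝ) ≤ 𝓝 α := hFle.trans nhdsWithin_le_nhds
  have hcomp : IsCompact (closure D) := hb.isCompact_closure
  have hmem : ∀ᶠ θ in (F : Filter ℝ), φ (u θ) ∈ closure D :=
    hFle (hTh.mono fun θ hθ => subset_closure (h.mem (hum θ hθ)))
  obtain ⟨p, hp, hlim⟩ := hcomp.ultrafilter_le_nhds (F.map fun θ => φ (u θ))
    (le_principal_iff.2 hmem)
  have hlim' : Tendsto (fun θ => φ (u θ)) F (𝓝 p) := hlim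
  refine ⟨p, ?_, ?_⟩
  · refine h.mem_frontier (l := (F : Filter ℝ)) (u := u)
      (hFle (hTh.mono fun θ hθ => hum θ hθ)) ?_ hlim'
    have h1 : Tendsto (fun θ => ‖u θ‖) F (𝓝 ‖u α‖) := (huc.norm.tendsto α).mono_left hFle'
    have h2 : ‖u α‖ = 1 := by
      rw [hu]
      simp only
      rw [arc, norm_mul, norm_neg, norm_one, one_mul, ← norm_neg, neg_sub]
      have h3 := norm_sub_one_sq s (σ * α)
      have hc2 : Real.cos (σ * α) = s / 2 := by
        rcases hσ' with rfl | rfl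
        · rw [one_mul, hcosα]
        · rw [neg_one_mul, Real.cos_neg, hcosα]
      rw [hc2] at h3
      have h4 : ‖(s : ℂ) * Complex.exp ((σ * α : ℝ) * Complex.I) - 1‖ ^ 2 = 1 := by rw [h3]; ring
      nlinarith [norm_nonneg ((s : ℂ) * Complex.exp ((σ * α : ℝ) * Complex.I) - 1)]
    rwa [h2] at h1
  · refine mem_closure_of_tendsto hlim' (hFle (hTh.mono fun θ hθ => ?_))
    exact mem_image_of_mem _ ⟨θ, hθ, rfl⟩

/-! ### The region of the bad positions -/

/-- Positions near `- 1` or on the other side. -/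
def Ωx (σ s' δ' : ℝ) : Set ℂ := {w | ‖w + 1‖ < s' ∨ σ * w.im < -δ'}

variable {ι : Type*} [Finite ι] {κ : ι → Set ℂ} {σ ε ε' xc e s' δ' m : ℝ}

omit [Finite ι] in
theorem core_mem (H : Obs e κ) (hem : e ≤ m) (hεm : ε ≤ m) (hm : 0 < m) (hm1 : m < 1) {w : ℂ}
    (hw : ‖w‖ < 1 - m) : w ∈ Gd σ ε ε' xc κ :=
  gd_of_norm H (by linarith) ⟨by linarith, Or.inl (by linarith)⟩ (by linarith)

theorem norm_q1 {σ s' : ℝ} (hσ : |σ| = 1) (hs : 0 < s') (hs1 : s' ≤ 1) :
    ‖(⟨-1 + s' / 2, -(σ * (s' / 2))⟩ : ℂ)‖ ≤ 1 - s' / 4 ∧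
      ‖(⟨-1 + s' / 2, -(σ * (s' / 2))⟩ : ℂ) + 1‖ < s' := by
  have hσ2 : σ ^ 2 = 1 := by rw [← sq_abs, hσ]; norm_num
  constructor
  · have h1 : ‖(⟨-1 + s' / 2, -(σ * (s' / 2))⟩ : ℂ)‖ ^ 2 ≤ (1 - s' / 4) ^ 2 := by
      rw [← Complex.normSq_eq_norm_sq, Complex.normSq_apply]
      simp only
      nlinarith
    exact abs_le_of_sq_le_sq' h1 (by linarith) |>.2
  · have h1 : ‖(⟨-1 + s' / 2, -(σ * (s' / 2))⟩ : ℂ) + 1‖ ^ 2 < s' ^ 2 := by
      rw [← Complex.normSq_eq_norm_sq, Complex.normSq_apply]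
      simp only [Complex.add_re, Complex.add_im, Complex.one_re, Complex.one_im]
      nlinarith
    exact lt_of_pow_lt_pow_left₀ 2 hs.le h1

theorem gd_path (H : Obs e κ) (he : 0 < e) (hem : e ≤ m) (hεm : ε ≤ m) (hσ : |σ| = 1)
    (hs1 : s' ≤ 1) (hms : 4 * m < s') (hδ : 2 * δ' < s') {q g : ℂ} (hq : ‖q‖ < 1 - m)
    (hq1 : σ * q.im < -δ') (hg : g ∈ Gd σ ε ε' xc κ)
    (hgx : ‖g + 1‖ < s' - 4 * e - 2 * m ∨ σ * g.im < -δ' - 4 * e - 2 * m) :
    JoinedIn (Gd σ ε ε' xc κ ∩ Ωx σ s' δ') g q := by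
  have hm : 0 < m := by linarith
  have hm1 : m < 1 := by linarith
  have hε : ε < 1 := by linarith
  obtain ⟨c, hc, hc1, hgc⟩ := gd_local (σ := σ) (ε' := ε') (xc := xc) H he (by linarith) hε hg
  have hσ2 : σ ^ 2 = 1 := by rw [← sq_abs, hσ]; norm_num
  have near : ∀ x : ℂ, dist x g < 4 * e + 2 * m → x ∈ Ωx σ s' δ' := by
    intro x hx
    rcases hgx with h | h
    · left
      have h1 : ‖x + 1‖ ≤ dist x g + ‖g + 1‖ := by
        have : x + 1 = (x - g) + (g + 1) := by ring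
        rw [this, dist_eq_norm]
        exact norm_add_le _ _
      linarith
    · right
      have h1 : |x.im - g.im| ≤ dist x g := by
        rw [dist_eq_norm, ← Complex.sub_im]; exact Complex.abs_im_le_norm _
      have h2 : σ * (x.im - g.im) ≤ |σ| * |x.im - g.im| := by
        rw [← abs_mul]; exact le_abs_self _
      rw [hσ, one_mul] at h2
      nlinarith
  have j1 : JoinedIn (Gd σ ε ε' xc κ ∩ Ωx σ s' δ') g c :=
    hgc.mono fun x hx => ⟨hx.1, near x (by have := mem_ball.1 hx.2; linarith)⟩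
  have hcg : dist c g < 4 * e := mem_ball.1 hgc.target_mem.2
  -- the radial segment
  set c' : ℂ := ((1 - 2 * m : ℝ) : ℂ) * c with hc'
  have hseg : segment ℝ c' c ⊆ Gd σ ε ε' xc κ ∩ Ωx σ s' δ' := by
    intro x hx
    have hxR := segment_rr hε hc (t := 1 - 2 * m) (by linarith) (by linarith) hx
    obtain ⟨a, b, ha, hb, hab, rfl⟩ := hx
    have e1 : a • c' + b • c = ((1 - a * (2 * m) : ℝ) : ℂ) * c := by
      have hb' : b = 1 - a := by linarith
      rw [hb', hc']
      simp only [Complex.real_smul]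
      push_cast
      ring
    have hle : ‖a • c' + b • c‖ ≤ ‖c‖ := by
      have h0 : 0 ≤ a * (2 * m) := by positivity
      have h1 : a * (2 * m) ≤ 1 * (2 * m) := mul_le_mul_of_nonneg_right (by linarith) (by linarith)
      rw [e1, norm_mul, Complex.norm_real, Real.norm_of_nonneg (by linarith)]
      exact mul_le_of_le_one_left (norm_nonneg c) (by linarith)
    refine ⟨gd_of_norm H hε hxR (by linarith), near _ ?_⟩
    have e2 : dist (a • c' + b • c) c ≤ 2 * m := by
      rw [dist_eq_norm, e1]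
      have : ((1 - a * (2 * m) : ℝ) : ℂ) * c - c = ((-(a * (2 * m)) : ℝ) : ℂ) * c := by
        push_cast; ring
      rw [this, norm_mul, Complex.norm_real, norm_neg, Real.norm_of_nonneg (by positivity)]
      have h1 : a * (2 * m) ≤ 1 * (2 * m) := mul_le_mul_of_nonneg_right (by linarith) (by linarith)
      have h2 : a * (2 * m) * ‖c‖ ≤ 1 * (2 * m) * 1 :=
        mul_le_mul h1 (by linarith) (norm_nonneg c) (by linarith)
      linarith
    have := dist_triangle (a • c' + b • c) c g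
    linarith
  have j2 : JoinedIn (Gd σ ε ε' xc κ ∩ Ωx σ s' δ') c c' :=
    (JoinedIn.of_segment_subset hseg).symm
  have hn' : ‖c'‖ < 1 - m := by
    rw [hc', norm_mul, Complex.norm_real, Real.norm_of_nonneg (by linarith)]
    nlinarith [norm_nonneg c]
  -- from the core
  have j3 : ∀ x : ℂ, ‖x‖ < 1 - m → σ * x.im < -δ' →
      JoinedIn (Gd σ ε ε' xc κ ∩ Ωx σ s' δ') x q := by
    intro x hx hx1
    refine JoinedIn.of_segment_subset ?_
    rintro y ⟨a, b, ha, hb, hab, rfl⟩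
    refine ⟨core_mem H hem hεm hm hm1 ?_, Or.inr ?_⟩
    · have : ‖a • x + b • q‖ ≤ a * ‖x‖ + b * ‖q‖ := by
        refine (norm_add_le _ _).trans ?_
        rw [norm_smul, norm_smul, Real.norm_of_nonneg ha, Real.norm_of_nonneg hb]
      rcases ha.eq_or_lt with rfl | ha0
      · have hb1 : b = 1 := by linarith
        rw [hb1] at this ⊢
        linarith
      · nlinarith [norm_nonneg x, norm_nonneg q]
    · simp only [Complex.add_im, Complex.smul_im, smul_eq_mul]
      rcases ha.eq_or_lt with rfl | ha0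
      · have hb1 : b = 1 := by linarith
        rw [hb1]; linarith
      · nlinarith
  have hmem : c' ∈ Ωx σ s' δ' := j2.target_mem.2
  rcases hmem with h | h
  · obtain ⟨n1, n2⟩ := norm_q1 hσ (by linarith : 0 < s') hs1
    set q1 : ℂ := ⟨-1 + s' / 2, -(σ * (s' / 2))⟩ with hq1'
    have hq1n : ‖q1‖ < 1 - m := by linarith
    have j4 : JoinedIn (Gd σ ε ε' xc κ ∩ Ωx σ s' δ') c' q1 := by
      refine JoinedIn.of_segment_subset ?_
      rintro y ⟨a, b, ha, hb, hab, rfl⟩
      refine ⟨core_mem H hem hεm hm hm1 ?_, Or.inl ?_⟩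
      · have : ‖a • c' + b • q1‖ ≤ a * ‖c'‖ + b * ‖q1‖ := by
          refine (norm_add_le _ _).trans ?_
          rw [norm_smul, norm_smul, Real.norm_of_nonneg ha, Real.norm_of_nonneg hb]
        rcases ha.eq_or_lt with rfl | ha0
        · have hb1 : b = 1 := by linarith
          rw [hb1] at this ⊢
          linarith
        · nlinarith [norm_nonneg c', norm_nonneg q1]
      · have e1 : a • c' + b • q1 + 1 = a • (c' + 1) + b • (q1 + 1) := by
          have ha' : a = 1 - b := by linarith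
          rw [ha']
          simp only [Complex.real_smul]
          push_cast
          ring
        have : ‖a • c' + b • q1 + 1‖ ≤ a * ‖c' + 1‖ + b * ‖q1 + 1‖ := by
          rw [e1]
          refine (norm_add_le _ _).trans ?_
          rw [norm_smul, norm_smul, Real.norm_of_nonneg ha, Real.norm_of_nonneg hb]
        rcases ha.eq_or_lt with rfl | ha0
        · have hb1 : b = 1 := by linarith
          rw [hb1] at this ⊢
          linarith
        · nlinarith [norm_nonneg (c' + 1), norm_nonneg (q1 + 1)]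
    have hq1i : σ * q1.im < -δ' := by
      have : σ * q1.im = -(s' / 2) := by
        rw [hq1']
        simp only
        linear_combination (-(s' / 2)) * hσ2
      rw [this]; linarith
    exact ((j1.trans j2).trans j4).trans (j3 q1 hq1n hq1i)
  · exact (j1.trans j2).trans (j3 c' hn' h)

end Vale.Agent.P167.H450.Out
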