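import Vale.Agent.P167.H450.OutX
import Vale.Agent.P167.H450.Cro

/-!
# The mark

`Mk`: the data. `Mk.exists_mark`: a visible boundary point `e` of the outer polygon, joined inside of
the polygon to the point `F (- 1 + s)` by a small set `K` whose points have safe positions.
`Mk.exists_X`: a boundary point with a bad position is joined inside of the polygon to the point `s₂`
of the other side of the target by a set which avoids the safe positions.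
`Mk.ord`: boundary points with bad positions are on the same side of the mark and the target as `s₂`.
-/

set_option autoImplicit false

namespace Vale.Agent.P167.H450.Out

open Set Metric Filter Topology
open Vale.Agent.P153.R2.R1 (Conf dinv JCurve)
open Vale.Agent.P167.SG Vale.Agent.P167.H450

theorem obk_Pm {ℓ : ℝ} {U : Set ℂ} {F : ℤ × ℤ} (hℓ : 0 < ℓ) (hF : F ∈ MF ℓ U) :
    obk ℓ (br F) ⊆ Pm ℓ U := by
  rintro z ⟨h1, h2, h3, h4⟩
  show z ∈ interior (reg ℓ (Fil (MF ℓ U)))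
  rw [mem_interior_iff hℓ]
  rintro G ⟨g1, g2, g3, g4⟩
  have a1 := lt_of_mul_lt_mul_left (lt_of_lt_of_le h1 g2) hℓ.le
  have a2 := lt_of_mul_lt_mul_left (lt_of_le_of_lt g1 h2) hℓ.le
  have a3 := lt_of_mul_lt_mul_left (lt_of_lt_of_le h3 g4) hℓ.le
  have a4 := lt_of_mul_lt_mul_left (lt_of_le_of_lt g3 h4) hℓ.le
  have b1 : 2 * (br F).1 - (br F).2 < G.1 + 1 := by exact_mod_cast a1
  have b2 : G.1 < 2 * (br F).1 - (br F).2 + 2 := by exact_mod_cast a2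
  have b3 : (br F).2 < G.2 + 1 := by exact_mod_cast a3
  have b4 : G.2 < (br F).2 + 1 := by exact_mod_cast a4
  have hb : br G = br F := by
    rw [br_eq_iff]
    constructor <;> omega
  exact sub_fil ((bricky_mf ℓ U G F hb).2 hF)

theorem segment_obk {ℓ : ℝ} {b : ℤ × ℤ} {y u x : ℂ} (hy : y ∈ bk ℓ b) (hu : u ∈ obk ℓ b)
    (hx : x ∈ segment ℝ y u) : x = y ∨ x ∈ obk ℓ b := by
  obtain ⟨s, t, hs, ht, hst, rfl⟩ := hx
  rcases ht.eq_or_lt with rfl | ht0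
  · left
    have : s = 1 := by linarith
    rw [this, one_smul, zero_smul, add_zero]
  · right
    obtain ⟨h1, h2, h3, h4⟩ := hy
    obtain ⟨g1, g2, g3, g4⟩ := hu
    have hs' : s = 1 - t := by linarith
    refine ⟨?_, ?_, ?_, ?_⟩ <;>
      simp only [Complex.add_re, Complex.add_im, Complex.smul_re, Complex.smul_im, smul_eq_mul] <;>
      rw [hs'] <;> nlinarith

/-- The data for the mark. -/
structure Mk {ι : Type*} (F : ℂ → ℂ) (σ ε ε' xc e ν r ℓ : ℝ) (κ : ι → Set ℂ)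
    (s s' δ' m h₁ t₁ : ℝ) (Bx Kb Xb : Set ℂ) (b s₂ q : ℂ) : Prop where
  sit : Sit F σ ε ε' xc e ν r ℓ κ
  hem : e ≤ m
  hεm : ε ≤ m
  hms : 4 * m < s'
  hδs : 2 * δ' < s'
  hδν : 3 * ν < δ'
  hss : s' + 3 * ν < s
  hs1 : s < 1
  top : F ((-1 + s : ℝ) : ℂ) ∈ Pm ℓ (Ug F σ ε ε' xc κ)
  deep : ∀ y ∈ frontier (Pm ℓ (Ug F σ ε ε' xc κ)), r + 16 * ℓ ≤ dist (F ((-1 + s : ℝ) : ℂ)) y
  cut : ∀ w ∈ Hc σ s, ∀ w' ∈ Hc σ s, dist (F w) (F w') ≤ h₁
  nc2 : ∀ u ∈ Ug F σ ε ε' xc κ, ∀ z ∈ F '' ball 0 1, dist u z ≤ 12 * ℓ →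
    s - 2 * ν ≤ ‖dinv F z + 1‖ → -(2 * ν) ≤ σ * (dinv F z).im → Jd (F '' ball 0 1) r u z
  far : ∀ x ∈ Bx, h₁ + 2 * r + 3 * ℓ < dist x (F ((-1 + s : ℝ) : ℂ))
  t₁s : -1 + s ≤ t₁
  t₁m : t₁ < 1 - m
  cb : IsCompact Kb
  pb : IsPreconnected Kb
  Kb_sub : Kb ⊆ insert b (Pm ℓ (Ug F σ ε ε' xc κ))
  Kb_bx : Kb ⊆ Bx
  b_mem : b ∈ Kb
  Kb_mem : F t₁ ∈ Kb
  cx : IsCompact Xb
  px : IsPreconnected Xb
  Xb_sub : Xb ⊆ insert s₂ (Pm ℓ (Ug F σ ε ε' xc κ))
  Xb_bx : Xb ⊆ Bx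
  s_mem : s₂ ∈ Xb
  q_mem : F q ∈ Xb
  qm : ‖q‖ < 1 - m
  qi : σ * q.im < -δ'
  KX : Disjoint Kb Xb
  Kpos : ∀ z ∈ Kb, z ∈ F '' ball 0 1 → dinv F z ∉ Ωx σ s' δ'
  Xpos : ∀ z ∈ Xb, z ∈ F '' ball 0 1 → σ * (dinv F z).im < -(2 * ν)

/-- The safe points of the domain. -/
def Sf (F : ℂ → ℂ) (σ ν s : ℝ) : Set ℂ :=
  {x | x ∈ F '' ball 0 1 ∧ s - 2 * ν ≤ ‖dinv F x + 1‖ ∧ -(2 * ν) ≤ σ * (dinv F x).im}

/-- The properties of the mark. -/
structure IsMk (P U : Set ℂ) (F : ℂ → ℂ) (σ ν s ℓ h₂ : ℝ) (x₀ e : ℂ) (K : Set ℂ) : Prop where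
  fr : e ∈ frontier P
  cpt : IsCompact K
  conn : IsPreconnected K
  sub : K ⊆ insert e P
  x₀_mem : x₀ ∈ K
  e_mem : e ∈ K
  conn' : IsPreconnected (K \ {e})
  cl : e ∈ closure (K \ {e})
  small : K ⊆ closedBall x₀ h₂
  safe : ∀ x ∈ K, x ∈ Sf F σ ν s ∨ ∃ u ∈ U ∩ Sf F σ ν s, dist x u ≤ 3 * ℓ

theorem far_of {σ ν s s' δ' : ℝ} (hσ : |σ| = 1) (h1 : s' + 3 * ν < s) (h2 : 3 * ν < δ') {w w' : ℂ}
    (hw1 : s - 2 * ν ≤ ‖w + 1‖) (hw2 : -(2 * ν) ≤ σ * w.im) (hw' : w' ∈ Ωx σ s' δ') :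
    ν < dist w w' := by
  rcases hw' with h | h
  · have h3 : ‖w + 1‖ ≤ dist w w' + ‖w' + 1‖ := by
      have : w + 1 = (w - w') + (w' + 1) := by ring
      rw [this, dist_eq_norm]
      exact norm_add_le _ _
    linarith
  · have h3 : |w.im - w'.im| ≤ dist w w' := by
      rw [dist_eq_norm, ← Complex.sub_im]; exact Complex.abs_im_le_norm _
    have h4 : σ * (w.im - w'.im) ≤ |σ| * |w.im - w'.im| := by
      rw [← abs_mul]; exact le_abs_self _
    rw [hσ, one_mul] at h4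
    nlinarith

variable {ι : Type*} {F : ℂ → ℂ} {σ ε ε' xc e ν r ℓ : ℝ} {κ : ι → Set ℂ}
  {s s' δ' m h₁ t₁ : ℝ} {Bx Kb Xb : Set ℂ} {b s₂ q : ℂ}

namespace Mk

variable (M : Mk F σ ε ε' xc e ν r ℓ κ s s' δ' m h₁ t₁ Bx Kb Xb b s₂ q)
include M

theorem s0 : 0 < s := by
  have := M.hms
  have := M.hem
  have := M.sit.he
  have := M.sit.hν
  have := M.hss
  linarith

/-- **The mark.** -/
theorem exists_mark : ∃ e' K, IsMk (Pm ℓ (Ug F σ ε ε' xc κ)) (Ug F σ ε ε' xc κ) F σ ν s ℓ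
    (h₁ + 2 * r + 3 * ℓ) (F ((-1 + s : ℝ) : ℂ)) e' K := by
  have H := M.sit
  have hℓ := H.od.hℓ
  have hr := H.od.hr
  have hν := H.hν
  have hs0 := M.s0
  have hconf := H.conf
  set U := Ug F σ ε ε' xc κ with hU
  set D := F '' ball 0 1 with hD
  set x₀ : ℂ := F ((-1 + s : ℝ) : ℂ) with hx₀
  have htop : (((-1 + s : ℝ) : ℂ)) ∈ Hc σ s := hc_top M.hs1
  have hcont : ContinuousOn F (Hc σ s) := hconf.diff.continuousOn.mono fun w hw =>
    (hc_mem H.hσ hs0 hw).1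
  obtain ⟨p, hp, hpc⟩ := half_end hconf H.od.bdd H.hσ hs0 M.hs1
  have hpD : p ∉ D := by
    rw [hconf.isOpen.frontier_eq] at hp
    exact hp.2
  have hΓ : IsPreconnected (insert p (F '' Hc σ s)) := by
    refine (hc_conn σ s).image F hcont |>.subset_closure (subset_insert _ _) ?_
    rintro x (rfl | hx)
    · exact hpc
    · exact subset_closure hx
  obtain ⟨z, ⟨hz, hzD⟩, G, hG, y, ⟨hy, hyG⟩, u, ⟨huo, huU⟩, J, hJ1, hJ2, hJ3, hzJ, huJ⟩ :=
    H.od.visible hΓ (Or.inr ⟨_, htop, rfl⟩) M.top M.deep ⟨p, Or.inl rfl, hpD⟩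
  obtain ⟨w, hw, rfl⟩ : z ∈ F '' Hc σ s := by
    rcases hz with rfl | hz
    · exact absurd hzD hpD
    · exact hz
  have huD : u ∈ D := H.sub huU
  set C : Set ℂ := connectedComponentIn (D ∩ ball u r) u with hC
  have hDo : IsOpen D := hconf.isOpen
  have hub : u ∈ ball u r := hJ3 huJ
  have hJC : J ⊆ C := hJ1.subset_connectedComponentIn huJ (subset_inter hJ2 hJ3)
  have hCsub : C ⊆ D ∩ ball u r := connectedComponentIn_subset _ _
  have hCo : IsOpen (D ∩ ball u r) := hDo.inter isOpen_ball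
  have hCp : IsPathConnected C :=
    (hCo.connectedComponentIn.isConnected_iff_isPathConnected).1
      ⟨⟨u, mem_connectedComponentIn ⟨huD, hub⟩⟩, isPreconnected_connectedComponentIn⟩
  -- positions on `C`
  have hpos : ∀ x ∈ C, dist (dinv F u) (dinv F x) ≤ ν := fun x hx =>
    H.smr u huD C (hCsub.trans inter_subset_left) isPreconnected_connectedComponentIn
      (hCsub.trans inter_subset_right) (mem_connectedComponentIn ⟨huD, hub⟩) x hx
  obtain ⟨hw1, hw2, hw3, -⟩ := hc_mem H.hσ hs0 hw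
  have hposw : dinv F (F w) = w := hconf.dinv_apply hw1
  have hsafeC : ∀ x ∈ C, x ∈ Sf F σ ν s := by
    intro x hx
    have h1 := hpos x hx
    have h2 := hpos (F w) (hJC hzJ)
    rw [hposw] at h2
    have h3 : dist (dinv F x) w ≤ 2 * ν := by
      have := dist_triangle_left (dinv F x) w (dinv F u)
      linarith
    refine ⟨(hCsub hx).1, ?_, ?_⟩
    · have h4 : ‖w + 1‖ ≤ dist (dinv F x) w + ‖dinv F x + 1‖ := by
        have : w + 1 = -(dinv F x - w) + (dinv F x + 1) := by ring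
        rw [this, dist_eq_norm, ← norm_neg (dinv F x - w)]
        exact norm_add_le _ _
      linarith
    · have h4 : |w.im - (dinv F x).im| ≤ dist (dinv F x) w := by
        rw [dist_comm, dist_eq_norm, ← Complex.sub_im]; exact Complex.abs_im_le_norm _
      have h5 : σ * (w.im - (dinv F x).im) ≤ |σ| * |w.im - (dinv F x).im| := by
        rw [← abs_mul]; exact le_abs_self _
      rw [H.hσ, one_mul] at h5
      nlinarith
  -- the path
  have hHp : IsPathConnected (F '' Hc σ s) := by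
    have hconv : Convex ℝ ({θ | θ ∈ P153.R2.R1.Th s ∧ 0 ≤ θ} : Set ℝ) := by
      have h : ({θ | θ ∈ P153.R2.R1.Th s ∧ 0 ≤ θ} : Set ℝ).OrdConnected :=
        (P153.R2.R1.ordConnected_Th s).inter (ordConnected_Ici (a := (0 : ℝ)))
      exact h.convex
    have hne : ({θ | θ ∈ P153.R2.R1.Th s ∧ 0 ≤ θ} : Set ℝ).Nonempty := by
      obtain ⟨θ, hθ, -⟩ := htop
      exact ⟨θ, hθ⟩
    have h1 := (hconv.isPathConnected hne).image'
      (f := fun θ : ℝ => P153.R2.R1.arc (-1) s (σ * θ))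
      (((P153.R2.R1.continuous_arc _ _).comp (continuous_const.mul continuous_id)).continuousOn)
    exact h1.image' hcont
  have j1 : JoinedIn (F '' Hc σ s) x₀ (F w) := hHp.joinedIn _ ⟨_, htop, rfl⟩ _ ⟨w, hw, rfl⟩
  have j2 : JoinedIn C (F w) u := hCp.joinedIn _ (hJC hzJ) _ (hJC huJ)
  have j3 : JoinedIn (segment ℝ u y) u y := JoinedIn.of_segment_subset subset_rfl
  have j4 : JoinedIn (F '' Hc σ s ∪ C ∪ segment ℝ u y) x₀ y :=
    ((j1.mono (subset_union_left.trans subset_union_left)).trans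
      (j2.mono (subset_union_right.trans subset_union_left))).trans (j3.mono subset_union_right)
  have hyP : y ∉ Pm ℓ U := fun h => (disjoint_frontier_iff_isOpen.2 isOpen_Pm).le_bot ⟨hy, h⟩
  obtain ⟨e', he', K, k1, k2, k3, k4, k5, k6, k7, k8⟩ := exit_compact isOpen_Pm M.top hyP j4
  have huy : dist u y ≤ 3 * ℓ := dist_le_of_bk (obk_subset_bk huo) (sqr_subset_bk hℓ hyG)
  have hseg : ∀ x ∈ segment ℝ u y, dist x u ≤ 3 * ℓ := fun x hx =>
    (dist_segment hx (left_mem_segment ℝ u y)).trans huy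
  have hwx : dist (F w) x₀ ≤ h₁ := M.cut w hw _ htop
  have huz : dist u (F w) < r := by
    rw [dist_comm]
    exact mem_ball.1 (hJ3 hzJ)
  refine ⟨e', K, he', k1, k2, k4, k5, k6, k7, k8, ?_, ?_⟩
  · intro x hx
    rw [mem_closedBall]
    rcases k3 hx with (⟨w', hw', rfl⟩ | hx) | hx
    · have := M.cut w' hw' _ htop
      linarith
    · have h1 := mem_ball.1 (hCsub hx).2
      have h2 := dist_triangle4 x u (F w) x₀
      linarith
    · have h1 := hseg x hx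
      have h2 := dist_triangle4 x u (F w) x₀
      linarith
  · intro x hx
    rcases k3 hx with (⟨w', hw', rfl⟩ | hx) | hx
    · left
      obtain ⟨g1, g2, g3, -⟩ := hc_mem H.hσ hs0 hw'
      refine ⟨⟨w', g1, rfl⟩, ?_, ?_⟩
      · rw [hconf.dinv_apply g1]; linarith
      · rw [hconf.dinv_apply g1]; linarith
    · exact Or.inl (hsafeC x hx)
    · exact Or.inr ⟨u, ⟨huU, hsafeC u (hJC huJ)⟩, hseg x hx⟩

/-- The bad positions. -/
theorem bad_open {u : ℂ} (hu : u ∈ Ug F σ ε ε' xc κ)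
    (hbad : ‖dinv F u + 1‖ < s' - 4 * e - 2 * m ∨ σ * (dinv F u).im < -δ' - 4 * e - 2 * m) :
    {v | v ∈ F '' ball 0 1 ∧ (‖dinv F v + 1‖ < s' - 4 * e - 2 * m ∨
      σ * (dinv F v).im < -δ' - 4 * e - 2 * m)} ∈ 𝓝 u := by
  have H := M.sit
  have hc := H.conf.dinv_continuousAt (H.sub hu)
  have hD : F '' ball 0 1 ∈ 𝓝 u := H.conf.isOpen.mem_nhds (H.sub hu)
  rcases hbad with h | h
  · have h1 : ContinuousAt (fun v => ‖dinv F v + 1‖) u := (hc.add continuousAt_const).norm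
    filter_upwards [hD, h1.eventually_lt_const h] with v hv hv'
    exact ⟨hv, Or.inl hv'⟩
  · have h1 : ContinuousAt (fun v => σ * (dinv F v).im) u :=
      continuousAt_const.mul (Complex.continuous_im.continuousAt.comp hc)
    filter_upwards [hD, h1.eventually_lt_const h] with v hv hv'
    exact ⟨hv, Or.inr hv'⟩

/-- **The set from a bad boundary point.** -/
theorem exists_X [Finite ι] (hs' : s' ≤ 1) {y u : ℂ} {G : ℤ × ℤ}
    (hy : y ∈ frontier (Pm ℓ (Ug F σ ε ε' xc κ))) (hG : G ∈ MF ℓ (Ug F σ ε ε' xc κ))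
    (hyG : y ∈ sqr ℓ G) (hu : u ∈ bk ℓ (br G)) (huU : u ∈ Ug F σ ε ε' xc κ)
    (hbad : ‖dinv F u + 1‖ < s' - 4 * e - 2 * m ∨ σ * (dinv F u).im < -δ' - 4 * e - 2 * m) :
    ∃ v ∈ Ug F σ ε ε' xc κ, dinv F v ∈ Ωx σ s' δ' ∧ ∃ X : Set ℂ, IsCompact X ∧ IsPreconnected X ∧
      X ⊆ insert y (insert s₂ (Pm ℓ (Ug F σ ε ε' xc κ))) ∧ y ∈ X ∧ s₂ ∈ X ∧
      ∀ x ∈ X, (x ∈ Ug F σ ε ε' xc κ ∧ dinv F x ∈ Ωx σ s' δ') ∨
        (dist x v ≤ 3 * ℓ ∧ dist x y ≤ 3 * ℓ) ∨ x ∈ Xb := by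
  have H := M.sit
  have hℓ := H.od.hℓ
  obtain ⟨v, hvo, ⟨hvD, hvbad⟩, hvU⟩ := exists_obk hℓ hu
    (Filter.inter_mem (M.bad_open huU hbad) (H.od.opnU.mem_nhds huU))
  have hm0 : 0 < m := lt_of_lt_of_le H.he M.hem
  have hvΩ : dinv F v ∈ Ωx σ s' δ' := by
    have := H.he
    rcases hvbad with h | h
    · left; linarith
    · right; linarith
  have hpath := gd_path H.obs H.he M.hem M.hεm H.hσ hs' M.hms M.hδs M.qm M.qi (H.pos_gd hvU) hvbad
  obtain ⟨γ, hγ⟩ := hpath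
  have hFc : ContinuousOn F (range γ) := H.conf.diff.continuousOn.mono (by
    rintro _ ⟨t, rfl⟩
    exact rr_sub (gd_sub (hγ t).1).1)
  have hvy : dist y v ≤ 3 * ℓ := dist_le_of_bk (sqr_subset_bk hℓ hyG) (obk_subset_bk hvo)
  refine ⟨v, hvU, hvΩ, (segment ℝ y v ∪ F '' range γ) ∪ Xb, ?_, ?_, ?_, ?_, ?_, ?_⟩
  · refine (IsCompact.union ?_ ((isCompact_range γ.continuous).image_of_continuousOn hFc)).union
      M.cx
    rw [segment_eq_image]
    exact isCompact_Icc.image (by fun_prop)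
  · refine IsPreconnected.union (F q) (Or.inr ⟨q, ⟨1, γ.target⟩, rfl⟩) M.q_mem ?_ M.px
    refine IsPreconnected.union v (right_mem_segment ℝ y v)
      ⟨dinv F v, ⟨0, γ.source⟩, H.conf.apply_dinv hvD⟩ (convex_segment y v).isPreconnected
      ((isPreconnected_range γ.continuous).image _ hFc)
  · rintro x ((hx | ⟨_, ⟨t, rfl⟩, rfl⟩) | hx)
    · rcases segment_obk (sqr_subset_bk hℓ hyG) hvo hx with rfl | h
      · exact Or.inl rfl
      · exact Or.inr (Or.inr (obk_Pm hℓ hG h))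
    · exact Or.inr (Or.inr (sub_Pm hℓ ⟨_, (hγ t).1, rfl⟩))
    · exact Or.inr (M.Xb_sub hx)
  · exact Or.inl (Or.inl (left_mem_segment ℝ y v))
  · exact Or.inr M.s_mem
  · rintro x ((hx | ⟨_, ⟨t, rfl⟩, rfl⟩) | hx)
    · right; left
      refine ⟨(dist_segment hx (right_mem_segment ℝ y v)).trans hvy,
        (dist_segment hx (left_mem_segment ℝ y v)).trans hvy⟩
    · left
      refine ⟨⟨_, (hγ t).1, rfl⟩, ?_⟩
      rw [H.conf.dinv_apply (rr_sub (gd_sub (hγ t).1).1)]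
      exact (hγ t).2
    · exact Or.inr (Or.inr hx)

/-- Two points of `U` near each other have near positions. -/
theorem no_near {u v : ℂ} (hu : u ∈ Ug F σ ε ε' xc κ) (hus : u ∈ Sf F σ ν s)
    (hv : v ∈ Ug F σ ε ε' xc κ) (hvb : dinv F v ∈ Ωx σ s' δ') (h : dist u v ≤ 12 * ℓ) : False := by
  have h1 := M.sit.close hu hv h
  have h2 := far_of M.sit.hσ M.hss M.hδν hus.2.1 hus.2.2 hvb
  linarith

/-- A safe point of the domain near a point of `U` with a bad position. -/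
theorem no_near' {z v : ℂ} (hz : z ∈ Sf F σ ν s)
    (hv : v ∈ Ug F σ ε ε' xc κ) (hvb : dinv F v ∈ Ωx σ s' δ') (h : dist z v ≤ 12 * ℓ) : False := by
  have h1 := M.sit.close' (M.sit.sub hv)
    (M.nc2 v hv z hz.1 (by rw [dist_comm]; exact h) hz.2.1 hz.2.2)
  have h2 := far_of M.sit.hσ M.hss M.hδν hz.2.1 hz.2.2 hvb
  rw [dist_comm] at h1
  linarith

/-- **Disjointness.** -/
theorem disj {e' : ℂ} {K : Set ℂ} (hK : IsMk (Pm ℓ (Ug F σ ε ε' xc κ)) (Ug F σ ε ε' xc κ) F σ ν s ℓ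
    (h₁ + 2 * r + 3 * ℓ) (F ((-1 + s : ℝ) : ℂ)) e' K) {y v : ℂ} {X : Set ℂ}
    (hfar : ∀ x ∈ Bx, 6 * ℓ < dist x y) (hv : v ∈ Ug F σ ε ε' xc κ) (hvb : dinv F v ∈ Ωx σ s' δ')
    (hX : ∀ x ∈ X, (x ∈ Ug F σ ε ε' xc κ ∧ dinv F x ∈ Ωx σ s' δ') ∨
        (dist x v ≤ 3 * ℓ ∧ dist x y ≤ 3 * ℓ) ∨ x ∈ Xb) :
    Disjoint (K ∪ (F '' ((fun t : ℝ => (t : ℂ)) '' Icc (-1 + s) t₁)) ∪ Kb) X := by
  have H := M.sit
  have hℓ := H.od.hℓ
  have hν := H.hν
  have hs0 := M.s0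
  have hm0 : 0 < m := lt_of_lt_of_le H.he M.hem
  -- the safe points of the first two parts
  have hKB : ∀ x ∈ K, x ∉ Bx := by
    intro x hx hxB
    have h1 := M.far x hxB
    have h2 := mem_closedBall.1 (hK.small hx)
    linarith
  have hreal : ∀ t ∈ Icc (-1 + s) t₁, F (t : ℂ) ∈ Sf F σ ν s := by
    intro t ht
    have hn : ‖(t : ℂ)‖ < 1 := by
      rw [Complex.norm_real, Real.norm_eq_abs, abs_lt]
      exact ⟨by linarith [ht.1], by linarith [ht.2, M.t₁m]⟩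
    have hb : (t : ℂ) ∈ ball (0 : ℂ) 1 := mem_ball_zero_iff.2 hn
    refine ⟨⟨_, hb, rfl⟩, ?_, ?_⟩
    · rw [H.conf.dinv_apply hb]
      have : (t : ℂ) + 1 = ((t + 1 : ℝ) : ℂ) := by push_cast; ring
      rw [this, Complex.norm_real, Real.norm_of_nonneg (by linarith [ht.1])]
      linarith [ht.1]
    · rw [H.conf.dinv_apply hb, Complex.ofReal_im, mul_zero]
      linarith
  have hsafe : ∀ z ∈ Sf F σ ν s, z ∈ X → False := by
    intro z hz hzX
    rcases hX z hzX with ⟨hzU, hzb⟩ | ⟨hd1, hd2⟩ | hzXb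
    · have h2 := far_of H.hσ M.hss M.hδν hz.2.1 hz.2.2 hzb
      rw [dist_self] at h2
      linarith
    · exact M.no_near' hz hv hvb (by linarith)
    · have h1 := M.Xpos z hzXb hz.1
      have h2 := hz.2.2
      linarith
  rw [disjoint_left]
  rintro z ((hz | ⟨_, ⟨t, ht, rfl⟩, rfl⟩) | hz) hzX
  · rcases hK.safe z hz with h | ⟨u, ⟨huU, hus⟩, hd⟩
    · exact hsafe z h hzX
    · rcases hX z hzX with ⟨hzU, hzb⟩ | ⟨hd1, hd2⟩ | hzXb
      · exact M.no_near huU hus hzU hzb (by rw [dist_comm]; linarith)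
      · refine M.no_near huU hus hv hvb ?_
        have := dist_triangle_left u v z
        linarith
      · exact hKB z hz (M.Xb_bx hzXb)
  · exact hsafe _ (hreal t ht) hzX
  · rcases hX z hzX with ⟨hzU, hzb⟩ | ⟨hd1, hd2⟩ | hzXb
    · exact M.Kpos z hz (H.sub hzU) hzb
    · have := hfar z (M.Kb_bx hz)
      linarith
    · exact disjoint_left.1 M.KX hz hzXb

end Mk

end Vale.Agent.P167.H450.Out
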