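import Vale.Agent.P167.H450.OutY
import Vale.Agent.P167.SG.Walk

/-!
# The order of the mark on the boundary of the outer polygon

* `Mk.ord`: a boundary point with a bad position and the point `s₂` of the other side of the target are
  on the same side of the mark.
* `IsMk.near`: points of `U` near the mark do not have bad positions.
* `Sit.bad_pos`: points of `U` next to the boundary of `U` with small `σ Im`, not near `+ 1`, have bad
  positions.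
* `Mk.clear`: near the mark there is no point of `D` outside of the outer polygon which is seen from
  the base and joined in `D` to the points of `U` near it.
* `mark_move`: a boundary point can be moved along a short arc.
-/

set_option autoImplicit false

namespace Vale.Agent.P167.H450.Out

open Set Metric Filter Topology
open Vale.Agent.P153.R2.R1 (Conf dinv JCurve)
open Vale.Agent.P167.SG Vale.Agent.P167.H450

variable {ι : Type*} {F : ℂ → ℂ} {σ ε ε' xc e ν r ℓ : ℝ} {κ : ι → Set ℂ}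
  {s s' δ' m h₁ t₁ : ℝ} {Bx Kb Xb : Set ℂ} {b s₂ q e' : ℂ} {K : Set ℂ}

/-- The position is bad (with a margin). -/
def BadP (σ s' δ' e m : ℝ) (w : ℂ) : Prop :=
  ‖w + 1‖ < s' - 4 * e - 2 * m ∨ σ * w.im < -δ' - 4 * e - 2 * m

namespace Mk

variable (M : Mk F σ ε ε' xc e ν r ℓ κ s s' δ' m h₁ t₁ Bx Kb Xb b s₂ q)
include M

/-- **The order.** -/
theorem ord [Finite ι] (hs' : s' ≤ 1) (hK : IsMk (Pm ℓ (Ug F σ ε ε' xc κ)) (Ug F σ ε ε' xc κ) F σ ν s ℓ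
    (h₁ + 2 * r + 3 * ℓ) (F ((-1 + s : ℝ) : ℂ)) e' K) {Φ : ℝ → ℂ} {L : ℝ} (hΦ : JCurve Φ L)
    (hfr : frontier (Pm ℓ (Ug F σ ε ε' xc κ)) = range Φ) {tb te t2 ty : ℝ} (hb : Φ tb = b)
    (he : Φ te = e') (h2 : Φ t2 = s₂) (ite : te ∈ Ioo tb (tb + L)) (it2 : t2 ∈ Ioo tb (tb + L))
    (ity : ty ∈ Ioo tb (tb + L)) (hfar : ∀ x ∈ Bx, 6 * ℓ < dist x (Φ ty)) {G : ℤ × ℤ} {u : ℂ}
    (hG : G ∈ MF ℓ (Ug F σ ε ε' xc κ)) (hyG : Φ ty ∈ sqr ℓ G) (hu : u ∈ bk ℓ (br G))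
    (huU : u ∈ Ug F σ ε ε' xc κ) (hbad : BadP σ s' δ' e m (dinv F u)) :
    ty ≠ te ∧ (ty < te ↔ t2 < te) := by
  have H := M.sit
  have hℓ := H.od.hℓ
  have hr := H.od.hr
  have hs0 := M.s0
  have hm0 : 0 < m := lt_of_lt_of_le H.he M.hem
  have hyf : Φ ty ∈ frontier (Pm ℓ (Ug F σ ε ε' xc κ)) := by rw [hfr]; exact ⟨ty, rfl⟩
  obtain ⟨v, hv, hvb, X, x1, x2, x3, x4, x5, x6⟩ := M.exists_X hs' hyf hG hyG hu huU hbad
  have hdis := M.disj hK hfar hv hvb x6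
  set c : Set ℂ := K ∪ (F '' ((fun t : ℝ => (t : ℂ)) '' Icc (-1 + s) t₁)) ∪ Kb with hc
  have hnorm : ∀ t ∈ Icc (-1 + s) t₁, ‖(t : ℂ)‖ < 1 := by
    intro t ht
    rw [Complex.norm_real, Real.norm_eq_abs, abs_lt]
    exact ⟨by linarith [ht.1], by linarith [ht.2, M.t₁m]⟩
  have hcontF : ContinuousOn F ((fun t : ℝ => (t : ℂ)) '' Icc (-1 + s) t₁) :=
    H.conf.diff.continuousOn.mono (by
      rintro _ ⟨t, ht, rfl⟩
      exact mem_ball_zero_iff.2 (hnorm t ht))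
  have hcc : IsCompact c :=
    (hK.cpt.union ((isCompact_Icc.image (by fun_prop)).image_of_continuousOn hcontF)).union M.cb
  have hcp : IsPreconnected c := by
    refine IsPreconnected.union (F t₁) (Or.inr ⟨_, ⟨t₁, ⟨M.t₁s, le_rfl⟩, rfl⟩, rfl⟩) M.Kb_mem ?_ M.pb
    refine IsPreconnected.union (F ((-1 + s : ℝ) : ℂ)) hK.x₀_mem
      ⟨_, ⟨-1 + s, ⟨le_rfl, M.t₁s⟩, rfl⟩, rfl⟩ hK.conn ?_
    exact (isPreconnected_Icc.image _ (by fun_prop)).image _ hcontF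
  have hcore : ∀ t ∈ Icc (-1 + s) t₁, F (t : ℂ) ∈ Pm ℓ (Ug F σ ε ε' xc κ) := by
    intro t ht
    by_cases hts : t < 1 - m ∧ -(1 - m) < t
    · refine sub_Pm hℓ ⟨_, core_mem H.obs M.hem M.hεm hm0 ?_ ?_, rfl⟩
      · have := M.hms
        linarith
      · rw [Complex.norm_real, Real.norm_eq_abs, abs_lt]
        exact ⟨by linarith [hts.2], hts.1⟩
    · exfalso
      apply hts
      have h1 := M.t₁m
      have h2 := M.hms
      have h3 := M.hss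
      have h4 := H.hν
      exact ⟨lt_of_le_of_lt ht.2 h1, by linarith [ht.1]⟩
  have hcsub : c ⊆ insert b (insert e' (Pm ℓ (Ug F σ ε ε' xc κ))) := by
    rintro x ((hx | ⟨_, ⟨t, ht, rfl⟩, rfl⟩) | hx)
    · exact Or.inr (hK.sub hx)
    · exact Or.inr (Or.inr (hcore t ht))
    · rcases M.Kb_sub hx with h | h
      · exact Or.inl h
      · exact Or.inr (Or.inr h)
  have hbc : b ∈ c := Or.inr M.b_mem
  have hec : e' ∈ c := Or.inl (Or.inl hK.e_mem)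
  have hG' := H.od.good_Pm
  have hne : (Pm ℓ (Ug F σ ε ε' xc κ)).Nonempty := ⟨_, M.top⟩
  have n1 : ty ≠ te := by
    rintro rfl
    rw [he] at x4
    exact disjoint_left.1 hdis hec x4
  have n2 : t2 ≠ te := by
    rintro rfl
    rw [h2] at he
    rw [he] at x5
    exact disjoint_left.1 hdis hec x5
  have hcsub' : c ⊆ insert (Φ tb) (insert (Φ te) (Pm ℓ (Ug F σ ε ε' xc κ))) := by
    rw [hb, he]; exact hcsub
  refine ⟨n1, ?_, ?_⟩
  · intro h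
    by_contra hcon
    have h' : te < t2 := lt_of_le_of_ne (not_lt.1 hcon) (Ne.symm n2)
    refine jordan_cross hG' hne hΦ hfr hcc hcp x1 x2 ity.1 h h' it2.2 hcsub' ?_ ?_ ?_ x4 ?_ hdis
    · rw [h2]; exact x3
    · rw [hb]; exact hbc
    · rw [he]; exact hec
    · rw [h2]; exact x5
  · intro h
    by_contra hcon
    have h' : te < ty := lt_of_le_of_ne (not_lt.1 hcon) (Ne.symm n1)
    refine jordan_cross hG' hne hΦ hfr hcc hcp x1 x2 it2.1 h h' ity.2 hcsub' ?_ ?_ ?_ ?_ x4 hdis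
    · rw [h2]
      intro x hx
      rcases x3 hx with h | h | h
      · exact Or.inr (Or.inl h)
      · exact Or.inl h
      · exact Or.inr (Or.inr h)
    · rw [hb]; exact hbc
    · rw [he]; exact hec
    · rw [h2]; exact x5

/-- Points of `U` near the mark have nearly safe positions. -/
theorem near (hK : IsMk (Pm ℓ (Ug F σ ε ε' xc κ)) (Ug F σ ε ε' xc κ) F σ ν s ℓ
    (h₁ + 2 * r + 3 * ℓ) (F ((-1 + s : ℝ) : ℂ)) e' K) {u : ℂ} (hu : u ∈ Ug F σ ε ε' xc κ)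
    (hd : dist u e' ≤ 9 * ℓ) :
    s - 3 * ν ≤ ‖dinv F u + 1‖ ∧ -(3 * ν) ≤ σ * (dinv F u).im := by
  have H := M.sit
  have hℓ := H.od.hℓ
  obtain ⟨z, hz, hzu⟩ : ∃ z ∈ Sf F σ ν s, dist (dinv F u) (dinv F z) ≤ ν := by
    rcases hK.safe e' hK.e_mem with h | ⟨v, ⟨hvU, hvs⟩, hv⟩
    · exact ⟨e', h, H.close' (H.sub hu) (M.nc2 u hu e' h.1 (by linarith) h.2.1 h.2.2)⟩
    · refine ⟨v, hvs, H.close hu hvU ?_⟩
      have := dist_triangle u e' v
      linarith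
  constructor
  · have h3 : ‖dinv F z + 1‖ ≤ dist (dinv F u) (dinv F z) + ‖dinv F u + 1‖ := by
      have : dinv F z + 1 = (dinv F z - dinv F u) + (dinv F u + 1) := by ring
      rw [this, dist_comm, dist_eq_norm]
      exact norm_add_le _ _
    linarith [hz.2.1]
  · have h3 := H.im_dist (w := dinv F z) (w' := dinv F u)
    rw [dist_comm] at h3
    linarith [hz.2.2]

/-- Boundary points near the mark are not bad. -/
theorem near_not_bad (hK : IsMk (Pm ℓ (Ug F σ ε ε' xc κ)) (Ug F σ ε ε' xc κ) F σ ν s ℓ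
    (h₁ + 2 * r + 3 * ℓ) (F ((-1 + s : ℝ) : ℂ)) e' K) {u : ℂ} (hu : u ∈ Ug F σ ε ε' xc κ)
    (hd : dist u e' ≤ 9 * ℓ) : ¬ BadP σ s' δ' e m (dinv F u) := by
  have H := M.sit
  obtain ⟨h1, h2⟩ := M.near hK hu hd
  have h3 := H.he
  have h4 := M.hem
  have h5 := M.hss
  have h6 := M.hδν
  rintro (h | h) <;> linarith

end Mk

/-- **Bad positions.** -/
theorem _root_.Vale.Agent.P167.SG.Sit.bad_pos [Finite ι] (H : Sit F σ ε ε' xc e ν r ℓ κ) {u v : ℂ}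
    (hu : u ∈ Ug F σ ε ε' xc κ) (hv : v ∉ Ug F σ ε ε' xc κ) (huv : dist v u ≤ 3 * ℓ)
    {m₂ τ₂ x₁ : ℝ} (hm2 : ε + 5 * e + ν ≤ m₂) (hε0 : 0 ≤ ε) (hm1 : m₂ ≤ 1)
    (hτ1 : τ₂ ≤ 1) (hδ : δ' + 4 * e + 2 * m ≤ τ₂) (hx0 : 0 ≤ x₁) (hx : (dinv F u).re ≤ x₁)
    (hx1 : x₁ ^ 2 < (1 - m₂) ^ 2 - τ₂ ^ 2) (hs : 2 * m₂ + 2 * τ₂ < s' - 4 * e - 2 * m)
    (hlow : σ * (dinv F u).im ≤ τ₂) : BadP σ s' δ' e m (dinv F u) := by
  have he := H.he
  have hν := H.hν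
  have hn : 1 - m₂ ≤ ‖dinv F u‖ := by
    rcases H.near_alt hu hv huv with h | ⟨w, hw1, hw2, hw3⟩
    · linarith
    · have h1 : 1 - ε ≤ ‖w‖ := by
        by_contra hcon
        exact hw2 ⟨hw1, Or.inl (not_le.1 hcon)⟩
      have h2 : ‖w‖ ≤ dist (dinv F u) w + ‖dinv F u‖ := by
        have : w = (w - dinv F u) + dinv F u := by ring
        rw [dist_comm, dist_eq_norm]
        calc ‖w‖ = ‖(w - dinv F u) + dinv F u‖ := by rw [← this]
          _ ≤ _ := norm_add_le _ _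
      linarith
  have hlt : ‖dinv F u‖ < 1 := mem_ball_zero_iff.1 (H.conf.dinv_mem (H.sub hu))
  by_cases h1 : σ * (dinv F u).im < -δ' - 4 * e - 2 * m
  · exact Or.inr h1
  · left
    push Not at h1
    have key : dist (dinv F u) (-1) ≤ 2 * m₂ + 2 * τ₂ := by
      rcases le_total 0 (σ * (dinv F u).im) with h2 | h2
      · exact near_neg_one H.hσ hlt hn hm1 h2 hlow hτ1 hx0 hx hx1
      · refine near_neg_one (σ := -σ) (by rw [abs_neg]; exact H.hσ) hlt hn hm1 ?_ ?_ hτ1 hx0 hx hx1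
        · linarith
        · linarith
    rw [dist_eq_norm, sub_neg_eq_add] at key
    linarith

/-- **Near the mark nothing outside of the polygon is seen from the base.** -/
theorem Mk.clear [Finite ι] (M : Mk F σ ε ε' xc e ν r ℓ κ s s' δ' m h₁ t₁ Bx Kb Xb b s₂ q)
    (hK : IsMk (Pm ℓ (Ug F σ ε ε' xc κ)) (Ug F σ ε ε' xc κ) F σ ν s ℓ
    (h₁ + 2 * r + 3 * ℓ) (F ((-1 + s : ℝ) : ℂ)) e' K) {m₂ τ₂ x₁ : ℝ} (hm2 : ε + 5 * e + ν ≤ m₂)
    (hε0 : 0 ≤ ε) (hm1 : m₂ ≤ 1) (hτ1 : τ₂ ≤ 1) (hδ : δ' + 4 * e + 2 * m ≤ τ₂)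
    (hτ : ε' + 4 * e + ν ≤ τ₂) (hx0 : 0 ≤ x₁)
    (hx : ∀ u ∈ Ug F σ ε ε' xc κ, dist u e' ≤ 3 * ℓ → (dinv F u).re ≤ x₁)
    (hx1 : x₁ ^ 2 < (1 - m₂) ^ 2 - τ₂ ^ 2) (hs : 2 * m₂ + 2 * τ₂ < s' - 4 * e - 2 * m) {v : ℂ}
    (hv : v ∉ Pm ℓ (Ug F σ ε ε' xc κ)) (hvD : v ∈ F '' ball 0 1) (hvd : dinv F v ∈ Dd κ)
    (hj : ∀ u ∈ Ug F σ ε ε' xc κ, dist u v ≤ 12 * ℓ → Jd (F '' ball 0 1) r u v) :
    9 * ℓ < dist v e' := by
  by_contra hcon
  push Not at hcon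
  have H := M.sit
  have hℓ := H.od.hℓ
  obtain ⟨⟨G, hG, heG⟩, -⟩ := frontier_Pm hℓ hK.fr
  obtain ⟨u, hu, huU⟩ := hG
  have hue : dist u e' ≤ 3 * ℓ := dist_le_of_bk hu (sqr_subset_bk hℓ heG)
  have huv : dist u v ≤ 12 * ℓ := by
    have := dist_triangle_right u v e'
    linarith
  have h1 := H.ftype hv hvD hvd (H.close' (H.sub huU) (hj u huU huv))
  have heU : e' ∉ Ug F σ ε ε' xc κ := fun h =>
    (disjoint_frontier_iff_isOpen.2 isOpen_Pm).le_bot ⟨hK.fr, sub_Pm hℓ h⟩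
  have hε' := H.hε'
  have he := H.he
  have hν := H.hν
  have h2 := H.bad_pos (s' := s') (δ' := δ') (m := m) huU heU (by rw [dist_comm]; exact hue) hm2 hε0
    hm1 hτ1 hδ hx0 (hx u huU hue) hx1 hs (by linarith)
  exact M.near_not_bad hK huU (by linarith) h2

end Vale.Agent.P167.H450.Out
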