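import Vale.Agent.P167.CL.Geo10
import Vale.Agent.P167.H450.CutQc
import Vale.Agent.P167.CL.Lat
import Vale.Agent.P167.H446.PosQ2

/-!
# P167, block CUT: the points of the cut which are outside of the inner polygon, geometry

The squares of the cut (`frz`) with a common corner with a square which is not in the inner polygon
are at distance at most `τ₀ + ϱ + 12 ℓ` of the point `w`.
-/

set_option autoImplicit false

open MeasureTheory Filter Topology Set Metric Complex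

namespace Vale.Agent.P167.H450.PE

open Vale.Agent.P153.R2.L1 (HH)
open Vale.Agent.P164 (loewnerDomain Zf)
open Vale.Agent.P167.H531 Vale.Agent.P167.H558
open Vale.Agent.P167.E6 Vale.Agent.P167.E2 Vale.Agent.P167.H411
open Vale.Agent.P167.H756
open Vale.Agent.P167.H446.Cut
open Vale.Agent.P167.CL Vale.Agent.P167.CL.G1 Vale.Agent.P167.H450.CQ
open Vale.Agent.P167.H446 (Tm mem_Dsq sqr_fce)

section geo

variable {ℓ ϱ μ d τ₀ : ℝ} {c : CutP} {D : Set ℂ} {w : ℂ}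

/-- The points near a brick of the cut. -/
theorem near_bk (H : CutC ℓ ϱ μ d τ₀ c D w) {b : ℤ × ℤ} (hb : G1.KB c b) {z₁ z : ℂ}
    (hz₁ : z₁ ∈ bk ℓ b) (hd : dist z z₁ ≤ 3 * ℓ) :
    ball z ϱ ⊆ D \ gg τ₀ c w ∨ dist z w ≤ τ₀ + ϱ + 5 * ℓ := by
  have hℓ := H.hℓ
  have hϱ := H.hϱ
  have hτ := H.hτ
  have hl := ell_le H
  have hdd := H.hd
  have hal := al_sub_le (c := c) (w := w) (z := z) (u := z₁)
  rw [abs_le] at hal
  have htr : |tr c w z| ≤ |tr c w z₁| + 3 * ℓ := by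
    have h1 : |tr c w z - tr c w z₁| ≤ dist z z₁ := by
      cases h : c.hor
      · simp only [tr, h, Bool.false_eq_true, if_false]
        have := abs_re_le z z₁
        rwa [show z.re - w.re - (z₁.re - w.re) = z.re - z₁.re by ring]
      · simp only [tr, h, if_true]
        have := abs_im_le z z₁
        rwa [show z.im - w.im - (z₁.im - w.im) = z.im - z₁.im by ring]
    have h2 := abs_add_le (tr c w z - tr c w z₁) (tr c w z₁)
    rw [sub_add_cancel] at h2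
    linarith
  rcases kf_pos H hb hz₁ with h | ⟨h1, h2, h3⟩
  · left
    refine G1.near H ?_
    have := dist_triangle z z₁ (pw c w (d / 4))
    linarith
  · have hp := dist_pw_le (c := c) (w := w) (z := z)
    rcases le_or_gt (τ₀ + ϱ) (al c w z) with h4 | h4
    · left
      intro u hu
      rw [mem_ball] at hu
      refine ⟨H.clr (al c w z) (by linarith) (by linarith) (mem_ball.2 ?_), fun h => ?_⟩
      · have := dist_triangle u z (pw c w (al c w z))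
        show dist u (pw c w (al c w z)) < _
        linarith
      · obtain ⟨t, ht0, ht1, rfl⟩ := (mem_gg H).1 h
        have h5 := al_sub_le (c := c) (w := w) (z := pw c w t) (u := z)
        rw [al_pw, abs_le] at h5
        linarith [h5.1]
    · right
      have h5 := dist_pw_pw (c := c) (w := w) (al c w z) 0
      rw [pw_zero, sub_zero, abs_of_nonneg (by linarith)] at h5
      have := dist_triangle z (pw c w (al c w z)) w
      linarith

/-- A common vertex. -/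
theorem exists_vtx {ℓ : ℝ} (hℓ : 0 < ℓ) {F G : ℤ × ℤ} (h : VAdj F G) :
    ∃ z, z ∈ sqr ℓ F ∧ z ∈ sqr ℓ G := by
  obtain ⟨h1, h2⟩ := h
  rw [abs_le] at h1 h2
  have key : ∀ a b : ℤ, a ≤ b → ℓ * (a : ℝ) ≤ ℓ * b := fun a b h =>
    mul_le_mul_of_nonneg_left (by exact_mod_cast h) hℓ.le
  refine ⟨⟨ℓ * (max F.1 G.1 : ℤ), ℓ * (max F.2 G.2 : ℤ)⟩, ⟨?_, ?_, ?_, ?_⟩, ⟨?_, ?_, ?_, ?_⟩⟩
  · exact key _ _ (le_max_left _ _)
  · have := key (max F.1 G.1) (F.1 + 1) (by omega)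
    push_cast at this ⊢
    exact this
  · exact key _ _ (le_max_left _ _)
  · have := key (max F.2 G.2) (F.2 + 1) (by omega)
    push_cast at this ⊢
    exact this
  · exact key _ _ (le_max_right _ _)
  · have := key (max F.1 G.1) (G.1 + 1) (by omega)
    push_cast at this ⊢
    exact this
  · exact key _ _ (le_max_right _ _)
  · have := key (max F.2 G.2) (G.2 + 1) (by omega)
    push_cast at this ⊢
    exact this

/-- A face with a common vertex with a face of the cut is good, or near `w`. -/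
theorem good_or (H : CutC ℓ ϱ μ d τ₀ c D w) {F G : ℤ × ℤ} (hF : F ∈ c.KF) (h : VAdj F G) {z : ℂ}
    (hz : z ∈ bk ℓ (br G)) (hd : τ₀ + ϱ + 8 * ℓ < dist z w) :
    G ∈ GF ℓ ϱ (D \ gg τ₀ c w) (D \ gg τ₀ c w) := by
  obtain ⟨z₁, hz₁, hz₂⟩ := exists_vtx H.hℓ h
  have h1 : ∀ u ∈ bk ℓ (br G), ball u ϱ ⊆ D \ gg τ₀ c w := by
    intro u hu
    rcases near_bk H (kb_of hF) (sqr_subset_bk H.hℓ hz₁)
      (dist_le_of_bk hu (sqr_subset_bk H.hℓ hz₂)) with h3 | h3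
    · exact h3
    · exfalso
      have h4 := dist_le_of_bk hz hu
      have h5 := dist_triangle z u w
      linarith
  refine ⟨h1, fun u hu => h1 u ?_ (mem_ball_self H.hϱ)⟩
  obtain ⟨a1, a2, a3, a4⟩ := hu
  exact ⟨a1.le, a2.le, a3.le, a4.le⟩

end geo

section stage

variable {s : Stg} {T R X Y Rd cd κ μ d τ₀ ρ εn ℓ ϱ : ℝ} {ψ : ℂ → ℂ} {c : CutP} {w : ℂ}
  {F₀ : ℤ × ℤ} {W : ℝ → ℝ} {t : ℝ} {ip ia ib : ZMod s.mP}

/-- The faces outside of `pE` with a common vertex with a face of the cut are near `w`. -/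
theorem out_near (H : StgOf s T R X Y Rd cd κ μ d τ₀ ρ εn ℓ ϱ ψ c w F₀ W t ip ia ib)
    (hc : Cst T R X Y) (hε : SmE εn X) {F G : ℤ × ℤ} (hF : F ∈ c.KF) (h : VAdj F G)
    (hG : G ∉ s.SE) {z : ℂ} (hz : z ∈ sqr ℓ G) : dist z w ≤ τ₀ + ϱ + 8 * ℓ := by
  by_contra hlt
  push Not at hlt
  have hs := H.ok
  have hε' : SmE s.ε X := by rw [H.eε]; exact hε
  have hC := Stg.cutC' hs hc hε' H.cut
  have hℓ := hs.hℓ
  have h1 := good_or hC hF h (z := z) (sqr_subset_bk hℓ (by rw [H.eℓ]; exact hz))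
    (by rw [H.eρ, H.eℓ]; exact hlt)
  have h2 : G ∈ s.GE := Stg.gf_GE H.cut h1
  have hFK : F ∈ s.SE := H.KB_SE (by rw [← Finset.mem_coe, H.cut.hKB]; exact hF)
  exact hG ((Stg.memE hs).2 (cmp_of_vadj (bricky_gf _ _ _ _) h2 ((Stg.memE hs).1 hFK)
    (Stg.SE_good hs hFK) h.symm))

/-- The faces of the box. -/
theorem box_SE (H : StgOf s T R X Y Rd cd κ μ d τ₀ ρ εn ℓ ϱ ψ c w F₀ W t ip ia ib) {F : ℤ × ℤ}
    (h1 : -1 ≤ F.2) (h2 : F.2 < c.q) (h3 : -c.q ≤ F.1) (h4 : F.1 < c.q) : F ∈ s.SE := by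
  have hq := H.cut.cc.hq
  rcases h1.eq_or_lt with h | h
  · refine H.KB_SE ?_
    rw [← Finset.mem_coe, H.cut.hKB]
    exact box_KF (by omega) (by omega) h3 h4
  · exact (Finset.mem_sdiff.1 (Stg.SP_sub H.ok (H.box F (by omega) h2 h3 h4))).1

end stage

/-! ### The squares -/

theorem abs_of_crn {v v' u : ℤ × ℤ} (h : Crn v u) (h' : Crn v' u) :
    |v'.1 - v.1| ≤ 1 ∧ |v'.2 - v.2| ≤ 1 := by
  unfold Crn at h h'
  constructor <;> rw [abs_le] <;> omega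

/-- Cases for the frozen squares. -/
theorem frz_cases {c : CutP} (hc : COk c) {N : ℕ} (hN : 16 ≤ N) (hN2 : 4 ∣ N) {v₀ u : ℤ × ℤ}
    (hu : u ∈ Uset) {E L : ℕ} (hE : ExitE c N E) {Kb : Finset (ℤ × ℤ)}
    (hKb : ∀ v ∈ Kb, fce N (v₀ + u) v ∈ c.KF) {v : ℤ × ℤ} (hv : v ∈ frz (c.leg N v₀ u) L Kb) :
    fce N (v₀ + u) v ∈ c.KF ∨ ∃ i, E ≤ i ∧ i ≤ max E L ∧ |v.1 - ((c.leg N v₀ u).lv i).1| ≤ 1 ∧
      |v.2 - ((c.leg N v₀ u).lv i).2| ≤ 1 := by
  rw [mem_frz] at hv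
  obtain ⟨h | h, hf⟩ := hv
  · exact Or.inl (hKb v h)
  · obtain ⟨v₁, hv₁, x, -, hx1, hx2⟩ := mem_nbh.1 h
    obtain ⟨h1, h2⟩ := abs_of_crn hx1 hx2
    have hOE : v₁ ∈ (c.leg N v₀ u).O E ∨ ∃ i, E ≤ i ∧ i ≤ L ∧ (c.leg N v₀ u).lv i = v₁ := by
      rw [LegP.mem_O] at hv₁ ⊢
      rcases hv₁ with h | h | ⟨i, hi, h⟩
      · exact Or.inl (Or.inl h)
      · exact Or.inl (Or.inr (Or.inl h))
      · rcases le_or_gt i E with h' | h'
        · exact Or.inl (Or.inr (Or.inr ⟨i, h', h⟩))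
        · exact Or.inr ⟨i, h'.le, hi, h⟩
    rcases hOE with hO | ⟨i, hi1, hi2, rfl⟩
    · rcases fce_nbr hc hN hN2 hu hE hO h1 h2 with h3 | h3 | h3
      · exact Or.inl h3
      · exfalso
        obtain ⟨h4, h5, -⟩ := h3
        apply hf
        have e : (c.leg N v₀ u).b = v₀ + u := rfl
        rw [abs_le] at h4
        rw [e]
        omega
      · obtain ⟨rfl, -⟩ := h3
        exact Or.inr ⟨E, le_rfl, le_max_left _ _, h1, h2⟩
    · exact Or.inr ⟨i, hi1, hi2.trans (le_max_right _ _), h1, h2⟩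

/-! ### The end of the leg -/

section leg

variable {n : ℕ} {p : ZMod n → ℤ × ℤ} {k : ℕ} {S : Finset (ℤ × ℤ)} {δ ℓ : ℝ} {N : ℕ}
  {ψ : ℂ → ℂ} {X κ d ϱ τ₀ : ℝ} {v₀ : ℤ × ℤ} {c : CutP} {w : ℂ}

open Vale.Agent.P167.CL.LT

/-- The exit is at distance at most `τ₀ + ϱ + 3 ℓ` of `w`, along the leg. -/
theorem al_exit (H : LT.Dat p k S δ ℓ N ψ X κ d ϱ τ₀ v₀ c w) {u : ℤ × ℤ} (hu : u ∈ Uset) {E : ℕ}
    (hE : ExitE c N E) : al c w (fc ℓ N v₀ ((c.leg N v₀ u).lv E)) ≤ τ₀ + ϱ + 3 * ℓ := by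
  obtain ⟨hu2, hu0, hu1⟩ := uset hu
  have u0 : (0 : ℝ) ≤ u.1 := by exact_mod_cast hu0
  have u1 : (u.1 : ℝ) ≤ 1 := by exact_mod_cast hu1
  have h0 := H.ηp
  have h1 := H.ηℓ
  have h2 := H.N2η
  have h3 := H.Nη
  have hℓ := H.M.cut.hℓ
  have h5 : ℓ / N * (u.1 : ℝ) ≤ ℓ / N := by nlinarith
  have h6 : 0 ≤ ℓ / N * (u.1 : ℝ) := by positivity
  rw [al_lv, H.A_eq hu]
  have hEr : ((E : ℝ) + 1) = ((E : ℤ) + 1 : ℤ) := by push_cast; rfl
  have hE' : (E : ℝ) * (ℓ / N) = (((E : ℤ) + 1 : ℤ) : ℝ) * (ℓ / N) - ℓ / N := by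
    rw [← hEr]; ring
  unfold ExitE at hE
  rw [hE', hE]
  cases hh : c.hor
  · simp only [Bool.false_eq_true, if_false]
    cases hp : c.pos
    · have hsg : c.sg = -1 := by simp [CutP.sg, hp]
      have e1 := (H.M.cut.evn hh hp).2
      rw [hsg]
      have e : ((c.e * (N : ℤ) - (N : ℤ) / 2 + 1 : ℤ) : ℝ) * (ℓ / N) = ℓ * c.e - ℓ / 2 + ℓ / N := by
        push_cast
        linear_combination (c.e : ℝ) * h3 - h2
      simp only
      rw [e]
      push_cast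
      linarith
    · have hsg : c.sg = 1 := by simp [CutP.sg, hp]
      have e1 := (H.M.cut.evp hh hp).2
      rw [hsg]
      have e : (((c.e + 1) * (N : ℤ) + (N : ℤ) / 2 : ℤ) : ℝ) * (ℓ / N) =
          ℓ * (c.e + 1) + ℓ / 2 := by
        push_cast
        linear_combination ((c.e : ℝ) + 1) * h3 + h2
      simp only
      rw [e]
      push_cast
      linarith
  · simp only [if_true]
    have e1 := (H.M.cut.eh hh).2
    cases hp : c.pos
    · have hsg : c.sg = -1 := by simp [CutP.sg, hp]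
      rw [hsg] at e1 ⊢
      have e : (((2 * c.e + 1) * (N : ℤ) + 1 : ℤ) : ℝ) * (ℓ / N) = ℓ * (2 * c.e + 1) + ℓ / N := by
        push_cast
        linear_combination (2 * (c.e : ℝ) + 1) * h3
      simp only
      rw [e]
      push_cast at e1 ⊢
      linarith
    · have hsg : c.sg = 1 := by simp [CutP.sg, hp]
      rw [hsg] at e1 ⊢
      have e : (((2 * c.e + 1) * (N : ℤ) : ℤ) : ℝ) * (ℓ / N) = ℓ * (2 * c.e + 1) := by
        push_cast
        linear_combination (2 * (c.e : ℝ) + 1) * h3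
      simp only
      rw [e]
      push_cast at e1 ⊢
      linarith

/-- The squares of the leg beyond the exit are near `w`. -/
theorem dist_lv (H : LT.Dat p k S δ ℓ N ψ X κ d ϱ τ₀ v₀ c w) {u : ℤ × ℤ} (hu : u ∈ Uset) {E L : ℕ}
    (hE : ExitE c N E) (hL : dist (fc ℓ N v₀ ((c.leg N v₀ u).lv L)) w ≤ 64 * (ℓ / N)) {i : ℕ}
    (h1 : E ≤ i) (h2 : i ≤ L) :
    dist (fc ℓ N v₀ ((c.leg N v₀ u).lv i)) w ≤ τ₀ + ϱ + 8 * ℓ := by
  have h0 := H.ηp
  have h1' := H.ηℓ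
  have hℓ := H.M.cut.hℓ
  have hϱ := H.M.cut.hϱ
  have hτ := H.M.cut.hτ
  have hE' := al_exit H hu hE
  have htr := H.tr_lv hu i
  have hp := dist_pw_le (c := c) (w := w) (z := fc ℓ N v₀ ((c.leg N v₀ u).lv i))
  have h5 := dist_pw_pw (c := c) (w := w) (al c w (fc ℓ N v₀ ((c.leg N v₀ u).lv i))) 0
  rw [pw_zero, sub_zero] at h5
  have hLa : |al c w (fc ℓ N v₀ ((c.leg N v₀ u).lv L))| ≤ 64 * (ℓ / N) := by
    have := al_sub_le (c := c) (w := w) (z := fc ℓ N v₀ ((c.leg N v₀ u).lv L)) (u := w)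
    have e : al c w w = 0 := by simp [al]
    rw [e, sub_zero] at this
    exact this.trans hL
  rw [al_lv] at hE' hLa
  have m1 : (E : ℝ) * (ℓ / N) ≤ i * (ℓ / N) :=
    mul_le_mul_of_nonneg_right (by exact_mod_cast h1) h0.le
  have m2 : (i : ℝ) * (ℓ / N) ≤ L * (ℓ / N) :=
    mul_le_mul_of_nonneg_right (by exact_mod_cast h2) h0.le
  have h6 : |al c w (fc ℓ N v₀ ((c.leg N v₀ u).lv i))| ≤ τ₀ + ϱ + 7 * ℓ := by
    rw [abs_le] at hLa
    rw [al_lv, abs_le]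
    constructor <;> linarith [hLa.1, hLa.2]
  have := dist_triangle (fc ℓ N v₀ ((c.leg N v₀ u).lv i))
    (pw c w (al c w (fc ℓ N v₀ ((c.leg N v₀ u).lv i)))) w
  linarith

end leg

end Vale.Agent.P167.H450.PE
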