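import Vale.Agent.P167.QT.Defs

/-!
# From a lattice polygon to a shape: literal statements

* `S_gadget`: the 5-fold enlargement of a polygon with one boundary side in the direction `(1, 0)`
  inside the outside face of a given side `i` (632).
* `S_shape`: the shape `Sh4` from a polygon `p`, `S` of the coarse lattice (unit = 5), flat near
  the target (the side `0`), with the tip at the side `i`.
-/

set_option autoImplicit false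

namespace Vale.Agent.P167.H450.ShpL

open Set Metric
open Vale.Agent.P167.QT (Sh4)
open Vale.Agent.P167.H825 (enl pdir)
open Vale.Agent.P167.E6 (pt dir face IsPolygon Encloses region)
open Vale.Agent.P167.Enl (PN)

/-- The outside face of the side `i`. -/
def Gf {n : ℕ} (p : ZMod n → ℤ × ℤ) (i : ℕ) : ℤ × ℤ := face (p i) (pdir p i - 1)

/-- The midpoint of the side `i` in the units of the 5-fold enlargement. -/
noncomputable def md {n : ℕ} (p : ZMod n → ℤ × ℤ) (i : ℕ) : ℂ :=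
  (5 / 2 : ℝ) * (pt (p i) + pt (p (i + 1)))

/-- Connected sets which accumulate at `c` can be enlarged inside of `R'` and near `c` so that they
accumulate at `a`. -/
def Reach (R R' : Set ℂ) (c a : ℂ) : Prop :=
  ∀ C : Set ℂ, C ⊆ R → IsPreconnected C → c ∈ closure C →
    ∃ C' : Set ℂ, C ⊆ C' ∧ IsPreconnected C' ∧ C' ⊆ R' ∧ C' ⊆ C ∪ ball c 5 ∧ a ∈ closure C'

/-- **[OutN]** The gadget (632). -/
def S_gadget : Prop :=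
  ∀ {n : ℕ} {p : ZMod n → ℤ × ℤ} {S : Finset (ℤ × ℤ)}, IsPolygon p → Encloses p S →
    ∀ i : ℕ, i < n → ∃ (x k : ℕ) (B : Finset (ℤ × ℤ)) (q : ZMod (5 * n + x) → ℤ × ℤ),
      IsPolygon q ∧ Encloses q (enl S 5 ∪ B) ∧ B ⊆ enl {Gf p i} 5 ∧
      q (k + 1 : ℕ) = q k + (1, 0) ∧ 5 * i + 2 ≤ k ∧ k < 5 * i + 3 + x ∧
      (∀ j : ℕ, j ≤ 5 * i + 2 → q j = PN p 5 j) ∧
      (∀ j : ℕ, 5 * i + 3 ≤ j → j ≤ 5 * n → q (j + x : ℕ) = PN p 5 j) ∧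
      (∀ j : ℕ, 5 * i + 2 ≤ j → j ≤ 5 * i + 3 + x →
        5 * (Gf p i).1 ≤ (q j).1 ∧ (q j).1 ≤ 5 * (Gf p i).1 + 5 ∧
        5 * (Gf p i).2 ≤ (q j).2 ∧ (q j).2 ≤ 5 * (Gf p i).2 + 5) ∧
      Reach (interior (region 1 (enl S 5))) (interior (region 1 (enl S 5 ∪ B))) (md p i)
        (pt (q k) + 1 / 2)

/-- **[SHP-LAT]** The shape. Coarse unit = 5 units. `p`, `S` : the coarse polygon, `p 0 = (0, 0)`,
`p 1 = (1, 0)`; the target is the middle `(5/2, 0)` of the side `0`; `W`, `H` : coarse flat box; `i` : the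
side of the tip. The coordinates of the shape are shifted by `(Kd - 2, 0)` (the mark `d` is `0`). -/
def S_shape : Prop :=
  ∀ {n : ℕ} {p : ZMod n → ℤ × ℤ} {S : Finset (ℤ × ℤ)} (W H Kd Kc ρ B i : ℕ),
    IsPolygon p → Encloses p S → p 0 = (0, 0) → p 1 = (1, 0) →
    (∀ v : ℤ × ℤ, -(W : ℤ) ≤ v.1 → v.1 < 1 → -(H : ℤ) ≤ v.2 → v.2 < H → (v ∈ S ↔ 0 ≤ v.2)) →
    Kc + ρ + 5 ≤ 5 * W → ρ + 5 ≤ 5 * H → 1 ≤ ρ → Kd + ρ ≤ Kc → ρ ≤ Kd →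
    (∀ j, 5 * |(p j).1| + Kd + 10 ≤ B ∧ 5 * |(p j).2| + 10 ≤ B) →
    1 ≤ i → i < n →
    ¬ (-(W : ℤ) ≤ (Gf p i).1 ∧ (Gf p i).1 < 1 ∧ -(H : ℤ) ≤ (Gf p i).2 ∧ (Gf p i).2 < H) →
    ∃ (P : Sh4) (Bm : Finset (ℤ × ℤ)) (x : ℕ), P.Ok ρ ∧ P.m = 5 * n + x ∧ P.l + Kd = P.m ∧
      P.j + Kc = P.m ∧ (∀ i, |(P.q i).1| ≤ B ∧ |(P.q i).2| ≤ B) ∧
      P.S = (enl S 5 ∪ Bm).image (· + ((Kd : ℤ) - 2, 0)) ∧ Bm ⊆ enl {Gf p i} 5 ∧
      5 * i ≤ P.k ∧ P.k ≤ 5 * i + x ∧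
      (∀ j : ℕ, j ≤ 5 * i → P.q j = PN p 5 (j + 2) + ((Kd : ℤ) - 2, 0)) ∧
      (∀ j : ℕ, 5 * i + 1 ≤ j → j ≤ 5 * n →
        P.q (j + x : ℕ) = PN p 5 (j + 2) + ((Kd : ℤ) - 2, 0)) ∧
      (∀ j : ℕ, 5 * i ≤ j → j ≤ 5 * i + 1 + x →
        5 * (Gf p i).1 + ((Kd : ℤ) - 2) ≤ (P.q j).1 ∧
        (P.q j).1 ≤ 5 * (Gf p i).1 + 5 + ((Kd : ℤ) - 2) ∧
        5 * (Gf p i).2 ≤ (P.q j).2 ∧ (P.q j).2 ≤ 5 * (Gf p i).2 + 5) ∧
      Reach (interior (region 1 ((enl S 5).image (· + ((Kd : ℤ) - 2, 0)))))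
        (interior (region 1 P.S)) (md p i + (((Kd : ℝ) - 2 : ℝ) : ℂ)) (pt (P.q P.k) + 1 / 2)

end Vale.Agent.P167.H450.ShpL
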