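import Vale.Agent.P167.H918.KLitN
import Vale.Agent.P167.H653.St.Pc

/-!
# The sides of the lattice domain near the target

`loc_lo`, `loc_ro`: near the target the points of the line to the right (to the left) of the target
are near the left (the right) side `LO` (`RO`).
-/

set_option autoImplicit false

open Filter Topology Set Metric

namespace Vale.Agent.P167.H450.Side

open Vale.Agent.P167.E6 Vale.Agent.P167.H192
open Vale.Agent.P167.H918 (Loc loc_of)
open Vale.Agent.P167.H634 (RO LO RX VB Bx)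
open Vale.Agent.P167.H653.St (frm)
open Vale.Agent.P167.H446.G (rt rt_pt)

section

variable {n : ℕ} {p : ZMod n → ℤ × ℤ} {S : Finset (ℤ × ℤ)} {k M : ℕ} {R : ℤ}

theorem pt_region {δ : ℝ} (hδ : 0 < δ) {v : ℤ × ℤ} (h : v ∈ S) : (δ : ℂ) * pt v ∈ region δ S := by
  refine ⟨v, h, ?_⟩
  simp only [pt, Complex.re_ofReal_mul, Complex.im_ofReal_mul]
  refine ⟨le_rfl, ?_, le_rfl, ?_⟩ <;> nlinarith

theorem rf_up (v : ℤ × ℤ) : rf' ((ro v).1, (ro v).2 + 1) = v := by
  ext <;> simp only [rf', ro] <;> omega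

theorem rf_dn (v : ℤ × ℤ) : rf' ((ro v).1, (ro v).2 - 1) = (v.1 - 1, v.2 - 1) := by
  ext <;> simp only [rf', ro] <;> omega

/-- **The wired side.** -/
theorem loc_lo (H : Loc p S k M R) {δ : ℝ} (hδ : 0 < δ) {m : ℕ} (hm : (m : ℤ) + 2 ≤ R)
    (hev : Even m) (A : Finset (Sym2 (ℤ × ℤ))) (τ : ℕ) :
    ro (p ((k : ZMod n) + m)) = ((ro (p k)).1 + m, (ro (p k)).2) ∧
    (δ : ℂ) * pt (p ((k : ZMod n) + m)) ∈ E2.Om δ S ∧
    (δ : ℂ) * pt (p ((k : ZMod n) + m)) ∈ LO p k A δ τ := by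
  have hR := H.hR
  have hk2 := H.hk2
  have h1 := H.pos_fw m (by omega)
  rw [if_pos hev, sub_zero] at h1
  obtain ⟨v, hv⟩ : ∃ v, v = p ((k : ZMod n) + m) := ⟨_, rfl⟩
  rw [← hv] at h1 ⊢
  have hro := even_ro v
  rw [h1] at hro
  simp only at hro
  have h2 : v ∈ S := by
    have h3 := H.face_iff (s := ((ro v).1, (ro v).2 + 1)) (by
      rw [h1]
      simp only
      rw [Int.even_iff] at *
      omega) (by rw [h1]; simp only; rw [add_sub_cancel_left, abs_of_nonneg (by omega)]; omega)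
      (by rw [h1]; simp only; rw [add_sub_cancel_left, abs_one]; omega)
    rw [rf_up] at h3
    rw [h3, h1]
    simp only
    rw [if_pos (by omega)]
    omega
  refine ⟨h1, ⟨_, pt_region hδ h2, by simpa using hδ, by simpa using hδ⟩, ?_⟩
  refine Or.inr (Or.inl ⟨k + m, by omega, by omega, ?_⟩)
  rw [Nat.cast_add, ← hv]
  show |_| ≤ _ ∧ |_| ≤ _
  simp only [pt, Complex.re_ofReal_mul, Complex.im_ofReal_mul, sub_self, abs_zero]
  constructor <;> positivity

/-- **The free side.** -/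
theorem loc_ro (H : Loc p S k M R) {δ : ℝ} (hδ : 0 < δ) {m : ℕ} (hm : (m : ℤ) + 2 ≤ R) (hm1 : 1 ≤ m)
    (hev : Even m) (A : Finset (Sym2 (ℤ × ℤ))) (τ : ℕ) :
    ro (p ((k : ZMod n) - m)) = ((ro (p k)).1 - m, (ro (p k)).2) ∧
    (δ : ℂ) * pt (p ((k : ZMod n) - m)) - ((5 / 16 * δ : ℝ) : ℂ) * (1 + Complex.I) ∈ E2.Om δ S ∧
    (δ : ℂ) * pt (p ((k : ZMod n) - m)) - ((5 / 16 * δ : ℝ) : ℂ) * (1 + Complex.I) ∈
      RO p k S A δ τ := by
  have hR := H.hR
  have hk1 := H.hk1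
  have hk2 := H.hk2
  have h1 := H.pos_bw m (by omega)
  rw [if_pos hev, add_zero] at h1
  have hcast : (k : ZMod n) - m = ((k - m : ℕ) : ZMod n) := by
    rw [Nat.cast_sub (by omega)]
  obtain ⟨v, hv⟩ : ∃ v, v = p ((k : ZMod n) - m) := ⟨_, rfl⟩
  rw [← hv] at h1 ⊢
  have hro := even_ro v
  rw [h1] at hro
  simp only at hro
  have habs : |(ro (p k)).1 - (m : ℤ) - (ro (p k)).1| + 1 ≤ R := by
    rw [show (ro (p k)).1 - (m : ℤ) - (ro (p k)).1 = -(m : ℤ) by ring, abs_neg,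
      abs_of_nonneg (by omega)]
    omega
  have h2 : v ∈ S := by
    have h3 := H.face_iff (s := ((ro v).1, (ro v).2 + 1)) (by
      rw [h1]
      simp only
      rw [Int.even_iff] at *
      omega) (by rw [h1]; exact habs)
      (by rw [h1]; simp only; rw [add_sub_cancel_left, abs_one]; omega)
    rw [rf_up] at h3
    rw [h3, h1]
    simp only
    rw [if_neg (by omega)]
    omega
  have h4 : (v.1 - 1, v.2 - 1) ∉ S := by
    have h3 := H.face_iff (s := ((ro v).1, (ro v).2 - 1)) (by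
      rw [h1]
      simp only
      rw [Int.even_iff] at *
      omega) (by rw [h1]; exact habs)
      (by
        rw [h1]
        simp only
        rw [show (ro (p k)).2 - 1 - (ro (p k)).2 = -1 by ring, abs_neg, abs_one]
        omega)
    rw [rf_dn] at h3
    rw [h3, h1]
    simp only
    rw [if_neg (by omega)]
    omega
  have e1 : ((δ : ℂ) * pt v - ((5 / 16 * δ : ℝ) : ℂ) * (1 + Complex.I)).re = δ * v.1 - 5 / 16 * δ := by
    simp [pt]
  have e2 : ((δ : ℂ) * pt v - ((5 / 16 * δ : ℝ) : ℂ) * (1 + Complex.I)).im = δ * v.2 - 5 / 16 * δ := by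
    simp [pt]
  have e3 : ((δ : ℂ) * pt v).re = δ * v.1 := by simp [pt]
  have e4 : ((δ : ℂ) * pt v).im = δ * v.2 := by simp [pt]
  refine ⟨h1, ⟨_, pt_region hδ h2, ?_, ?_⟩, Or.inr (Or.inr ⟨?_, Or.inl ⟨k - m, by omega, ?_⟩⟩)⟩
  · rw [e1, e3, sub_sub_cancel_left, abs_neg, abs_of_pos (by positivity)]
    linarith
  · rw [e2, e4, sub_sub_cancel_left, abs_neg, abs_of_pos (by positivity)]
    linarith
  · rintro w ⟨f, hf, f1, f2, f3, f4⟩
    rw [e1, e2]
    by_contra hcon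
    push Not at hcon
    obtain ⟨g1, g2⟩ := hcon
    rw [abs_lt] at g1 g2
    have a1 : (f.1 : ℝ) < v.1 := by
      by_contra hc
      push Not at hc
      nlinarith
    have a2 : (f.2 : ℝ) < v.2 := by
      by_contra hc
      push Not at hc
      nlinarith
    have a3 : (v.1 : ℝ) < f.1 + 2 := by
      by_contra hc
      push Not at hc
      nlinarith
    have a4 : (v.2 : ℝ) < f.2 + 2 := by
      by_contra hc
      push Not at hc
      nlinarith
    have b1 : f.1 < v.1 := by exact_mod_cast a1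
    have b2 : f.2 < v.2 := by exact_mod_cast a2
    have b3 : v.1 < f.1 + 2 := by exact_mod_cast a3
    have b4 : v.2 < f.2 + 2 := by exact_mod_cast a4
    apply h4
    have : f = (v.1 - 1, v.2 - 1) := by ext <;> simp only <;> omega
    rwa [← this]
  · rw [← hcast, ← hv]
    show |_| ≤ _ ∧ |_| ≤ _
    rw [e1, e2]
    have e5 : δ * v.1 - 5 / 16 * δ - δ * v.1 = -(5 / 16 * δ) := by ring
    have e6 : δ * v.2 - 5 / 16 * δ - δ * v.2 = -(5 / 16 * δ) := by ring
    rw [e5, e6, abs_neg, abs_of_pos (by positivity)]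
    constructor <;> linarith

end

/-- the height of the point of the free side -/
theorem rt_sub (δ : ℝ) : rt * (((5 / 16 * δ : ℝ) : ℂ) * (1 + Complex.I)) =
    ((5 / 8 * H446.G.dl δ : ℝ) : ℂ) * Complex.I := by
  apply Complex.ext
  · rw [H446.G.rt_re]
    simp
  · rw [H446.G.rt_im]
    simp [H446.G.dl]
    ring

/-- **Near the target the points of the line are near the sides.** -/
theorem zone_row {Φ : (ℝ × ℝ) ≃ₜ (ℝ × ℝ)} {δ : ℕ → ℝ} {N k : ℕ → ℕ} {p : ∀ n, ZMod (N n) → ℤ × ℤ}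
    {S : ℕ → Finset (ℤ × ℤ)} (hA : Approx Φ δ N k p S) {r : ℝ} (hr : 0 < r)
    (hst : ∀ᶠ n in atTop, ∀ m : ℕ, m * δ n ≤ r →
      p n ((k n : ZMod (N n)) + m + 1) =
        p n ((k n : ZMod (N n)) + m) + (if Even m then dir 3 else dir 0) ∧
      p n ((k n : ZMod (N n)) - m) =
        p n ((k n : ZMod (N n)) - m - 1) + (if Even m then dir 3 else dir 0)) :
    ∃ ρ : ℝ, 0 < ρ ∧ ∀ᶠ n in atTop, ∀ v₀ : ℤ × ℤ, v₀.2 = (ro (p n (k n))).2 → ∀ x : ℝ,
      |x - H446.G.dl (δ n) * (((ro (p n (k n))).1 - v₀.1 : ℤ) : ℝ)| < ρ →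
      2 * H446.G.dl (δ n) ≤ |x - H446.G.dl (δ n) * (((ro (p n (k n))).1 - v₀.1 : ℤ) : ℝ)| →
      ∀ (A : Finset (Sym2 (ℤ × ℤ))) (τ : ℕ), ∃ z ∈ E2.Om (δ n) (S n),
        dist (frm (δ n) v₀ z) x ≤ 3 * H446.G.dl (δ n) ∧
        (H446.G.dl (δ n) * (((ro (p n (k n))).1 - v₀.1 : ℤ) : ℝ) < x → z ∈ LO (p n) (k n) A (δ n) τ) ∧
        (x < H446.G.dl (δ n) * (((ro (p n (k n))).1 - v₀.1 : ℤ) : ℝ) →
          z ∈ RO (p n) (k n) (S n) A (δ n) τ) := by
  obtain ⟨ρ, hρ, h⟩ := loc_of hA hr hst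
  refine ⟨ρ / 2, by positivity, ?_⟩
  filter_upwards [h] with n hn v₀ hv x hx1 hx2 A τ
  obtain ⟨M, H⟩ := hn
  have hδ : 0 < δ n := (hA.1 n).1
  have hdl : 0 < H446.G.dl (δ n) := H446.G.dl_pos hδ
  have hdlδ : δ n ≤ 2 * H446.G.dl (δ n) := by
    rw [show H446.G.dl (δ n) = δ n / √2 from rfl]
    have h2 : (0 : ℝ) < √2 := by positivity
    rw [mul_div_assoc', le_div_iff₀ h2]
    have h3 : √2 ≤ 2 := by
      rw [Real.sqrt_le_left (by norm_num)]
      norm_num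
    nlinarith
  obtain ⟨xb, hxb⟩ : ∃ y : ℝ, y = H446.G.dl (δ n) * (((ro (p n (k n))).1 - v₀.1 : ℤ) : ℝ) := ⟨_, rfl⟩
  rw [← hxb] at hx1 hx2 ⊢
  -- the index
  obtain ⟨m, hmdef⟩ : ∃ m : ℕ, m = 2 * ⌊|x - xb| / (2 * H446.G.dl (δ n))⌋₊ := ⟨_, rfl⟩
  have hm1 : (m : ℝ) * H446.G.dl (δ n) ≤ |x - xb| := by
    have h1 := Nat.floor_le (show 0 ≤ |x - xb| / (2 * H446.G.dl (δ n)) by positivity)
    rw [le_div_iff₀ (by positivity)] at h1
    rw [hmdef]
    push_cast
    linarith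
  have hm2 : |x - xb| < (m : ℝ) * H446.G.dl (δ n) + 2 * H446.G.dl (δ n) := by
    have h1 := Nat.lt_floor_add_one (|x - xb| / (2 * H446.G.dl (δ n)))
    rw [div_lt_iff₀ (by positivity)] at h1
    rw [hmdef]
    push_cast
    linarith
  have hm3 : 1 ≤ m := by
    have h1 : 1 ≤ ⌊|x - xb| / (2 * H446.G.dl (δ n))⌋₊ := by
      rw [Nat.one_le_floor_iff, le_div_iff₀ (by positivity), one_mul]
      exact hx2
    omega
  have hev : Even m := by rw [hmdef]; exact even_two_mul _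
  have hmR : (m : ℤ) + 2 ≤ ⌊ρ / δ n⌋ + 2 := by
    have h1 : (m : ℤ) ≤ ⌊ρ / δ n⌋ := by
      rw [Int.le_floor]
      push_cast
      rw [le_div_iff₀ hδ]
      have h2 : (m : ℝ) * δ n ≤ m * (2 * H446.G.dl (δ n)) := by gcongr
      linarith
    omega
  rcases lt_or_ge xb x with hlt | hge
  · obtain ⟨a1, a2, a3⟩ := loc_lo H hδ hmR hev A τ
    refine ⟨_, a2, ?_, fun _ => a3, fun h => absurd h (not_lt.2 hlt.le)⟩
    have e1 : frm (δ n) v₀ ((δ n : ℂ) * pt (p n ((k n : ZMod (N n)) + m))) =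
        ((xb + m * H446.G.dl (δ n) : ℝ) : ℂ) := by
      unfold frm
      rw [rt_pt, a1, hxb]
      apply Complex.ext
      · simp [pt]
        ring
      · simp [pt, hv]
    rw [e1, Complex.dist_eq, ← Complex.ofReal_sub, Complex.norm_real, Real.norm_eq_abs]
    rw [abs_of_pos (by linarith)] at hm1 hm2
    rw [abs_le]
    constructor <;> linarith
  · have hlt : x < xb := by
      refine lt_of_le_of_ne hge fun h => ?_
      rw [h, sub_self, abs_zero] at hx2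
      linarith
    obtain ⟨a1, a2, a3⟩ := loc_ro H hδ hmR hm3 hev A τ
    refine ⟨_, a2, ?_, fun h => absurd h (not_lt.2 hlt.le), fun _ => a3⟩
    have e1 : frm (δ n) v₀ ((δ n : ℂ) * pt (p n ((k n : ZMod (N n)) - m)) -
        ((5 / 16 * δ n : ℝ) : ℂ) * (1 + Complex.I)) =
        ((xb - m * H446.G.dl (δ n) : ℝ) : ℂ) + ((-(5 / 8 * H446.G.dl (δ n)) : ℝ) : ℂ) * Complex.I := by
      unfold frm
      rw [mul_sub, rt_sub, rt_pt, a1, hxb]
      apply Complex.ext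
      · simp [pt]
        ring
      · simp [pt, hv]
        ring
    rw [e1, Complex.dist_eq]
    rw [abs_of_neg (by linarith)] at hm1 hm2
    refine (Complex.norm_le_abs_re_add_abs_im _).trans ?_
    have e2 : (((xb - m * H446.G.dl (δ n) : ℝ) : ℂ) + ((-(5 / 8 * H446.G.dl (δ n)) : ℝ) : ℂ) * Complex.I -
        (x : ℂ)).re = xb - m * H446.G.dl (δ n) - x := by simp
    have e3 : (((xb - m * H446.G.dl (δ n) : ℝ) : ℂ) + ((-(5 / 8 * H446.G.dl (δ n)) : ℝ) : ℂ) * Complex.I -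
        (x : ℂ)).im = -(5 / 8 * H446.G.dl (δ n)) := by simp
    rw [e2, e3, abs_neg, abs_of_pos (show 0 < 5 / 8 * H446.G.dl (δ n) by positivity),
      abs_of_nonneg (by linarith)]
    linarith

end Vale.Agent.P167.H450.Side
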