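import Vale.Agent.P167.H450.MkC
import Vale.Agent.P167.H450.SideL

/-!
# The side of the point `x₂`

`not_out`: the point `x₂` of the mark is not near the other side.
`side_x2`: so `σ (x₂ - xb) < 0`.
-/

set_option autoImplicit false

namespace Vale.Agent.P167.H450.Out

open Set Metric Filter Topology
open Vale.Agent.P153.R2.R1 (Conf dinv JCurve mb cc)
open Vale.Agent.P153.R2.L1 (HH)
open Vale.Agent.P164 (loewnerDomain gf Zf)
open Vale.Agent.P167.H756 (Cls FD FD_mb FD_img HConf Drv cls_FD)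
open Vale.Agent.P167.SG Vale.Agent.P167.H450

section

variable {T R Rd cd Y X1 X3 rf rc : ℝ} {ι : Type} {ψ : ℂ → ℂ} {W : ℝ → ℝ}
  {t σ xb cg δ r₀ ℓ ε e ν xc ε' x₂ : ℝ} {Gt OUT : Set ℂ} {x₁ : ℂ} {κ : ι → Set ℂ}
  {s s' δ' m h₁ t₁ : ℝ} {Kb Xb : Set ℂ} {b q : ℂ}

/-- **The point `x₂` is not near the other side.** -/
theorem not_out (hd : DifferentiableOn ℂ ψ HH) (hi : InjOn ψ HH) (Hd : Drv T R W t)
    (HF : Flt ψ xb rf cg X1 X3 δ Gt x₁) (h4R : 4 * R ≤ X1) (h16 : 16 * T ≤ X1 ^ 2)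
    (M : Mk (FD ψ W t) σ ε ε' xc e ν (2 * r₀) ℓ κ s s' δ' m h₁ t₁ (Bf xb (rc / 2)) Kb Xb b
      (x₂ : ℂ) q) (hx : x₂ = (FD ψ W t q).re) (hX : Xb = segment ℝ (FD ψ W t q) (x₂ : ℂ))
    (hqD : FD ψ W t q ∈ FD ψ W t '' ball 0 1) (hq0 : 0 < (FD ψ W t q).im) (hrc : rc ≤ rf)
    (h40 : 40 * ℓ ≤ r₀) (hδℓ : 4 * δ ≤ ℓ) (hrf : r₀ ≤ rf / 8)
    (hO : ∀ w ∈ loewnerDomain W t, ψ w ∈ OUT → ∃ x : ℝ, 0 ≤ -σ * x ∧
      dist (pos W t w) (mb 1 Complex.I x) ≤ ν) {w : ℂ} (hw : w ∈ ψ '' HH) (hwO : w ∈ OUT) :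
    δ < dist w x₂ := by
  by_contra hcon
  push Not at hcon
  have hδ := HF.hδ
  have hrf0 := HF.hrf
  have hD : FD ψ W t '' ball 0 1 = ψ '' loewnerDomain W t := FD_img Hd ψ
  have hXb : ∀ z ∈ Xb, z ∈ Bf xb (rc / 2) := fun z hz => M.Xb_bx hz
  -- the point `z`
  obtain ⟨z, hzX, hzD, hzd⟩ : ∃ z ∈ Xb, z ∈ ψ '' loewnerDomain W t ∧ dist z x₂ ≤ 2 * δ := by
    rcases le_or_gt (FD ψ W t q).im (2 * δ) with h | h
    · refine ⟨FD ψ W t q, M.q_mem, by rw [← hD]; exact hqD, ?_⟩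
      have e : FD ψ W t q - (x₂ : ℂ) = (((FD ψ W t q).im : ℝ) : ℂ) * Complex.I := by
        apply Complex.ext <;> simp [hx]
      rw [dist_eq_norm, e, norm_mul, Complex.norm_I, mul_one, Complex.norm_real,
        Real.norm_of_nonneg hq0.le]
      exact h
    · have h1 : (⟨x₂, 2 * δ⟩ : ℂ) ∈ Xb := by
        rw [hX]
        refine ⟨2 * δ / (FD ψ W t q).im, 1 - 2 * δ / (FD ψ W t q).im, by positivity, ?_, by ring, ?_⟩
        · rw [sub_nonneg, div_le_one hq0]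
          exact h.le
        · apply Complex.ext
          · simp only [Complex.add_re, Complex.real_smul, Complex.re_ofReal_mul, Complex.ofReal_re,
              ← hx]
            ring
          · simp only [Complex.add_im, Complex.real_smul, Complex.im_ofReal_mul, Complex.ofReal_im]
            field_simp
            ring
      refine ⟨_, h1, ?_, ?_⟩
      · have h2 := hXb _ h1
        have h3 : (⟨x₂, 2 * δ⟩ : ℂ) ∈ Bf xb rf := bf_mono (by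
          have := (abs_nonneg _).trans_lt h2.2
          linarith) h2
        exact HF.dom_of Hd h4R h16 (HF.up _ h3 (by simp only; linarith)) h3
      · have e : (⟨x₂, 2 * δ⟩ : ℂ) - (x₂ : ℂ) = ((2 * δ : ℝ) : ℂ) * Complex.I := by
          apply Complex.ext <;> simp
        rw [dist_eq_norm, e, norm_mul, Complex.norm_I, mul_one, Complex.norm_real,
          Real.norm_of_nonneg (by positivity)]
  have hzB := hXb z hzX
  have hrc0 : 0 < rc := by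
    have := (abs_nonneg _).trans_lt hzB.2
    linarith
  have hzw : dist z w ≤ 3 * δ := by
    have := dist_triangle_right z w x₂
    linarith
  have hwB : w ∈ Bf xb rf := bf_mono (by linarith) (bf_near hzB hzw)
  have hwD : w ∈ ψ '' loewnerDomain W t := HF.dom_of Hd h4R h16 hw hwB
  obtain ⟨C, j1, j2, j3, j4, j5⟩ := HF.join Hd h4R h16 hzD hwD
    (bf_mono (by linarith) hzB) (by linarith) hzw (by linarith)
  have h1 := M.sit.smr z (by rw [hD]; exact hzD) C (by rw [hD]; exact j2) j1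
    (j3.trans (ball_subset_ball (by linarith))) j4 w j5
  obtain ⟨v, hv, rfl⟩ := hwD
  have h2 : dinv (FD ψ W t) (ψ v) = pos W t v := dinv_FD Hd hd hi hv
  obtain ⟨x, hx0, hx1⟩ := hO v hv hwO
  obtain ⟨h3, h4⟩ := mb_real hx0
  have h5 := M.Xpos z hzX (by rw [hD]; exact hzD)
  have h6 := M.sit.im_dist (w := dinv (FD ψ W t) z) (w' := dinv (FD ψ W t) (ψ v))
  have h7 := M.sit.im_dist (w := dinv (FD ψ W t) (ψ v)) (w' := mb 1 Complex.I x)
  rw [h2] at h1 h6 h7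
  have h8 : 0 ≤ σ * (mb 1 Complex.I (x : ℂ)).im := by linarith
  rw [dist_comm] at h1 hx1
  rw [dist_comm] at h1 hx1
  have h9 := M.sit.im_dist (w' := dinv (FD ψ W t) z) (w := pos W t v)
  have h10 := M.sit.im_dist (w' := pos W t v) (w := mb 1 Complex.I x)
  rw [dist_comm] at h9 h10
  linarith

/-- **The side of the point `x₂`.** -/
theorem side_x2 (hd : DifferentiableOn ℂ ψ HH) (hi : InjOn ψ HH) (Hd : Drv T R W t)
    (HF : Flt ψ xb rf cg X1 X3 δ Gt x₁) (h4R : 4 * R ≤ X1) (h16 : 16 * T ≤ X1 ^ 2)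
    (M : Mk (FD ψ W t) σ ε ε' xc e ν (2 * r₀) ℓ κ s s' δ' m h₁ t₁ (Bf xb (rc / 2)) Kb Xb b
      (x₂ : ℂ) q) (hx : x₂ = (FD ψ W t q).re) (hX : Xb = segment ℝ (FD ψ W t q) (x₂ : ℂ))
    (hqD : FD ψ W t q ∈ FD ψ W t '' ball 0 1) (hq0 : 0 < (FD ψ W t q).im) (hrc : rc ≤ rf)
    (h40 : 40 * ℓ ≤ r₀) (hδℓ : 4 * δ ≤ ℓ) (hrf : r₀ ≤ rf / 8)
    (hO : ∀ w ∈ loewnerDomain W t, ψ w ∈ OUT → ∃ x : ℝ, 0 ≤ -σ * x ∧
      dist (pos W t w) (mb 1 Complex.I x) ≤ ν)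
    (hz : 0 < σ * (x₂ - xb) → ∃ w ∈ ψ '' HH, w ∈ OUT ∧ dist w x₂ ≤ δ) (hne : x₂ ≠ xb) :
    σ * (x₂ - xb) < 0 := by
  by_contra hcon
  push Not at hcon
  have hσ : σ ≠ 0 := fun h => by
    have := M.sit.hσ
    rw [h, abs_zero] at this
    exact one_ne_zero this.symm
  have h1 : 0 < σ * (x₂ - xb) := lt_of_le_of_ne hcon (mul_ne_zero hσ (sub_ne_zero.2 hne)).symm
  obtain ⟨w, hw, hwO, hwd⟩ := hz h1
  exact absurd (not_out hd hi Hd HF h4R h16 M hx hX hqD hq0 hrc h40 hδℓ hrf hO hw hwO)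
    (not_lt.2 hwd)

end

end Vale.Agent.P167.H450.Out
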