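import Vale.Agent.P167.H450.Side
import Vale.Agent.P167.H918.Flt
import Vale.Agent.P167.H713.Q.Bad

/-!
# The side of the point `x₂` for the lattice domains

`side_row`: for the lattice domains with a staircase at the target, `σ (x₂ - xb) < 0`.
-/

set_option autoImplicit false

namespace Vale.Agent.P167.H450.Out

open Set Metric Filter Topology
open Vale.Agent.P153.R2.R1 (Conf dinv JCurve mb cc)
open Vale.Agent.P153.R2.L1 (HH)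
open Vale.Agent.P164 (loewnerDomain gf Zf)
open Vale.Agent.P167.E6 (Approx dir)
open Vale.Agent.P167.H192 (ro)
open Vale.Agent.P167.H411 (Set6)
open Vale.Agent.P167.H446.G (psr)
open Vale.Agent.P167.H653.St (frm)
open Vale.Agent.P167.H713.Q (Sd)
open Vale.Agent.P167.H756 (Cls FD FD_mb FD_img HConf Drv cls_FD)
open Vale.Agent.P167.SG Vale.Agent.P167.H450

/-- **The side of the point `x₂`**, for the lattice domains. -/
theorem side_row {Φ : (ℝ × ℝ) ≃ₜ (ℝ × ℝ)} {φ : ℂ → ℂ} {δ : ℕ → ℝ} {N k : ℕ → ℕ}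
    {p : ∀ n, ZMod (N n) → ℤ × ℤ} {S : ℕ → Finset (ℤ × ℤ)} {ψn : ℕ → ℂ → ℂ}
    (H : Set6 Φ φ δ N k p S ψn) {r : ℝ} (hr : 0 < r)
    (hst : ∀ᶠ n in atTop, ∀ m : ℕ, m * δ n ≤ r →
      p n ((k n : ZMod (N n)) + m + 1) =
        p n ((k n : ZMod (N n)) + m) + (if Even m then dir 3 else dir 0) ∧
      p n ((k n : ZMod (N n)) - m) =
        p n ((k n : ZMod (N n)) - m - 1) + (if Even m then dir 3 else dir 0)) :
    ∃ ρ : ℝ, 0 < ρ ∧ ∀ᶠ n in atTop, ∀ v₀ : ℤ × ℤ, v₀.2 = (ro (p n (k n))).2 →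
      ∀ {c : Bool} {A : Finset (Sym2 (ℤ × ℤ))} {j : ℕ} {T R X1 X3 rf rc : ℝ} {ι : Type}
        {W : ℝ → ℝ} {t σ cg r₀ ℓ ε e ν xc ε' x₂ : ℝ} {Gt : Set ℂ} {x₁ : ℂ} {κ : ι → Set ℂ}
        {s s' δ' m h₁ t₁ : ℝ} {Kb Xb : Set ℂ} {b q : ℂ}, (σ = if c = true then 1 else -1) →
      DifferentiableOn ℂ (psr (δ n) v₀ (ψn n)) HH → InjOn (psr (δ n) v₀ (ψn n)) HH →
      Drv T R W t →
      Flt (psr (δ n) v₀ (ψn n)) (H446.G.dl (δ n) * (((ro (p n (k n))).1 - v₀.1 : ℤ) : ℝ)) rf cg X1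
        X3 (3 * H446.G.dl (δ n)) Gt x₁ → 4 * R ≤ X1 → 16 * T ≤ X1 ^ 2 →
      Mk (FD (psr (δ n) v₀ (ψn n)) W t) σ ε ε' xc e ν (2 * r₀) ℓ κ s s' δ' m h₁ t₁
        (Bf (H446.G.dl (δ n) * (((ro (p n (k n))).1 - v₀.1 : ℤ) : ℝ)) (rc / 2)) Kb Xb b
        (x₂ : ℂ) q → x₂ = (FD (psr (δ n) v₀ (ψn n)) W t q).re →
      Xb = segment ℝ (FD (psr (δ n) v₀ (ψn n)) W t q) (x₂ : ℂ) →
      (∀ z ∈ Bf (H446.G.dl (δ n) * (((ro (p n (k n))).1 - v₀.1 : ℤ) : ℝ)) rc,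
        (z ∈ Pm ℓ (Ug (FD (psr (δ n) v₀ (ψn n)) W t) σ ε ε' xc κ) ↔ 0 < z.im)) →
      rc ≤ rf → 40 * ℓ ≤ r₀ → 4 * (3 * H446.G.dl (δ n)) ≤ ℓ → r₀ ≤ rf / 8 →
      (∀ w ∈ loewnerDomain W t, psr (δ n) v₀ (ψn n) w ∈
        frm (δ n) v₀ '' Sd (p n) (k n) (S n) A j (δ n) (!c) → ∃ x : ℝ, 0 ≤ -σ * x ∧
        dist (pos W t w) (mb 1 Complex.I x) ≤ ν) →
      |x₂ - H446.G.dl (δ n) * (((ro (p n (k n))).1 - v₀.1 : ℤ) : ℝ)| < ρ →
      2 * H446.G.dl (δ n) ≤ |x₂ - H446.G.dl (δ n) * (((ro (p n (k n))).1 - v₀.1 : ℤ) : ℝ)| →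
      σ * (x₂ - H446.G.dl (δ n) * (((ro (p n (k n))).1 - v₀.1 : ℤ) : ℝ)) < 0 := by
  obtain ⟨ρ, hρ, h⟩ := Side.zone_row H.appr hr hst
  obtain ⟨ρ', -, hL⟩ := H918.loc_of H.appr hr hst
  refine ⟨ρ, hρ, ?_⟩
  filter_upwards [h, hL] with n hn hk v₀ hv c A j T R X1 X3 rf rc ι W t σ cg r₀ ℓ ε e ν xc ε' x₂ Gt
    x₁ κ s s' δ' m h₁ t₁ Kb Xb b q hσ hdiff hinj Hd HF h4 h16 M hx hX hfl hrc h40 hδℓ hrf hO hx1 hx2
  have hk : k n + 1 < N n := by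
    obtain ⟨M', hM'⟩ := hk
    have := hM'.hk2
    omega
  have hδ : 0 < δ n := (H.appr.1 n).1
  have hdl : 0 < H446.G.dl (δ n) := H446.G.dl_pos hδ
  have hm : 0 < m := lt_of_lt_of_le M.sit.he M.hem
  have hqb : q ∈ ball (0 : ℂ) 1 := by
    rw [mem_ball_zero_iff]
    have := M.qm
    linarith
  have hm1 : m < 1 := by
    have := (norm_nonneg q).trans_lt M.qm
    linarith
  have hFqU : FD (psr (δ n) v₀ (ψn n)) W t q ∈
      Ug (FD (psr (δ n) v₀ (ψn n)) W t) σ ε ε' xc κ :=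
    ⟨q, core_mem M.sit.obs M.hem M.hεm hm hm1 M.qm, rfl⟩
  have hq0 : 0 < (FD (psr (δ n) v₀ (ψn n)) W t q).im := by
    have h1 := M.Xb_bx M.q_mem
    have h2 : (0 : ℝ) < rc / 2 := (abs_nonneg _).trans_lt h1.2
    exact (hfl _ (bf_mono (by linarith) h1)).1 (sub_Pm M.sit.od.hℓ hFqU)
  have hne : x₂ ≠ H446.G.dl (δ n) * (((ro (p n (k n))).1 - v₀.1 : ℤ) : ℝ) := by
    intro h0
    rw [h0, sub_self, abs_zero] at hx2
    linarith
  have himg : psr (δ n) v₀ (ψn n) '' HH = frm (δ n) v₀ '' E2.Om (δ n) (S n) := by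
    rw [← H918.img_HH H hk, image_image]
    rfl
  refine side_x2 (OUT := frm (δ n) v₀ '' Sd (p n) (k n) (S n) A j (δ n) (!c)) hdiff hinj Hd HF h4
    h16 M hx hX ⟨q, hqb, rfl⟩ hq0 hrc h40 hδℓ hrf hO ?_ hne
  · intro hpos
    obtain ⟨z, hz, hzd, hz1, hz2⟩ := hn v₀ hv x₂ hx1 hx2 A (j - 1)
    refine ⟨frm (δ n) v₀ z, by rw [himg]; exact mem_image_of_mem _ hz, mem_image_of_mem _ ?_, hzd⟩
    cases c
    · rw [Bool.not_false]
      show z ∈ (if true = true then _ else _)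
      rw [if_pos rfl]
      apply hz2
      rw [hσ] at hpos
      simp only [Bool.false_eq_true, if_false] at hpos
      linarith
    · rw [Bool.not_true]
      show z ∈ (if false = true then _ else _)
      rw [if_neg (by simp)]
      apply hz1
      rw [hσ] at hpos
      simp only [if_true] at hpos
      linarith

end Vale.Agent.P167.H450.Out
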