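import Vale.Agent.P167.H450.OutP
import Vale.Agent.P167.E6.Poly6
import Vale.Agent.P167.SG.Cls2

/-!
# The parameters of the points of the flat line

`t2_of`: for the outer polygon with the side `0` from `0` to `ℓ`, flat in a box around the target
`ℓ / 2`, the point `x₂` of the line has a parameter `t2` with `te < t2` for `x₂ < ℓ / 2` and
`t2 < te` for `ℓ / 2 < x₂`.
-/

set_option autoImplicit false

namespace Vale.Agent.P167.H450.T2

open Metric Set
open Vale.Agent.P153.R2.R1 (pl pl_eq)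
open Vale.Agent.P167.E6 (IsPolygon Encloses dir face pt region D6 PF6 PV6 PV6_re PV6_im PF6_per)
open Vale.Agent.P167.H450 (sqr reg)
open Vale.Agent.P167.SG (Bf)

variable {n : ℕ} {p : ZMod n → ℤ × ℤ} {S : Finset (ℤ × ℤ)}

theorem face0 (v : ℤ × ℤ) : face v 0 = v := by simp [face]

theorem face3 (v : ℤ × ℤ) : face v 3 = (v.1, v.2 - 1) := by
  ext <;> simp [face, sub_eq_add_neg]

/-- Faces are determined by the domain. -/
theorem face_iff {T : Finset (ℤ × ℤ)} {ℓ : ℝ} (hℓ : 0 < ℓ) (v : ℤ × ℤ) :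
    (⟨ℓ * (v.1 + 1 / 2), ℓ * (v.2 + 1 / 2)⟩ : ℂ) ∈ D6 ℓ T ↔ v ∈ T := by
  have h : D6 ℓ T = interior (reg ℓ (T : Set (ℤ × ℤ))) := rfl
  rw [h, H450.mem_interior_iff hℓ]
  constructor
  · intro h
    exact h v ⟨by simp only; nlinarith, by simp only; nlinarith, by simp only; nlinarith,
      by simp only; nlinarith⟩
  · rintro hv F ⟨h1, h2, h3, h4⟩
    simp only at h1 h2 h3 h4
    have a1 := le_of_mul_le_mul_left h1 hℓ
    have a2 := le_of_mul_le_mul_left h2 hℓ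
    have a3 := le_of_mul_le_mul_left h3 hℓ
    have a4 := le_of_mul_le_mul_left h4 hℓ
    have b1 : F.1 = v.1 := by
      have c1 : (F.1 : ℝ) < v.1 + 1 := by linarith
      have c2 : (v.1 : ℝ) < F.1 + 1 := by linarith
      have c1' : F.1 < v.1 + 1 := by exact_mod_cast c1
      have c2' : v.1 < F.1 + 1 := by exact_mod_cast c2
      omega
    have b2 : F.2 = v.2 := by
      have c1 : (F.2 : ℝ) < v.2 + 1 := by linarith
      have c2 : (v.2 : ℝ) < F.2 + 1 := by linarith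
      have c1' : F.2 < v.2 + 1 := by exact_mod_cast c1
      have c2' : v.2 < F.2 + 1 := by exact_mod_cast c2
      omega
    have : F = v := Prod.ext b1 b2
    rw [this]
    exact hv

/-- A flat edge. -/
theorem edge_of (hS : Encloses p S) {x : ℤ} (h1 : (x, (0 : ℤ)) ∈ S) (h2 : (x, (-1 : ℤ)) ∉ S) :
    ∃ y, p y = (x, 0) ∧ p (y + 1) = (x + 1, 0) := by
  obtain ⟨y, hy1, hy2⟩ := (hS (x, 0) 0).2 ⟨by rw [face0]; exact h1, by
    have e : (0 : Fin 4) - 1 = 3 := rfl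
    rw [e, face3]
    simpa using h2⟩
  refine ⟨y, hy1, ?_⟩
  rw [hy2]
  simp [dir]

/-- The flat line before the vertex `0`. -/
theorem line_bw {W : ℕ} (hp : IsPolygon p) (hS : Encloses p S) (h0 : p 0 = (0, 0))
    (hf : ∀ x : ℤ, |x| ≤ W → (x, (0 : ℤ)) ∈ S ∧ (x, (-1 : ℤ)) ∉ S) (t : ℕ) (ht : t ≤ W) :
    p (-(t : ZMod n)) = (-(t : ℤ), 0) := by
  induction t with
  | zero => simpa using h0
  | succ t ih =>
    have h1 := ih (by omega)
    have h2 := hf (-((t : ℤ) + 1)) (by rw [abs_neg, abs_of_nonneg (by omega)]; omega)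
    obtain ⟨x, hx1, hx2⟩ := edge_of hS h2.1 h2.2
    have e2 : ((-((t : ℤ) + 1) + 1, 0) : ℤ × ℤ) = (-(t : ℤ), 0) := by
      congr 1
      ring
    rw [e2, ← h1] at hx2
    have h3 := hp.2.1 hx2
    have h4 : x = -((t + 1 : ℕ) : ZMod n) := by
      push_cast
      rw [neg_add, ← h3]
      ring
    rw [← h4, hx1]
    push_cast
    rfl

/-- The flat line after the vertex `0`. -/
theorem line_fw {W : ℕ} (hp : IsPolygon p) (hS : Encloses p S) (h0 : p 0 = (0, 0))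
    (hf : ∀ x : ℤ, |x| ≤ W → (x, (0 : ℤ)) ∈ S ∧ (x, (-1 : ℤ)) ∉ S) (t : ℕ) (ht : t ≤ W + 1) :
    p (t : ZMod n) = ((t : ℤ), 0) := by
  induction t with
  | zero => simpa using h0
  | succ t ih =>
    have h1 := ih (by omega)
    have h2 := hf (t : ℤ) (by rw [abs_of_nonneg (by omega)]; omega)
    obtain ⟨x, hx1, hx2⟩ := edge_of hS h2.1 h2.2
    rw [← h1] at hx1
    have h3 := hp.2.1 hx1
    rw [h3] at hx2
    push_cast
    exact hx2

/-- The curve on the line after the vertex `0`. -/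
theorem pf_fw {W : ℕ} (hp : IsPolygon p) (hS : Encloses p S) (h0 : p 0 = (0, 0))
    (hf : ∀ x : ℤ, |x| ≤ W → (x, (0 : ℤ)) ∈ S ∧ (x, (-1 : ℤ)) ∉ S) {ℓ y : ℝ} (hy : 0 ≤ y)
    (hyW : y ≤ W + 1) : PF6 p ℓ y = ((ℓ * y : ℝ) : ℂ) := by
  obtain ⟨a, ha1, ha2, ha3⟩ : ∃ a : ℕ, (a : ℝ) ≤ y ∧ y ≤ a + 1 ∧ a ≤ W := by
    rcases hyW.lt_or_eq with h | h
    · refine ⟨⌊y⌋₊, Nat.floor_le hy, (Nat.lt_floor_add_one y).le, ?_⟩
      have h1 := Nat.floor_le hy
      have h2 : ((⌊y⌋₊ : ℕ) : ℝ) < (W + 1 : ℕ) := by push_cast; linarith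
      have h3 : ⌊y⌋₊ < W + 1 := by exact_mod_cast h2
      omega
    · exact ⟨W, by linarith, by linarith, le_rfl⟩
  have h1 := line_fw hp hS h0 hf a (by omega)
  have h2 := line_fw hp hS h0 hf (a + 1) (by omega)
  unfold PF6
  rw [pl_eq _ (a : ℤ) (by exact_mod_cast ha1) (by exact_mod_cast ha2)]
  push_cast at h2
  apply Complex.ext
  · simp only [Complex.add_re, Complex.real_smul, Complex.re_ofReal_mul, PV6_re, Complex.ofReal_re]
    push_cast
    rw [h1, h2]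
    push_cast
    ring
  · simp only [Complex.add_im, Complex.real_smul, Complex.im_ofReal_mul, PV6_im, Complex.ofReal_im]
    push_cast
    rw [h1, h2]
    push_cast
    ring

/-- The curve on the line before the vertex `0`. -/
theorem pf_bw {W : ℕ} (hp : IsPolygon p) (hS : Encloses p S) (h0 : p 0 = (0, 0))
    (hf : ∀ x : ℤ, |x| ≤ W → (x, (0 : ℤ)) ∈ S ∧ (x, (-1 : ℤ)) ∉ S) {ℓ y : ℝ} (hy : y ≤ 0)
    (hyW : -(W : ℝ) ≤ y) : PF6 p ℓ y = ((ℓ * y : ℝ) : ℂ) := by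
  rcases hy.lt_or_eq with h | h
  swap
  · exact pf_fw hp hS h0 hf h.ge (by rw [h]; positivity)
  obtain ⟨a, ha1, ha2, ha3⟩ : ∃ a : ℕ, -((a : ℝ) + 1) ≤ y ∧ y ≤ -(a : ℝ) ∧ a + 1 ≤ W := by
    have h2 : 1 ≤ ⌈-y⌉₊ := Nat.one_le_ceil_iff.2 (by linarith)
    refine ⟨⌈-y⌉₊ - 1, ?_, ?_, ?_⟩
    · have h1 := Nat.le_ceil (-y)
      rw [Nat.cast_sub h2]
      push_cast
      linarith
    · have h1 := Nat.ceil_lt_add_one (show 0 ≤ -y by linarith)
      rw [Nat.cast_sub h2]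
      push_cast
      linarith
    · have h3 : ⌈-y⌉₊ ≤ W := Nat.ceil_le.2 (by linarith)
      omega
  have h1 := line_bw hp hS h0 hf a (by omega)
  have h2 := line_bw hp hS h0 hf (a + 1) (by omega)
  unfold PF6
  rw [pl_eq _ (-((a : ℤ) + 1)) (by push_cast; linarith) (by push_cast; linarith)]
  push_cast at h2
  apply Complex.ext
  · simp only [Complex.add_re, Complex.real_smul, Complex.re_ofReal_mul, PV6_re, Complex.ofReal_re]
    push_cast
    rw [h2, show -((a : ZMod n) + 1) + 1 = -(a : ZMod n) by ring, h1]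
    push_cast
    ring
  · simp only [Complex.add_im, Complex.real_smul, Complex.im_ofReal_mul, PV6_im, Complex.ofReal_im]
    push_cast
    rw [h2, show -((a : ZMod n) + 1) + 1 = -(a : ZMod n) by ring, h1]
    push_cast
    ring

/-- **The parameter of the point `x₂`.** -/
theorem t2_of {ℓ rc te x₂ : ℝ} {PM : Set ℂ} {e : ℂ} (hℓ : 0 < ℓ) (hp : IsPolygon p)
    (hS : Encloses p S) (h0 : p 0 = (0, 0)) (hpm : PM = D6 ℓ S) (te1 : 1 ≤ te) (te2 : te ≤ n)
    (hte : PF6 p ℓ te = e) (hfl : ∀ z ∈ Bf (ℓ / 2) rc, (z ∈ PM ↔ 0 < z.im))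
    (he : e ∉ Bf (ℓ / 2) rc) (hx : |x₂ - ℓ / 2| + 3 * ℓ ≤ rc) (hne : x₂ ≠ ℓ / 2) :
    ∃ t2 ∈ Ioo (1 / 2 : ℝ) (1 / 2 + n), PF6 p ℓ t2 = (x₂ : ℂ) ∧ (x₂ < ℓ / 2 → te < t2) ∧
      (ℓ / 2 < x₂ → t2 < te) := by
  have hn : 2 < n := hp.1
  have hnr : (2 : ℝ) < n := by exact_mod_cast hn
  -- the flat faces
  obtain ⟨W, hW1, hW2⟩ : ∃ W : ℕ, (W : ℝ) * ℓ < rc ∧ |x₂ - ℓ / 2| + ℓ ≤ W * ℓ := by
    refine ⟨⌈(|x₂ - ℓ / 2| + ℓ) / ℓ⌉₊, ?_, ?_⟩
    · have h1 := Nat.ceil_lt_add_one (show 0 ≤ (|x₂ - ℓ / 2| + ℓ) / ℓ by positivity)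
      have h2 : (|x₂ - ℓ / 2| + ℓ) / ℓ * ℓ = |x₂ - ℓ / 2| + ℓ := by field_simp
      nlinarith
    · have h1 := Nat.le_ceil ((|x₂ - ℓ / 2| + ℓ) / ℓ)
      have h2 : (|x₂ - ℓ / 2| + ℓ) / ℓ * ℓ = |x₂ - ℓ / 2| + ℓ := by field_simp
      nlinarith
  have hWℓ : ℓ ≤ W * ℓ := by
    have := abs_nonneg (x₂ - ℓ / 2)
    linarith
  have hf : ∀ x : ℤ, |x| ≤ W → (x, (0 : ℤ)) ∈ S ∧ (x, (-1 : ℤ)) ∉ S := by
    intro x hxW
    have h1 : |(x : ℝ)| ≤ W := by exact_mod_cast hxW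
    have h2 : |ℓ * x| < rc := by
      rw [abs_mul, abs_of_pos hℓ]
      nlinarith
    constructor
    · rw [← face_iff hℓ, ← hpm, hfl]
      · simp only
        push_cast
        positivity
      · refine ⟨?_, ?_⟩
        · simp only
          rw [show ℓ * ((x : ℝ) + 1 / 2) - ℓ / 2 = ℓ * x by ring]
          exact h2
        · simp only
          push_cast
          rw [zero_add, abs_of_pos (by positivity)]
          linarith
    · rw [← face_iff hℓ, ← hpm, hfl]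
      · simp only
        push_cast
        nlinarith
      · refine ⟨?_, ?_⟩
        · simp only
          rw [show ℓ * ((x : ℝ) + 1 / 2) - ℓ / 2 = ℓ * x by ring]
          exact h2
        · simp only
          push_cast
          rw [show ℓ * (-1 + 1 / 2) = -(ℓ / 2) by ring, abs_neg, abs_of_pos (by positivity)]
          linarith
  -- points of the line in the box
  have hbox : ∀ y : ℝ, |ℓ * y - ℓ / 2| < rc → ((ℓ * y : ℝ) : ℂ) ∈ Bf (ℓ / 2) rc := by
    intro y hy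
    refine ⟨by rwa [Complex.ofReal_re], ?_⟩
    rw [Complex.ofReal_im, abs_zero]
    exact (abs_nonneg _).trans_lt hy
  have hx' := abs_le.1 (show |x₂ - ℓ / 2| ≤ |x₂ - ℓ / 2| from le_rfl)
  have hexy : ℓ * (x₂ / ℓ) = x₂ := by field_simp
  rcases lt_or_gt_of_ne hne with hlt | hgt
  · have hy1 : x₂ / ℓ < 1 / 2 := by
      rw [div_lt_iff₀ hℓ]
      linarith
    have habs : |x₂ - ℓ / 2| = ℓ / 2 - x₂ := by
      rw [abs_of_neg (by linarith)]
      ring
    have hyW : -(W : ℝ) ≤ x₂ / ℓ := by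
      rw [le_div_iff₀ hℓ]
      linarith
    have hPF : ∀ y : ℝ, -(W : ℝ) ≤ y → y ≤ 1 → PF6 p ℓ y = ((ℓ * y : ℝ) : ℂ) := by
      intro y h1 h2
      rcases le_total y 0 with h | h
      · exact pf_bw hp hS h0 hf h h1
      · exact pf_fw hp hS h0 hf h (by
          have : (0 : ℝ) ≤ W := by positivity
          linarith)
    -- the curve passes at most once
    have hWn : -(n : ℝ) + 1 / 2 < x₂ / ℓ := by
      by_contra hcon
      push Not at hcon
      have h1 := hPF (-(n : ℝ) + 1 / 2) (by linarith) (by linarith)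
      have h2 := hPF (1 / 2) (by
        have : (0 : ℝ) ≤ W := by positivity
        linarith) (by norm_num)
      have h3 := PF6_per (p := p) (δ := ℓ) (-(n : ℝ) + 1 / 2)
      rw [show -(n : ℝ) + 1 / 2 + n = 1 / 2 by ring, h1, h2] at h3
      have h4 : ℓ * (1 / 2) = ℓ * (-(n : ℝ) + 1 / 2) := by exact_mod_cast h3
      have h5 := mul_left_cancel₀ hℓ.ne' h4
      linarith
    refine ⟨x₂ / ℓ + n, ⟨by linarith, by linarith⟩, ?_, fun _ => ?_, fun h => absurd h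
      (not_lt.2 hlt.le)⟩
    · rw [PF6_per, hPF _ hyW (by linarith), hexy]
    · by_contra hcon
      push Not at hcon
      apply he
      have h1 := PF6_per (p := p) (δ := ℓ) (te - n)
      rw [sub_add_cancel, hte] at h1
      rw [h1, hPF _ (by linarith) (by linarith)]
      have h2 : ℓ * (x₂ / ℓ) ≤ ℓ * (te - n) := mul_le_mul_of_nonneg_left (by linarith) hℓ.le
      have h3 : ℓ * (te - n) ≤ ℓ * 0 := mul_le_mul_of_nonneg_left (by linarith) hℓ.le
      rw [hexy] at h2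
      apply hbox
      rw [abs_lt]
      constructor <;> linarith
  · have hy1 : 1 / 2 < x₂ / ℓ := by
      rw [lt_div_iff₀ hℓ]
      linarith
    have habs : |x₂ - ℓ / 2| = x₂ - ℓ / 2 := abs_of_pos (by linarith)
    have hyW : x₂ / ℓ ≤ W := by
      rw [div_le_iff₀ hℓ]
      linarith
    have hPF : ∀ y : ℝ, 0 ≤ y → y ≤ W + 1 → PF6 p ℓ y = ((ℓ * y : ℝ) : ℂ) := fun y h1 h2 =>
      pf_fw hp hS h0 hf h1 h2
    have hWn : x₂ / ℓ < 1 / 2 + n := by
      by_contra hcon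
      push Not at hcon
      have h1 := hPF (1 / 2 + (n : ℝ)) (by positivity) (by linarith)
      have h2 := hPF (1 / 2) (by norm_num) (by
        have : (0 : ℝ) ≤ W := by positivity
        linarith)
      have h3 := PF6_per (p := p) (δ := ℓ) (1 / 2)
      rw [h1, h2] at h3
      have h4 : ℓ * (1 / 2 + (n : ℝ)) = ℓ * (1 / 2) := by exact_mod_cast h3
      have h5 := mul_left_cancel₀ hℓ.ne' h4
      linarith
    refine ⟨x₂ / ℓ, ⟨by linarith, hWn⟩, ?_, fun h => absurd h (not_lt.2 hgt.le), fun _ => ?_⟩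
    · rw [hPF _ (by linarith) (by linarith), hexy]
    · by_contra hcon
      push Not at hcon
      apply he
      rw [← hte, hPF _ (by linarith) (by linarith)]
      have h2 : ℓ * te ≤ ℓ * (x₂ / ℓ) := mul_le_mul_of_nonneg_left hcon hℓ.le
      have h3 : ℓ * 1 ≤ ℓ * te := mul_le_mul_of_nonneg_left te1 hℓ.le
      rw [hexy] at h2
      apply hbox
      rw [abs_lt]
      constructor <;> linarith

end Vale.Agent.P167.H450.T2
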